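import Vale.Agent.P057.KM.GoodTuples

namespace Vale.Agent.P057.KM

open Finset

variable {G : Type*} [AddCommGroup G] [Fintype G] [DecidableEq G]

omit [Fintype G] in
/-- pigeonhole on the common shift -/
theorem exists_shift (A B U : Finset G) (hA : A.Nonempty) (hB : B.Nonempty) (m : ℕ)
    (Good : Finset (Fin m → G)) (hGood : Good ⊆ Fintype.piFinset (fun _ : Fin m => A))
    (hU : ∀ a ∈ A, ∀ b ∈ B, a + b ∈ U) :
    ∃ v : Fin m → G, Good.card * B.card ≤
      U.card ^ m * (B.filter (fun t => (fun i => v i - t) ∈ Good)).card := by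
  by_contra hcon
  push Not at hcon
  have hUne : U.Nonempty := by
    obtain ⟨a, ha⟩ := hA
    obtain ⟨b, hb⟩ := hB
    exact ⟨a + b, hU a ha b hb⟩
  have hUpos : 0 < U.card ^ m := pow_pos hUne.card_pos m
  have hVc : (Fintype.piFinset (fun _ : Fin m => U)).card = U.card ^ m := by
    rw [Fintype.card_piFinset]; simp
  have hVne : (Fintype.piFinset (fun _ : Fin m => U)).Nonempty := by
    rw [← Finset.card_pos, hVc]; exact hUpos
  have h1 : ∑ v ∈ Fintype.piFinset (fun _ : Fin m => U),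
      U.card ^ m * (B.filter (fun t => (fun i => v i - t) ∈ Good)).card <
      ∑ _v ∈ Fintype.piFinset (fun _ : Fin m => U), Good.card * B.card :=
    Finset.sum_lt_sum_of_nonempty hVne fun v _ => hcon v
  rw [← Finset.mul_sum, Finset.sum_const, smul_eq_mul, hVc] at h1
  have h2 := lt_of_mul_lt_mul_left h1 (Nat.zero_le _)
  have h3 : Good.card * B.card ≤ ∑ v ∈ Fintype.piFinset (fun _ : Fin m => U),
      (B.filter (fun t => (fun i => v i - t) ∈ Good)).card := by
    have e : ∑ v ∈ Fintype.piFinset (fun _ : Fin m => U),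
        (B.filter (fun t => (fun i => v i - t) ∈ Good)).card =
        ∑ t ∈ B, ((Fintype.piFinset (fun _ : Fin m => U)).filter
          (fun v => (fun i => v i - t) ∈ Good)).card := by
      simp_rw [Finset.card_filter]
      rw [Finset.sum_comm]
    rw [e, mul_comm, ← smul_eq_mul, ← Finset.sum_const]
    refine Finset.sum_le_sum fun t ht => ?_
    refine Finset.card_le_card_of_injOn (fun w i => w i + t) ?_ ?_
    · intro w hw
      have hw' : w ∈ Good := by simpa using hw
      have hwA := hGood hw'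
      rw [Fintype.mem_piFinset] at hwA
      simp only [Finset.coe_filter, Set.mem_ofPred_eq, Fintype.mem_piFinset]
      refine ⟨fun i => hU _ (hwA i) _ ht, ?_⟩
      have : (fun i => w i + t - t) = w := by funext i; abel
      rw [this]; exact hw'
    · intro w _ w' _ hww
      funext i
      have := congrFun hww i
      simpa using this
  omega

omit [AddCommGroup G] [Fintype G] [DecidableEq G] in
/-- from an `L^{2q}` bound on `W` to an `L^1` bound on a small subset -/
theorem l1_bound (Y W : Finset G) (hYW : Y ⊆ W) (z : G → ℝ) (N : ℝ) (m q : ℕ) (hq : 1 ≤ q)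
    (hm : 0 < m) (hYN : (Y.card : ℝ) ≤ N)
    (hz : ∑ x ∈ W, z x ^ (2 * q) ≤ 2 * W.card * (4 * Real.exp 1 * q / m) ^ q)
    (hqW : 2 * (W.card : ℝ) ≤ Real.exp (2 * q) * N) :
    ∑ y ∈ Y, |z y| ≤ 2 * (Real.exp 1 * Real.sqrt (4 * Real.exp 1 * q / m)) * N := by
  have hq0 : (0 : ℝ) < q := by exact_mod_cast hq
  have hm0 : (0 : ℝ) < m := by exact_mod_cast hm
  have hη : 0 < 4 * Real.exp 1 * q / m := by positivity
  set l : ℝ := Real.exp 1 * Real.sqrt (4 * Real.exp 1 * q / m) with hl
  have hl0 : 0 < l := by positivity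
  have hl2 : l ^ (2 * q) = Real.exp (2 * q) * (4 * Real.exp 1 * q / m) ^ q := by
    rw [hl, mul_pow, ← Real.exp_nat_mul, pow_mul (Real.sqrt _), Real.sq_sqrt hη.le]
    push_cast
    ring_nf
  have hpt : ∀ x, |z x| ≤ l + l * (z x ^ (2 * q) / l ^ (2 * q)) := by
    intro x
    rcases le_total (|z x|) l with h | h
    · have : 0 ≤ z x ^ (2 * q) / l ^ (2 * q) :=
        div_nonneg ((even_two_mul q).pow_nonneg _) (pow_nonneg hl0.le _)
      nlinarith
    · have h1 : 1 ≤ |z x| / l := by rwa [le_div_iff₀ hl0, one_mul]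
      have h2 : |z x| / l ≤ (|z x| / l) ^ (2 * q) := le_self_pow₀ h1 (by omega)
      have h3 : (|z x| / l) ^ (2 * q) = z x ^ (2 * q) / l ^ (2 * q) := by
        rw [div_pow]
        congr 1
        rw [pow_mul, sq_abs, ← pow_mul]
      rw [h3] at h2
      have h4 : |z x| = l * (|z x| / l) := by field_simp
      have h5 : l * (|z x| / l) ≤ l * (z x ^ (2 * q) / l ^ (2 * q)) :=
        mul_le_mul_of_nonneg_left h2 hl0.le
      linarith
  have hsumY : ∑ y ∈ Y, z y ^ (2 * q) ≤ ∑ x ∈ W, z x ^ (2 * q) :=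
    Finset.sum_le_sum_of_subset_of_nonneg hYW fun x _ _ => (even_two_mul q).pow_nonneg _
  have hl2pos : 0 < l ^ (2 * q) := pow_pos hl0 _
  have h6 : (∑ y ∈ Y, z y ^ (2 * q)) / l ^ (2 * q) ≤ N := by
    rw [div_le_iff₀ hl2pos, hl2]
    have h7 : 2 * (W.card : ℝ) * (4 * Real.exp 1 * q / m) ^ q ≤
        Real.exp (2 * q) * N * (4 * Real.exp 1 * q / m) ^ q :=
      mul_le_mul_of_nonneg_right hqW (by positivity)
    calc ∑ y ∈ Y, z y ^ (2 * q) ≤ _ := hsumY
      _ ≤ _ := hz
      _ ≤ _ := h7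
      _ = _ := by ring
  calc ∑ y ∈ Y, |z y| ≤ ∑ y ∈ Y, (l + l * (z y ^ (2 * q) / l ^ (2 * q))) :=
        Finset.sum_le_sum fun y _ => hpt y
    _ = Y.card * l + l * ((∑ y ∈ Y, z y ^ (2 * q)) / l ^ (2 * q)) := by
        rw [Finset.sum_add_distrib, Finset.sum_const, nsmul_eq_mul, ← Finset.mul_sum,
          Finset.sum_div]
    _ ≤ N * l + l * N := by
        refine add_le_add (mul_le_mul_of_nonneg_right hYN hl0.le)
          (mul_le_mul_of_nonneg_left h6 hl0.le)
    _ = 2 * l * N := by ring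

omit [Fintype G] in
theorem smp_shift {m : ℕ} (S : Finset G) (v : Fin m → G) (t x : G) :
    smp S (fun i => v i - t) x = smp S v (x + t) := by
  unfold smp
  congr 1
  refine Finset.sum_congr rfl fun i _ => ?_
  have : x - (v i - t) = x + t - v i := by abel
  rw [this]

omit [Fintype G] in
theorem almost_periodic (A S U W B : Finset G) (hA : A.Nonempty) (hB : B.Nonempty)
    (k m q : ℕ) (ε : ℝ) (hε : 0 < ε) (hε1 : ε ≤ 1) (hk : 1 ≤ k) (hq : 1 ≤ q)
    (hU : ∀ a ∈ A, ∀ b ∈ B, a + b ∈ U)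
    (hW : ∀ a ∈ A, ∀ j ≤ k, ∀ s s' : Fin j → G, (∀ i, s i ∈ B) → (∀ i, s' i ∈ B) →
      a + ∑ i, s i - ∑ i, s' i ∈ W)
    (hqW : 2 * (W.card : ℝ) ≤ Real.exp (2 * q) * A.card)
    (hm : 1300 * (k : ℝ) ^ 2 * q / ε ^ 2 ≤ m) :
    ∃ T : Finset G, T ⊆ B ∧ (1 / 2) * ((A.card : ℝ) / U.card) ^ m * B.card ≤ T.card ∧
      ∀ t t' : Fin k → G, (∀ i, t i ∈ T) → (∀ i, t' i ∈ T) →
        ∑ a ∈ A, |FS A S (a + ∑ i, t i - ∑ i, t' i) - FS A S a| ≤ ε * A.card := by
  have hAc : (0 : ℝ) < A.card := by exact_mod_cast hA.card_pos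
  have hq0 : (0 : ℝ) < q := by exact_mod_cast hq
  have hk1 : (1 : ℝ) ≤ k := by exact_mod_cast hk
  have hm' : 1300 * (k : ℝ) ^ 2 * q ≤ m * ε ^ 2 := by
    rwa [div_le_iff₀ (by positivity)] at hm
  have hqm' : (q : ℝ) ≤ m := by
    have hε2 : ε ^ 2 ≤ 1 := pow_le_one₀ hε.le hε1
    have hmn : (0 : ℝ) ≤ m := Nat.cast_nonneg _
    have h1 : (m : ℝ) * ε ^ 2 ≤ m := by nlinarith
    have hk2 : (1 : ℝ) ≤ (k : ℝ) ^ 2 := one_le_pow₀ hk1
    have h2 : (q : ℝ) ≤ 1300 * (k : ℝ) ^ 2 * q :=
      le_mul_of_one_le_left hq0.le (by linarith)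
    linarith
  have hqm : q ≤ m := by exact_mod_cast hqm'
  have hmpos : 0 < m := lt_of_lt_of_le hq hqm
  have hm0 : (0 : ℝ) < m := by exact_mod_cast hmpos
  set η : ℝ := (4 * Real.exp 1 * q / m) ^ q with hη
  set Good := (Fintype.piFinset (fun _ : Fin m => A)).filter (fun v =>
      ∑ x ∈ W, (smp S v x - FS A S x) ^ (2 * q) ≤ 2 * W.card * η) with hGood
  have hgood := many_good A S W hA m q hq hqm
  rw [← hη, ← hGood] at hgood
  obtain ⟨v, hv⟩ := exists_shift A B U hA hB m Good (Finset.filter_subset _ _) hU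
  set T := B.filter (fun t => (fun i => v i - t) ∈ Good) with hT
  set l : ℝ := Real.exp 1 * Real.sqrt (4 * Real.exp 1 * q / m) with hl
  have hl0 : 0 < l := by positivity
  have hUne : U.Nonempty := by
    obtain ⟨a, ha⟩ := hA
    obtain ⟨b, hb⟩ := hB
    exact ⟨a + b, hU a ha b hb⟩
  have hUc : (0 : ℝ) < U.card := by exact_mod_cast hUne.card_pos
  have hTz : ∀ t ∈ T, ∑ x ∈ W, (smp S v (x + t) - FS A S x) ^ (2 * q) ≤
      2 * W.card * (4 * Real.exp 1 * q / m) ^ q := by
    intro t ht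
    rw [hT, Finset.mem_filter] at ht
    have h1 := ht.2
    rw [hGood, Finset.mem_filter] at h1
    have h2 := h1.2
    simp_rw [smp_shift] at h2
    exact h2
  -- one translate bound
  have hone : ∀ t ∈ T, ∀ u : G, (∀ a ∈ A, a + u ∈ W) →
      ∑ a ∈ A, |smp S v (a + u + t) - FS A S (a + u)| ≤ 2 * l * A.card := by
    intro t ht u hu
    have h1 := l1_bound (A.image (fun a => a + u)) W (by
      intro y hy
      rw [Finset.mem_image] at hy
      obtain ⟨a, ha, rfl⟩ := hy
      exact hu a ha) (fun x => smp S v (x + t) - FS A S x) A.card m q hq hmpos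
      (by exact_mod_cast Finset.card_image_le) (hTz t ht) hqW
    rw [Finset.sum_image (fun x _ y _ hxy => add_right_cancel hxy)] at h1
    exact h1
  have hstep : ∀ j ≤ k, ∀ s s' : Fin j → G, (∀ i, s i ∈ T) → (∀ i, s' i ∈ T) →
      ∑ a ∈ A, |FS A S (a + ∑ i, s i - ∑ i, s' i) - FS A S a| ≤ 4 * l * j * A.card := by
    intro j
    induction j with
    | zero =>
      intro _ s s' _ _
      simp
    | succ j ih =>
      intro hj s s' hs hs'
      have ih' := ih (by omega) (fun i => s i.castSucc) (fun i => s' i.castSucc)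
        (fun i => hs _) (fun i => hs' _)
      set u : G := ∑ i : Fin j, s i.castSucc - ∑ i : Fin j, s' i.castSucc with hu
      set t := s (Fin.last j) with ht
      set t' := s' (Fin.last j) with ht'
      have htT : t ∈ T := hs _
      have htT' : t' ∈ T := hs' _
      have hTB : ∀ x, x ∈ T → x ∈ B := fun x hx => (Finset.mem_filter.mp hx).1
      have hw1 : ∀ a ∈ A, a + u ∈ W := by
        intro a ha
        have := hW a ha j (by omega) (fun i => s i.castSucc) (fun i => s' i.castSucc)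
          (fun i => hTB _ (hs _)) (fun i => hTB _ (hs' _))
        have e : a + u = a + ∑ i : Fin j, s i.castSucc - ∑ i : Fin j, s' i.castSucc := by
          rw [hu]; abel
        rw [e]; exact this
      have hw2 : ∀ a ∈ A, a + (u + t - t') ∈ W := by
        intro a ha
        have := hW a ha (j + 1) hj s s' (fun i => hTB _ (hs _)) (fun i => hTB _ (hs' _))
        rw [Fin.sum_univ_castSucc, Fin.sum_univ_castSucc] at this
        have e : a + (u + t - t') = a + (∑ i : Fin j, s i.castSucc + s (Fin.last j)) -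
            (∑ i : Fin j, s' i.castSucc + s' (Fin.last j)) := by
          rw [hu, ht, ht']; abel
        rw [e]; exact this
      have h1 := hone t htT u hw1
      have h2 := hone t' htT' (u + t - t') hw2
      have hpt : ∀ a ∈ A, |FS A S (a + ∑ i, s i - ∑ i, s' i) - FS A S a| ≤
          |FS A S (a + ∑ i : Fin j, s i.castSucc - ∑ i : Fin j, s' i.castSucc) - FS A S a| +
          |smp S v (a + u + t) - FS A S (a + u)| +
          |smp S v (a + (u + t - t') + t') - FS A S (a + (u + t - t'))| := by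
        intro a _
        have e1 : a + ∑ i, s i - ∑ i, s' i = a + (u + t - t') := by
          rw [Fin.sum_univ_castSucc, Fin.sum_univ_castSucc, hu, ht, ht']; abel
        have e2 : a + ∑ i : Fin j, s i.castSucc - ∑ i : Fin j, s' i.castSucc = a + u := by
          rw [hu]; abel
        have e3 : a + (u + t - t') + t' = a + u + t := by abel
        rw [e1, e2, e3]
        have h4 : FS A S (a + (u + t - t')) - FS A S a =
            (FS A S (a + u) - FS A S a) + (smp S v (a + u + t) - FS A S (a + u)) -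
            (smp S v (a + u + t) - FS A S (a + (u + t - t'))) := by ring
        rw [h4]
        refine (abs_sub _ _).trans ?_
        have := abs_add_le (FS A S (a + u) - FS A S a) (smp S v (a + u + t) - FS A S (a + u))
        linarith
      have h5 := Finset.sum_le_sum hpt
      rw [Finset.sum_add_distrib, Finset.sum_add_distrib] at h5
      push_cast
      calc ∑ a ∈ A, |FS A S (a + ∑ i, s i - ∑ i, s' i) - FS A S a| ≤ _ := h5
        _ ≤ 4 * l * j * A.card + 2 * l * A.card + 2 * l * A.card := by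
            exact add_le_add (add_le_add ih' h1) h2
        _ = 4 * l * (j + 1) * A.card := by ring
  refine ⟨T, Finset.filter_subset _ _, ?_, ?_⟩
  · have hv' : (Good.card : ℝ) * B.card ≤ (U.card : ℝ) ^ m * T.card := by exact_mod_cast hv
    have h1 : (A.card : ℝ) ^ m / 2 * B.card ≤ (U.card : ℝ) ^ m * T.card :=
      (mul_le_mul_of_nonneg_right hgood (Nat.cast_nonneg _)).trans hv'
    rw [div_pow]
    have hUm : (0 : ℝ) < (U.card : ℝ) ^ m := by positivity
    have h2 : 1 / 2 * ((A.card : ℝ) ^ m / (U.card : ℝ) ^ m) * B.card =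
        ((A.card : ℝ) ^ m / 2 * B.card) / (U.card : ℝ) ^ m := by ring
    rw [h2, div_le_iff₀ hUm]
    linarith
  · intro t t' ht ht'
    have h1 := hstep k le_rfl t t' ht ht'
    refine h1.trans ?_
    refine mul_le_mul_of_nonneg_right ?_ hAc.le
    -- 4 l k ≤ ε
    have hl2 : l ^ 2 = 4 * (Real.exp 1) ^ 3 * q / m := by
      rw [hl, mul_pow, Real.sq_sqrt (by positivity)]; ring
    have he : Real.exp 1 ^ 3 ≤ 20.1 := by
      have h3 := Real.exp_one_lt_d9
      have h4 : Real.exp 1 ^ 3 ≤ 2.7182818286 ^ 3 :=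
        pow_le_pow_left₀ (Real.exp_pos 1).le h3.le 3
      refine h4.trans ?_
      norm_num
    have h5 : (4 * l * k) ^ 2 ≤ ε ^ 2 := by
      have e : (4 * l * k) ^ 2 = (64 * (Real.exp 1) ^ 3 * ((k : ℝ) ^ 2 * q)) / m := by
        have : (4 * l * k) ^ 2 = 16 * (k : ℝ) ^ 2 * l ^ 2 := by ring
        rw [this, hl2]; ring
      rw [e, div_le_iff₀ hm0]
      have h6 : 0 ≤ (k : ℝ) ^ 2 * q := by positivity
      nlinarith
    exact (abs_le_of_sq_le_sq' h5 hε.le).2

end Vale.Agent.P057.KM
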