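import Vale.Agent.P057.KM.Defs

namespace Vale.Agent.P057.KM

open Finset

variable {G : Type*} [AddCommGroup G] [Fintype G] [DecidableEq G]

omit [Fintype G] in
theorem sum_hit_ge (A₀ B0 B0p B' : Finset G) (x₀ : G) (h : ∀ b ∈ B0, ∀ y ∈ B', b - y ∈ B0p) :
    B'.card * hit A₀ B0 x₀ ≤ ∑ x ∈ B0p, hit A₀ B' (x₀ + x) := by
  have e : ∑ x ∈ B0p, hit A₀ B' (x₀ + x) =
      ∑ a ∈ A₀, (B0p.filter (fun x => a - (x₀ + x) ∈ B')).card := by
    unfold hit
    simp_rw [Finset.card_filter]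
    rw [Finset.sum_comm]
  rw [e]
  unfold hit
  calc B'.card * (A₀.filter (fun a => a - x₀ ∈ B0)).card
      = ∑ _a ∈ A₀.filter (fun a => a - x₀ ∈ B0), B'.card := by
        rw [Finset.sum_const, smul_eq_mul, mul_comm]
    _ ≤ ∑ a ∈ A₀.filter (fun a => a - x₀ ∈ B0),
          (B0p.filter (fun x => a - (x₀ + x) ∈ B')).card := by
        refine Finset.sum_le_sum fun a ha => ?_
        rw [Finset.mem_filter] at ha
        refine Finset.card_le_card_of_injOn (fun y => (a - x₀) - y) ?_ ?_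
        · intro y hy
          have hy' : y ∈ B' := by simpa using hy
          simp only [Finset.coe_filter, Set.mem_ofPred_eq]
          refine ⟨h _ ha.2 _ hy', ?_⟩
          have : a - (x₀ + (a - x₀ - y)) = y := by abel
          rw [this]; exact hy'
        · intro y _ z _ hyz
          have : (a - x₀) - y = (a - x₀) - z := hyz
          exact sub_right_injective this
    _ ≤ ∑ a ∈ A₀, (B0p.filter (fun x => a - (x₀ + x) ∈ B')).card :=
        Finset.sum_le_sum_of_subset (Finset.filter_subset _ _)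

omit [Fintype G] in
/-- averaging: if no translate of `B'` or `B1` has density more than `(1+c)α`, some common translate
has density at least `(1-2δ-c)α` on both -/
theorem exists_common (A₀ B0 B0p B' B1 : Finset G) (x₀ : G) (α δ c : ℝ) (hα : 0 ≤ α)
    (_hδ : 0 ≤ δ) (_hc : 0 ≤ c) (hB0 : B0.Nonempty) (hB' : B'.Nonempty) (hB1 : B1.Nonempty)
    (h1 : ∀ b ∈ B0, ∀ y ∈ B', b - y ∈ B0p) (h2 : ∀ b ∈ B0, ∀ y ∈ B1, b - y ∈ B0p)
    (hp : (B0p.card : ℝ) ≤ (1 + δ) * B0.card) (hd : α * B0.card ≤ hit A₀ B0 x₀)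
    (hu' : ∀ x, (hit A₀ B' x : ℝ) ≤ (1 + c) * α * B'.card)
    (hu1 : ∀ x, (hit A₀ B1 x : ℝ) ≤ (1 + c) * α * B1.card) :
    ∃ x, (1 - 2 * δ - c) * α * B'.card ≤ hit A₀ B' x ∧
      (1 - 2 * δ - c) * α * B1.card ≤ hit A₀ B1 x := by
  have hB'c : (0 : ℝ) < B'.card := by exact_mod_cast hB'.card_pos
  have hB1c : (0 : ℝ) < B1.card := by exact_mod_cast hB1.card_pos
  have hne : B0p.Nonempty := by
    obtain ⟨b, hb⟩ := hB0
    obtain ⟨y, hy⟩ := hB'
    exact ⟨_, h1 b hb y hy⟩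
  have s1 : (B'.card : ℝ) * hit A₀ B0 x₀ ≤ ∑ x ∈ B0p, (hit A₀ B' (x₀ + x) : ℝ) := by
    exact_mod_cast sum_hit_ge A₀ B0 B0p B' x₀ h1
  have s2 : (B1.card : ℝ) * hit A₀ B0 x₀ ≤ ∑ x ∈ B0p, (hit A₀ B1 (x₀ + x) : ℝ) := by
    exact_mod_cast sum_hit_ge A₀ B0 B0p B1 x₀ h2
  have s3 : 2 * (hit A₀ B0 x₀ : ℝ) ≤ ∑ x ∈ B0p, ((hit A₀ B' (x₀ + x) : ℝ) / B'.card +
      (hit A₀ B1 (x₀ + x) : ℝ) / B1.card) := by
    rw [Finset.sum_add_distrib, ← Finset.sum_div, ← Finset.sum_div]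
    have t1 : (hit A₀ B0 x₀ : ℝ) ≤ (∑ x ∈ B0p, (hit A₀ B' (x₀ + x) : ℝ)) / B'.card := by
      rw [le_div_iff₀ hB'c]; linarith
    have t2 : (hit A₀ B0 x₀ : ℝ) ≤ (∑ x ∈ B0p, (hit A₀ B1 (x₀ + x) : ℝ)) / B1.card := by
      rw [le_div_iff₀ hB1c]; linarith
    linarith
  have s4 : ∑ _x ∈ B0p, (2 * (1 - δ) * α) ≤ ∑ x ∈ B0p, ((hit A₀ B' (x₀ + x) : ℝ) / B'.card +
      (hit A₀ B1 (x₀ + x) : ℝ) / B1.card) := by
    refine le_trans ?_ s3
    rw [Finset.sum_const, nsmul_eq_mul]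
    have hB0c : (0 : ℝ) ≤ B0.card := by positivity
    rcases le_total δ 1 with hδ1 | hδ1
    · have : (B0p.card : ℝ) * (2 * (1 - δ) * α) ≤ (1 + δ) * B0.card * (2 * (1 - δ) * α) :=
        mul_le_mul_of_nonneg_right hp (mul_nonneg (by linarith) hα)
      have h3 : (1 + δ) * B0.card * (2 * (1 - δ) * α) = 2 * (1 - δ ^ 2) * (α * B0.card) := by
        ring
      have h4 : 2 * (1 - δ ^ 2) * (α * B0.card) ≤ 2 * (α * B0.card) := by
        nlinarith [mul_nonneg (mul_nonneg hα hB0c) (sq_nonneg δ)]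
      linarith
    · have h5 : (B0p.card : ℝ) * (2 * (1 - δ) * α) ≤ 0 := by
        refine mul_nonpos_of_nonneg_of_nonpos (by positivity) ?_
        exact mul_nonpos_of_nonpos_of_nonneg (by linarith) hα
      have h6 : (0 : ℝ) ≤ hit A₀ B0 x₀ := by positivity
      linarith
  obtain ⟨x, _, hx⟩ := Finset.exists_le_of_sum_le hne s4
  refine ⟨x₀ + x, ?_, ?_⟩
  · have h7 : (hit A₀ B1 (x₀ + x) : ℝ) / B1.card ≤ (1 + c) * α := by
      rw [div_le_iff₀ hB1c]; exact hu1 _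
    have h8 : (1 - 2 * δ - c) * α ≤ (hit A₀ B' (x₀ + x) : ℝ) / B'.card := by
      nlinarith
    rw [le_div_iff₀ hB'c] at h8
    exact h8
  · have h7 : (hit A₀ B' (x₀ + x) : ℝ) / B'.card ≤ (1 + c) * α := by
      rw [div_le_iff₀ hB'c]; exact hu' _
    have h8 : (1 - 2 * δ - c) * α ≤ (hit A₀ B1 (x₀ + x) : ℝ) / B1.card := by
      nlinarith
    rw [le_div_iff₀ hB1c] at h8
    exact h8

/-- real indicator -/
def ind1 (A : Finset G) (x : G) : ℝ := if x ∈ A then 1 else 0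

omit [AddCommGroup G] in
theorem sum_ind1_mul (A : Finset G) (h : G → ℝ) : ∑ y, ind1 A y * h y = ∑ y ∈ A, h y := by
  unfold ind1
  simp_rw [ite_mul, one_mul, zero_mul]
  rw [Finset.sum_ite_mem, Finset.univ_inter]

omit [AddCommGroup G] [Fintype G] in
theorem bal_eq (A B : Finset G) (x : G) :
    bal A B x = ind1 A x * (1 / (A.card : ℝ)) - ind1 B x * (1 / (B.card : ℝ)) := by
  unfold bal ind1
  split_ifs <;> simp

omit [AddCommGroup G] [Fintype G] in
theorem ind1_le_one (A : Finset G) (x : G) : ind1 A x ≤ 1 := by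
  unfold ind1; split_ifs <;> norm_num

omit [AddCommGroup G] [Fintype G] in
theorem ind1_nonneg (A : Finset G) (x : G) : 0 ≤ ind1 A x := by
  unfold ind1; split_ifs <;> norm_num

/-- the balanced autocorrelation: `X = |Bp| corr(1_A/|A| - 1_Bp/|Bp|)` and
`g = |Bp| c_A / |A|²` satisfy `X + 1 ≤ g` on `Bs` -/
theorem corr_bal_le (A Bp Bs : Finset G) (hA : A.Nonempty) (hABp : A ⊆ Bp)
    (h1 : ∀ x ∈ Bs, ∀ a ∈ A, a + x ∈ Bp) (h2 : ∀ x ∈ Bs, ∀ a ∈ A, a - x ∈ Bp) :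
    ∀ x ∈ Bs, (Bp.card : ℝ) * corr (bal A Bp) x + 1 ≤
      (Bp.card : ℝ) * (cc A x) / (A.card : ℝ) ^ 2 := by
  intro x hx
  have hAc : (0 : ℝ) < A.card := by exact_mod_cast hA.card_pos
  have hBc : (0 : ℝ) < Bp.card := by exact_mod_cast (hA.mono hABp).card_pos
  have e1 : ∑ y, ind1 A y * ind1 A (y + x) = (cc A x : ℝ) := by
    rw [sum_ind1_mul]
    unfold ind1 cc
    rw [Finset.card_filter]
    push_cast
    rfl
  have e2 : ∑ y, ind1 A y * ind1 Bp (y + x) = (A.card : ℝ) := by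
    rw [sum_ind1_mul]
    rw [Finset.sum_congr rfl (fun y hy => show ind1 Bp (y + x) = 1 from
      if_pos (h1 x hx y hy))]
    rw [Finset.sum_const, nsmul_eq_mul, mul_one]
  have e3 : ∑ y, ind1 Bp y * ind1 A (y + x) = (A.card : ℝ) := by
    have : ∑ y, ind1 Bp y * ind1 A (y + x) = ∑ z, ind1 A z * ind1 Bp (z - x) := by
      refine Fintype.sum_equiv (Equiv.addRight x) _ _ (fun y => ?_)
      simp only [Equiv.coe_addRight, add_sub_cancel_right]
      ring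
    rw [this, sum_ind1_mul]
    rw [Finset.sum_congr rfl (fun y hy => show ind1 Bp (y - x) = 1 from
      if_pos (h2 x hx y hy))]
    rw [Finset.sum_const, nsmul_eq_mul, mul_one]
  have e4 : ∑ y, ind1 Bp y * ind1 Bp (y + x) ≤ (Bp.card : ℝ) := by
    rw [sum_ind1_mul]
    refine (Finset.sum_le_sum fun y _ => ind1_le_one Bp (y + x)).trans ?_
    rw [Finset.sum_const, nsmul_eq_mul, mul_one]
  have e5 : corr (bal A Bp) x = (cc A x : ℝ) * (1 / A.card) ^ 2 -
      2 * (A.card * ((1 / A.card) * (1 / Bp.card))) +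
      (∑ y, ind1 Bp y * ind1 Bp (y + x)) * (1 / Bp.card) ^ 2 := by
    unfold corr
    simp_rw [bal_eq]
    have : ∀ y, (ind1 A y * (1 / (A.card : ℝ)) - ind1 Bp y * (1 / (Bp.card : ℝ))) *
        (ind1 A (y + x) * (1 / (A.card : ℝ)) - ind1 Bp (y + x) * (1 / (Bp.card : ℝ))) =
        (ind1 A y * ind1 A (y + x)) * (1 / (A.card : ℝ)) ^ 2 -
        (ind1 A y * ind1 Bp (y + x)) * ((1 / (A.card : ℝ)) * (1 / (Bp.card : ℝ))) -
        (ind1 Bp y * ind1 A (y + x)) * ((1 / (A.card : ℝ)) * (1 / (Bp.card : ℝ))) +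
        (ind1 Bp y * ind1 Bp (y + x)) * (1 / (Bp.card : ℝ)) ^ 2 := by
      intro y; ring
    simp_rw [this]
    rw [Finset.sum_add_distrib, Finset.sum_sub_distrib, Finset.sum_sub_distrib,
      ← Finset.sum_mul, ← Finset.sum_mul, ← Finset.sum_mul, ← Finset.sum_mul, e1, e2, e3]
    ring
  rw [e5]
  have e6 : (Bp.card : ℝ) * ((cc A x : ℝ) * (1 / A.card) ^ 2 -
      2 * (A.card * ((1 / A.card) * (1 / Bp.card))) +
      (∑ y, ind1 Bp y * ind1 Bp (y + x)) * (1 / Bp.card) ^ 2) + 1 =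
      (Bp.card : ℝ) * (cc A x) / (A.card : ℝ) ^ 2 - 1 +
        (∑ y, ind1 Bp y * ind1 Bp (y + x)) / Bp.card := by
    field_simp
    ring
  rw [e6]
  have e7 : (∑ y, ind1 Bp y * ind1 Bp (y + x)) / (Bp.card : ℝ) ≤ 1 := by
    rw [div_le_one hBc]; exact e4
  linarith

/-- no 3-APs forces the balanced convolution to be very negative on `2·C` -/
theorem conv_bal_le (A C Bp : Finset G) (hA : A.Nonempty) (hABp : A ⊆ Bp)
    (hinj : Function.Injective (fun x : G => x + x))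
    (h1 : ∀ c ∈ C, ∀ a ∈ A, c + c - a ∈ Bp)
    (hno : ∀ a ∈ A, ∀ b ∈ A, ∀ c ∈ C, a + b = c + c → a = b)
    (hbig : 2 * (Bp.card : ℝ) ≤ (A.card : ℝ) ^ 2) (c : G) (hc : c ∈ C) :
    (Bp.card : ℝ) * conv (bal A Bp) (c + c) ≤ - 1 / 2 := by
  have hAc : (0 : ℝ) < A.card := by exact_mod_cast hA.card_pos
  have hBc : (0 : ℝ) < Bp.card := by exact_mod_cast (hA.mono hABp).card_pos
  set x := c + c with hx
  have e1 : ∑ y, ind1 A y * ind1 A (x - y) ≤ 1 := by
    rw [sum_ind1_mul]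
    have : ∑ y ∈ A, ind1 A (x - y) = ((A.filter (fun y => x - y ∈ A)).card : ℝ) := by
      unfold ind1
      rw [Finset.card_filter]
      push_cast
      rfl
    rw [this]
    have hle : (A.filter (fun y => x - y ∈ A)).card ≤ 1 := by
      rw [Finset.card_le_one]
      have hone : ∀ y ∈ A.filter (fun y => x - y ∈ A), y = c := by
        intro y hy
        rw [Finset.mem_filter] at hy
        have h3 : y + (x - y) = c + c := by rw [hx]; abel
        have h4 := hno y hy.1 (x - y) hy.2 c hc h3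
        apply hinj
        change y + y = c + c
        calc y + y = y + (x - y) := by rw [← h4]
          _ = c + c := h3
      intro a ha b hb
      rw [hone a ha, hone b hb]
    exact_mod_cast hle
  have e2 : ∑ y, ind1 A y * ind1 Bp (x - y) = (A.card : ℝ) := by
    rw [sum_ind1_mul]
    rw [Finset.sum_congr rfl (fun y hy => show ind1 Bp (x - y) = 1 from
      if_pos (h1 c hc y hy))]
    rw [Finset.sum_const, nsmul_eq_mul, mul_one]
  have e3 : ∑ y, ind1 Bp y * ind1 A (x - y) = (A.card : ℝ) := by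
    have : ∑ y, ind1 Bp y * ind1 A (x - y) = ∑ z, ind1 A z * ind1 Bp (x - z) := by
      refine Fintype.sum_equiv (Equiv.subLeft x) _ _ (fun y => ?_)
      simp only [Equiv.subLeft_apply, sub_sub_cancel]
      ring
    rw [this, e2]
  have e4 : ∑ y, ind1 Bp y * ind1 Bp (x - y) ≤ (Bp.card : ℝ) := by
    rw [sum_ind1_mul]
    refine (Finset.sum_le_sum fun y _ => ind1_le_one Bp (x - y)).trans ?_
    rw [Finset.sum_const, nsmul_eq_mul, mul_one]
  have e5 : conv (bal A Bp) x = (∑ y, ind1 A y * ind1 A (x - y)) * (1 / A.card) ^ 2 -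
      2 * (A.card * ((1 / A.card) * (1 / Bp.card))) +
      (∑ y, ind1 Bp y * ind1 Bp (x - y)) * (1 / Bp.card) ^ 2 := by
    unfold conv
    simp_rw [bal_eq]
    have : ∀ y, (ind1 A y * (1 / (A.card : ℝ)) - ind1 Bp y * (1 / (Bp.card : ℝ))) *
        (ind1 A (x - y) * (1 / (A.card : ℝ)) - ind1 Bp (x - y) * (1 / (Bp.card : ℝ))) =
        (ind1 A y * ind1 A (x - y)) * (1 / (A.card : ℝ)) ^ 2 -
        (ind1 A y * ind1 Bp (x - y)) * ((1 / (A.card : ℝ)) * (1 / (Bp.card : ℝ))) -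
        (ind1 Bp y * ind1 A (x - y)) * ((1 / (A.card : ℝ)) * (1 / (Bp.card : ℝ))) +
        (ind1 Bp y * ind1 Bp (x - y)) * (1 / (Bp.card : ℝ)) ^ 2 := by
      intro y; ring
    simp_rw [this]
    rw [Finset.sum_add_distrib, Finset.sum_sub_distrib, Finset.sum_sub_distrib,
      ← Finset.sum_mul, ← Finset.sum_mul, ← Finset.sum_mul, ← Finset.sum_mul, e2, e3]
    ring
  rw [e5]
  have e6 : (Bp.card : ℝ) * ((∑ y, ind1 A y * ind1 A (x - y)) * (1 / A.card) ^ 2 -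
      2 * (A.card * ((1 / A.card) * (1 / Bp.card))) +
      (∑ y, ind1 Bp y * ind1 Bp (x - y)) * (1 / Bp.card) ^ 2) =
      (∑ y, ind1 A y * ind1 A (x - y)) * (Bp.card / (A.card : ℝ) ^ 2) - 2 +
        (∑ y, ind1 Bp y * ind1 Bp (x - y)) / Bp.card := by
    field_simp
  rw [e6]
  have e7 : (∑ y, ind1 Bp y * ind1 Bp (x - y)) / (Bp.card : ℝ) ≤ 1 := by
    rw [div_le_one hBc]; exact e4
  have e8 : (Bp.card : ℝ) / (A.card : ℝ) ^ 2 ≤ 1 / 2 := by
    rw [div_le_iff₀ (by positivity)]; linarith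
  have e9 : (∑ y, ind1 A y * ind1 A (x - y)) * (Bp.card / (A.card : ℝ) ^ 2) ≤
      1 * (Bp.card / (A.card : ℝ) ^ 2) := mul_le_mul_of_nonneg_right e1 (by positivity)
  linarith

end Vale.Agent.P057.KM
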