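import Vale.Agent.P057.KM.Defs

namespace Vale.Agent.P057.KM

open Finset

variable {M : ℕ} [NeZero M]

theorem cast_M_pos : (0 : ℝ) < M := by
  exact_mod_cast Nat.pos_of_ne_zero (NeZero.ne M)

omit [NeZero M] in
theorem nrm_nonneg (x : ZMod M) : 0 ≤ nrm x := by
  unfold nrm; positivity

omit [NeZero M] in
theorem nrm_eq_natAbs (x : ZMod M) : nrm x = (x.valMinAbs.natAbs : ℝ) / M := by
  unfold nrm
  rw [Nat.cast_natAbs]
  push_cast
  rfl

/-- `nrm` is minimal among integer representatives -/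
theorem nrm_le_of_int (x : ZMod M) (z : ℤ) (h : (z : ZMod M) = x) : nrm x ≤ |(z : ℝ)| / M := by
  have h1 : x.valMinAbs.natAbs ≤ z.natAbs := by
    refine ZMod.natAbs_min_of_le_div_two M _ _ ?_ (ZMod.natAbs_valMinAbs_le x)
    rw [ZMod.coe_valMinAbs, h]
  rw [nrm_eq_natAbs]
  have h2 : (x.valMinAbs.natAbs : ℝ) ≤ |(z : ℝ)| := by
    have h3 : (x.valMinAbs.natAbs : ℝ) ≤ (z.natAbs : ℝ) := by exact_mod_cast h1
    have h4 : (z.natAbs : ℝ) = |(z : ℝ)| := by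
      rw [Nat.cast_natAbs, Int.cast_abs]
    rw [← h4]
    exact h3
  exact div_le_div_of_nonneg_right h2 cast_M_pos.le

theorem nrm_le_half (x : ZMod M) : nrm x ≤ 1 / 2 := by
  rw [nrm_eq_natAbs, div_le_iff₀ cast_M_pos]
  have h1 := ZMod.natAbs_valMinAbs_le x
  have h2 : x.valMinAbs.natAbs * 2 ≤ M := by omega
  have h3 : (x.valMinAbs.natAbs : ℝ) * 2 ≤ M := by exact_mod_cast h2
  linarith

omit [NeZero M] in
theorem nrm_zero : nrm (0 : ZMod M) = 0 := by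
  unfold nrm; simp

omit [NeZero M] in
theorem nrm_neg (x : ZMod M) : nrm (-x) = nrm x := by
  rw [nrm_eq_natAbs, nrm_eq_natAbs, ZMod.natAbs_valMinAbs_neg]

theorem nrm_add_le (x y : ZMod M) : nrm (x + y) ≤ nrm x + nrm y := by
  have h := nrm_le_of_int (x + y) (x.valMinAbs + y.valMinAbs) (by simp)
  refine h.trans ?_
  unfold nrm
  rw [← add_div]
  refine div_le_div_of_nonneg_right ?_ cast_M_pos.le
  push_cast
  exact abs_add_le _ _

/-- `nrm (x - y)` is at most the distance of any integer representatives, here `valMinAbs` -/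
theorem nrm_sub_le (x y : ZMod M) :
    nrm (x - y) ≤ |(x.valMinAbs : ℝ) / M - (y.valMinAbs : ℝ) / M| := by
  have h := nrm_le_of_int (x - y) (x.valMinAbs - y.valMinAbs) (by simp)
  refine h.trans (le_of_eq ?_)
  rw [← sub_div, abs_div, abs_of_pos (cast_M_pos (M := M))]
  push_cast
  rfl

theorem norm_one_sub_char_le (x : ZMod M) :
    ‖1 - (ZMod.stdAddChar x : ℂ)‖ ≤ 2 * Real.pi * nrm x := by
  have h1 : (ZMod.stdAddChar x : ℂ) =
      Complex.exp (Complex.I * ((2 * Real.pi * x.valMinAbs / M : ℝ) : ℂ)) := by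
    conv_lhs => rw [← ZMod.coe_valMinAbs x]
    rw [ZMod.stdAddChar_coe]
    congr 1
    push_cast
    ring
  rw [h1, norm_sub_rev]
  refine (Real.norm_exp_I_mul_ofReal_sub_one_le).trans ?_
  rw [Real.norm_eq_abs, abs_div, abs_mul, abs_mul]
  unfold nrm
  rw [abs_of_pos (cast_M_pos (M := M)), abs_of_pos Real.pi_pos, abs_of_pos (two_pos (α := ℝ))]
  rw [mul_div_assoc]

theorem mem_Bohr {Γ : Finset (ZMod M)} {ρ : ℝ} {x : ZMod M} :
    x ∈ Bohr Γ ρ ↔ ∀ γ ∈ Γ, nrm (γ * x) ≤ ρ := by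
  unfold Bohr
  simp

theorem Bohr_mono {Γ : Finset (ZMod M)} {ρ ρ' : ℝ} (h : ρ ≤ ρ') : Bohr Γ ρ ⊆ Bohr Γ ρ' := by
  intro x hx
  rw [mem_Bohr] at hx ⊢
  exact fun γ hγ => (hx γ hγ).trans h

theorem Bohr_anti {Γ Γ' : Finset (ZMod M)} {ρ : ℝ} (h : Γ ⊆ Γ') : Bohr Γ' ρ ⊆ Bohr Γ ρ := by
  intro x hx
  rw [mem_Bohr] at hx ⊢
  exact fun γ hγ => hx γ (h hγ)

theorem zero_mem_Bohr {Γ : Finset (ZMod M)} {ρ : ℝ} (h : 0 ≤ ρ) : (0 : ZMod M) ∈ Bohr Γ ρ := by
  rw [mem_Bohr]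
  intro γ _
  rw [mul_zero, nrm_zero]
  exact h

theorem neg_mem_Bohr {Γ : Finset (ZMod M)} {ρ : ℝ} {x : ZMod M} (h : x ∈ Bohr Γ ρ) :
    -x ∈ Bohr Γ ρ := by
  rw [mem_Bohr] at h ⊢
  intro γ hγ
  rw [mul_neg, nrm_neg]
  exact h γ hγ

theorem add_mem_Bohr {Γ : Finset (ZMod M)} {ρ ρ' : ℝ} {x y : ZMod M} (hx : x ∈ Bohr Γ ρ)
    (hy : y ∈ Bohr Γ ρ') : x + y ∈ Bohr Γ (ρ + ρ') := by
  rw [mem_Bohr] at hx hy ⊢
  intro γ hγ
  rw [mul_add]
  exact (nrm_add_le _ _).trans (add_le_add (hx γ hγ) (hy γ hγ))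

theorem sub_mem_Bohr {Γ : Finset (ZMod M)} {ρ ρ' : ℝ} {x y : ZMod M} (hx : x ∈ Bohr Γ ρ)
    (hy : y ∈ Bohr Γ ρ') : x - y ∈ Bohr Γ (ρ + ρ') := by
  rw [sub_eq_add_neg]
  exact add_mem_Bohr hx (neg_mem_Bohr hy)

theorem sum_mem_Bohr {Γ : Finset (ZMod M)} {ρ : ℝ} (_hρ : 0 ≤ ρ) {n : ℕ} (s : Fin n → ZMod M)
    (hs : ∀ i, s i ∈ Bohr Γ ρ) : ∑ i, s i ∈ Bohr Γ (n * ρ) := by
  induction n with
  | zero =>
    simp only [Finset.univ_eq_empty, Finset.sum_empty, Nat.cast_zero, zero_mul]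
    exact zero_mem_Bohr le_rfl
  | succ n ih =>
    rw [Fin.sum_univ_castSucc]
    have h1 := ih (fun i => s i.castSucc) (fun i => hs _)
    have h2 := add_mem_Bohr h1 (hs (Fin.last n))
    have e : ((n + 1 : ℕ) : ℝ) * ρ = n * ρ + ρ := by push_cast; ring
    rw [e]
    exact h2

theorem Bohr_empty (ρ : ℝ) : Bohr (∅ : Finset (ZMod M)) ρ = Finset.univ := by
  ext x
  rw [mem_Bohr]
  simp

omit [NeZero M] in
theorem card_half_le (Γ : Finset (ZMod M)) : (half Γ).card ≤ Γ.card := Finset.card_image_le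

omit [NeZero M] in
theorem two_mul_inv_two (hM : Odd M) : (2 : ZMod M) * 2⁻¹ = 1 := by
  have h : Nat.Coprime 2 M := Nat.coprime_two_left.mpr hM
  have := ZMod.coe_mul_inv_eq_one 2 h
  exact_mod_cast this

theorem mem_Bohr_half {Γ : Finset (ZMod M)} {ρ : ℝ} {x : ZMod M} :
    x ∈ Bohr (half Γ) ρ ↔ 2⁻¹ * x ∈ Bohr Γ ρ := by
  rw [mem_Bohr, mem_Bohr]
  unfold half
  constructor
  · intro h γ hγ
    have := h (2⁻¹ * γ) (Finset.mem_image_of_mem _ hγ)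
    have e : γ * (2⁻¹ * x) = 2⁻¹ * γ * x := by ring
    rw [e]; exact this
  · intro h γ hγ
    rw [Finset.mem_image] at hγ
    obtain ⟨γ', hγ', rfl⟩ := hγ
    have := h γ' hγ'
    have e : γ' * (2⁻¹ * x) = 2⁻¹ * γ' * x := by ring
    rw [e] at this; exact this

theorem add_self_mem_Bohr_half (hM : Odd M) {Γ : Finset (ZMod M)} {ρ : ℝ} {x : ZMod M}
    (hx : x ∈ Bohr Γ ρ) : x + x ∈ Bohr (half Γ) ρ := by
  rw [mem_Bohr_half]
  have e : (2 : ZMod M)⁻¹ * (x + x) = x := by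
    have h := two_mul_inv_two hM
    calc (2 : ZMod M)⁻¹ * (x + x) = (2 * 2⁻¹) * x := by ring
      _ = x := by rw [h, one_mul]
  rw [e]; exact hx

omit [NeZero M] in
theorem add_self_injective (hM : Odd M) : Function.Injective (fun x : ZMod M => x + x) := by
  intro x y hxy
  have hxy' : x + x = y + y := hxy
  have h := two_mul_inv_two hM
  calc x = (2 * 2⁻¹) * x := by rw [h, one_mul]
    _ = 2⁻¹ * (x + x) := by ring
    _ = 2⁻¹ * (y + y) := by rw [hxy']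
    _ = (2 * 2⁻¹) * y := by ring
    _ = y := by rw [h, one_mul]

/-- `Bohr Γ ρ` and `Bohr (Γ/2) ρ` have the same size (the second is twice the first) -/
theorem card_Bohr_half (hM : Odd M) (Γ : Finset (ZMod M)) (ρ : ℝ) :
    (Bohr (half Γ) ρ).card = (Bohr Γ ρ).card := by
  have h : Bohr (half Γ) ρ = (Bohr Γ ρ).image (fun x => x + x) := by
    ext x
    rw [Finset.mem_image]
    constructor
    · intro hx
      rw [mem_Bohr_half] at hx
      refine ⟨2⁻¹ * x, hx, ?_⟩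
      have h := two_mul_inv_two hM
      calc 2⁻¹ * x + 2⁻¹ * x = (2 * 2⁻¹) * x := by ring
        _ = x := by rw [h, one_mul]
    · rintro ⟨y, hy, rfl⟩
      exact add_self_mem_Bohr_half hM hy
  rw [h, Finset.card_image_of_injective _ (add_self_injective hM)]

/-- elements of the halved Bohr set are doubles, so they lie in `Bohr Γ (2ρ)` -/
theorem Bohr_half_subset (hM : Odd M) (Γ : Finset (ZMod M)) (ρ : ℝ) :
    Bohr (half Γ) ρ ⊆ Bohr Γ (2 * ρ) := by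
  intro x hx
  rw [mem_Bohr_half] at hx
  have h := two_mul_inv_two hM
  have e : x = 2⁻¹ * x + 2⁻¹ * x := by
    calc x = (2 * 2⁻¹) * x := by rw [h, one_mul]
      _ = _ := by ring
  rw [e, two_mul]
  exact add_mem_Bohr hx hx

end Vale.Agent.P057.KM
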