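import Vale.Agent.P057.KM.BohrBasic

namespace Vale.Agent.P057.KM

open Finset

variable {M : ℕ} [NeZero M]

/-- pigeonhole on cells -/
private lemma cell_bound (Γ X : Finset (ZMod M)) {ρ : ℝ} (hρ : 0 < ρ) (s : ℝ) (F : Finset ℤ)
    (h : ∀ x ∈ X, ∀ γ ∈ Γ, ⌊(((γ * x).valMinAbs : ℝ) / M + s) / ρ⌋ ∈ F) :
    X.card ≤ (Bohr Γ ρ).card * F.card ^ Γ.card := by
  classical
  have h1 := Finset.card_le_mul_card_image_of_maps_to (s := X)
    (t := Fintype.piFinset (fun _ : {γ // γ ∈ Γ} => F))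
    (f := fun x => fun γ : {γ // γ ∈ Γ} => ⌊(((γ.1 * x).valMinAbs : ℝ) / M + s) / ρ⌋)
    (by
      intro x hx
      rw [Fintype.mem_piFinset]
      intro γ
      exact h x hx γ.1 γ.2) (Bohr Γ ρ).card
    (by
      intro b _
      rcases (Finset.eq_empty_or_nonempty {a ∈ X | (fun γ : {γ // γ ∈ Γ} =>
        ⌊(((γ.1 * a).valMinAbs : ℝ) / M + s) / ρ⌋) = b}) with he | ⟨x₀, hx₀⟩
      · rw [he]
        simp
      · rw [Finset.mem_filter] at hx₀
        refine Finset.card_le_card_of_injOn (fun x => x - x₀) ?_ ?_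
        · intro x hx
          rw [Finset.mem_coe, Finset.mem_filter] at hx
          rw [Finset.mem_coe, mem_Bohr]
          intro γ hγ
          have e1 := congrFun (hx.2.trans hx₀.2.symm) ⟨γ, hγ⟩
          simp only at e1
          rw [mul_sub]
          refine (nrm_sub_le _ _).trans ?_
          have e2 := Int.abs_sub_lt_one_of_floor_eq_floor e1
          have e3 : ((((γ * x).valMinAbs : ℝ) / M + s) / ρ - (((γ * x₀).valMinAbs : ℝ) / M + s) / ρ)
              = (((γ * x).valMinAbs : ℝ) / M - ((γ * x₀).valMinAbs : ℝ) / M) / ρ := by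
            ring
          rw [e3, abs_div, abs_of_pos hρ, div_lt_one hρ] at e2
          exact e2.le
        · intro x _ y _ hxy
          exact sub_left_injective hxy)
  rwa [Fintype.card_piFinset, Finset.prod_const, Finset.card_univ, Fintype.card_coe] at h1

private lemma abs_valMinAbs_div_le (x : ZMod M) :
    |((x.valMinAbs : ℝ)) / M| ≤ 1 / 2 := by
  have h := nrm_le_half x
  unfold nrm at h
  rw [abs_div, Nat.abs_cast]
  exact h

/-- pigeonhole on the cells of `floor ((valMinAbs (γ x) / M + 1/2) / ρ)` -/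
theorem card_Bohr_lower (Γ : Finset (ZMod M)) {ρ : ℝ} (hρ : 0 < ρ) (hρ1 : ρ ≤ 1) :
    (ρ / 2) ^ Γ.card * (M : ℝ) ≤ (Bohr Γ ρ).card := by
  classical
  have h1 := cell_bound Γ Finset.univ hρ (1 / 2) (Finset.Icc 0 ⌊1 / ρ⌋) (by
    intro x _ γ _
    have h2 := abs_le.mp (abs_valMinAbs_div_le (γ * x))
    rw [Finset.mem_Icc]
    constructor
    · apply Int.floor_nonneg.mpr
      apply div_nonneg _ hρ.le
      linarith [h2.1]
    · apply Int.floor_le_floor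
      apply div_le_div_of_nonneg_right _ hρ.le
      linarith [h2.2])
  rw [Finset.card_univ, ZMod.card, Int.card_Icc] at h1
  have h3 : (((⌊1 / ρ⌋ + 1 - 0).toNat : ℕ) : ℝ) ≤ 2 / ρ := by
    have h4 : (0 : ℤ) ≤ ⌊1 / ρ⌋ + 1 - 0 := by
      have : (0 : ℤ) ≤ ⌊1 / ρ⌋ := Int.floor_nonneg.mpr (by positivity)
      linarith
    have h5 : (((⌊1 / ρ⌋ + 1 - 0).toNat : ℕ) : ℝ) = ((⌊1 / ρ⌋ + 1 - 0 : ℤ) : ℝ) := by
      have := Int.toNat_of_nonneg h4
      exact_mod_cast this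
    rw [h5]
    push_cast
    have h6 : (⌊1 / ρ⌋ : ℝ) ≤ 1 / ρ := Int.floor_le _
    have h7 : 1 ≤ 1 / ρ := by
      rw [le_div_iff₀ hρ]
      linarith
    have h8 : 2 / ρ = 1 / ρ + 1 / ρ := by ring
    rw [h8]
    linarith
  have h9 : (M : ℝ) ≤ (Bohr Γ ρ).card * (2 / ρ) ^ Γ.card := by
    have h10 : (M : ℝ) ≤ (Bohr Γ ρ).card *
        (((⌊1 / ρ⌋ + 1 - 0).toNat : ℕ) : ℝ) ^ Γ.card := by exact_mod_cast h1
    refine h10.trans ?_
    gcongr
  calc (ρ / 2) ^ Γ.card * (M : ℝ) ≤ (ρ / 2) ^ Γ.card * ((Bohr Γ ρ).card * (2 / ρ) ^ Γ.card) := by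
        gcongr
    _ = (Bohr Γ ρ).card * ((ρ / 2) * (2 / ρ)) ^ Γ.card := by
        rw [mul_pow]
        ring
    _ = (Bohr Γ ρ).card := by
        have : (ρ / 2) * (2 / ρ) = 1 := by
          field_simp
        rw [this, one_pow, mul_one]

/-- cells of side `ρ` in `[-2ρ, 2ρ]^Γ`: at most 5 per coordinate -/
theorem card_Bohr_doubling (Γ : Finset (ZMod M)) {ρ : ℝ} (hρ : 0 < ρ) :
    ((Bohr Γ (2 * ρ)).card : ℝ) ≤ 6 ^ Γ.card * (Bohr Γ ρ).card := by
  classical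
  have h1 := cell_bound Γ (Bohr Γ (2 * ρ)) hρ 0 (Finset.Icc (-2) 2) (by
    intro x hx γ hγ
    rw [mem_Bohr] at hx
    have h2 := hx γ hγ
    unfold nrm at h2
    have h3 : |((γ * x).valMinAbs : ℝ) / M| ≤ 2 * ρ := by
      rw [abs_div, Nat.abs_cast]
      exact h2
    have h4 := abs_le.mp h3
    rw [Finset.mem_Icc, add_zero]
    constructor
    · rw [Int.le_floor]
      rw [le_div_iff₀ hρ]
      push_cast
      linarith [h4.1]
    · have h5 : ⌊((γ * x).valMinAbs : ℝ) / M / ρ⌋ ≤ ⌊(2 : ℝ)⌋ := by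
        apply Int.floor_le_floor
        rw [div_le_iff₀ hρ]
        exact h4.2
      simpa using h5)
  have h6 : (Finset.Icc (-2 : ℤ) 2).card = 5 := by decide
  rw [h6] at h1
  have h7 : ((Bohr Γ (2 * ρ)).card : ℝ) ≤ (Bohr Γ ρ).card * 5 ^ Γ.card := by exact_mod_cast h1
  refine h7.trans ?_
  rw [mul_comm]
  have h8 : (5 : ℝ) ^ Γ.card ≤ 6 ^ Γ.card := pow_le_pow_left₀ (by norm_num) (by norm_num) _
  exact mul_le_mul_of_nonneg_right h8 (Nat.cast_nonneg _)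

/-- general regularity: chain `ρ/2 + j s`, `s = δ ρ / (16 D)` -/
theorem exists_regular_gen (Γ : Finset (ZMod M)) {D : ℕ} (hD : 1 ≤ D) (hΓ : Γ.card ≤ D) {δ ρ : ℝ}
    (hδ : 0 < δ) (hδ1 : δ ≤ 1) (hρ : 0 < ρ) :
    ∃ ρ', ρ / 2 ≤ ρ' ∧ ρ' ≤ ρ ∧
      ((Bohr Γ (ρ' + δ * ρ / (16 * D))).card : ℝ) ≤ (1 + δ) * (Bohr Γ ρ').card := by
  have hD0 : (0 : ℝ) < D := by exact_mod_cast hD
  set m : ℕ := ⌈1 / δ⌉₊ with hm
  set J : ℕ := 3 * D * m with hJ
  set s : ℝ := δ * ρ / (16 * D) with hs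
  have hs0 : 0 < s := by positivity
  have hm1 : 1 / δ ≤ m := Nat.le_ceil _
  have hm2 : (m : ℝ) ≤ 2 / δ := by
    have h1 : (m : ℝ) < 1 / δ + 1 := Nat.ceil_lt_add_one (by positivity)
    have h2 : 1 ≤ 1 / δ := by
      rw [le_div_iff₀ hδ]
      linarith
    have h3 : 2 / δ = 1 / δ + 1 / δ := by ring
    rw [h3]
    linarith
  by_contra hcon
  push Not at hcon
  have hJs : (J : ℝ) * s ≤ ρ / 2 := by
    have h1 : (J : ℝ) * s ≤ (3 * D * (2 / δ)) * s := by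
      have : (J : ℝ) ≤ 3 * D * (2 / δ) := by
        rw [hJ]
        push_cast
        gcongr
      exact mul_le_mul_of_nonneg_right this hs0.le
    have h2 : (3 * D * (2 / δ)) * s = 6 / 16 * ρ := by
      rw [hs]
      field_simp
      norm_num
    rw [h2] at h1
    linarith
  have hchain : ∀ j : ℕ, j ≤ J →
      (1 + δ) ^ j * ((Bohr Γ (ρ / 2)).card : ℝ) ≤ (Bohr Γ (ρ / 2 + j * s)).card := by
    intro j
    induction j with
    | zero => intro _; simp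
    | succ j ih =>
      intro hj
      have h1 := ih (by omega)
      have hj' : (j : ℝ) ≤ J := by exact_mod_cast (by omega : j ≤ J)
      have h2 : ρ / 2 + j * s ≤ ρ := by
        have : (j : ℝ) * s ≤ J * s := mul_le_mul_of_nonneg_right hj' hs0.le
        linarith
      have h3 : ρ / 2 ≤ ρ / 2 + j * s := by
        have : 0 ≤ (j : ℝ) * s := by positivity
        linarith
      have h4 := hcon _ h3 h2
      have h5 : ρ / 2 + ((j + 1 : ℕ) : ℝ) * s = ρ / 2 + j * s + s := by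
        push_cast
        ring
      rw [h5]
      calc (1 + δ) ^ (j + 1) * ((Bohr Γ (ρ / 2)).card : ℝ)
          = (1 + δ) * ((1 + δ) ^ j * ((Bohr Γ (ρ / 2)).card : ℝ)) := by ring
        _ ≤ (1 + δ) * (Bohr Γ (ρ / 2 + j * s)).card :=
            mul_le_mul_of_nonneg_left h1 (by linarith)
        _ ≤ _ := h4.le
  have h1 := hchain J le_rfl
  have h2 : ((Bohr Γ (ρ / 2 + J * s)).card : ℝ) ≤ (Bohr Γ (2 * (ρ / 2))).card := by
    have h3 : ρ / 2 + J * s ≤ 2 * (ρ / 2) := by linarith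
    exact_mod_cast Finset.card_le_card (Bohr_mono h3)
  have h3 := card_Bohr_doubling Γ (ρ := ρ / 2) (by positivity)
  have hB : (0 : ℝ) < (Bohr Γ (ρ / 2)).card := by
    have : (Bohr Γ (ρ / 2)).Nonempty := ⟨0, zero_mem_Bohr (by positivity)⟩
    exact_mod_cast this.card_pos
  have h4 : (8 : ℝ) ^ D ≤ (1 + δ) ^ J := by
    have h5 : (2 : ℝ) ≤ (1 + δ) ^ m := by
      have h6 := one_add_mul_le_pow (a := δ) (by linarith) m
      have h7 : 1 ≤ (m : ℝ) * δ := by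
        rw [div_le_iff₀ hδ] at hm1
        exact hm1
      linarith
    calc (8 : ℝ) ^ D = (2 ^ 3) ^ D := by norm_num
      _ = 2 ^ (3 * D) := by rw [← pow_mul]
      _ ≤ ((1 + δ) ^ m) ^ (3 * D) := pow_le_pow_left₀ (by norm_num) h5 _
      _ = (1 + δ) ^ J := by
          rw [← pow_mul, hJ]
          congr 1
          ring
  have h5 : (6 : ℝ) ^ Γ.card ≤ 6 ^ D := pow_le_pow_right₀ (by norm_num) hΓ
  have h6 : (6 : ℝ) ^ D < 8 ^ D := pow_lt_pow_left₀ (by norm_num) (by norm_num) (by omega)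
  have h7 : (8 : ℝ) ^ D * (Bohr Γ (ρ / 2)).card ≤ 6 ^ D * (Bohr Γ (ρ / 2)).card := by
    calc (8 : ℝ) ^ D * (Bohr Γ (ρ / 2)).card ≤ (1 + δ) ^ J * (Bohr Γ (ρ / 2)).card :=
          mul_le_mul_of_nonneg_right h4 hB.le
      _ ≤ _ := h1
      _ ≤ _ := h2
      _ ≤ _ := h3
      _ ≤ _ := mul_le_mul_of_nonneg_right h5 hB.le
  have h8 := le_of_mul_le_mul_right h7 hB
  linarith

theorem exists_regular (Γ : Finset (ZMod M)) {D : ℕ} (hD : 1 ≤ D) (hΓ : Γ.card ≤ D) {ρ : ℝ}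
    (hρ : 0 < ρ) : ∃ ρ', ρ / 2 ≤ ρ' ∧ ρ' ≤ ρ ∧ Reg Γ D ρ' := by
  obtain ⟨ρ', h1, h2, h3⟩ := exists_regular_gen Γ hD hΓ (δ := 1 / 100000000) (ρ := ρ)
    (by norm_num) (by norm_num) hρ
  refine ⟨ρ', h1, h2, ?_⟩
  unfold Reg
  refine le_trans ?_ h3
  have hD0 : (0 : ℝ) < D := by exact_mod_cast hD
  have h4 : ρ' + ρ' / (1600000000 * (D : ℝ)) ≤ ρ' + 1 / 100000000 * ρ / (16 * D) := by
    have h5 : 1 / 100000000 * ρ / (16 * (D : ℝ)) = ρ / (1600000000 * D) := by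
      field_simp
      norm_num
    rw [h5]
    gcongr
  exact_mod_cast Finset.card_le_card (Bohr_mono h4)

end Vale.Agent.P057.KM
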