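import Vale.Agent.P057.KM.RieszBound

namespace Vale.Agent.P057.KM

open Finset

variable {M : ℕ} [NeZero M]

private lemma chb_norm_ft_neg (T : Finset (ZMod M)) (γ : ZMod M) :
    ‖ft T (-γ)‖ = ‖ft T γ‖ := by
  have h : ft T (-γ) = (starRingEnd ℂ) (ft T γ) := by
    unfold ft
    rw [map_sum]
    refine Finset.sum_congr rfl fun x _ => ?_
    rw [neg_mul, AddChar.map_neg_eq_conj]
  rw [h, RCLike.norm_conj]

/-- relative Chang lemma -/
theorem chang (T B Bp Bs : Finset (ZMod M)) (τ : ℝ) (n : ℕ) (hτ : 0 < τ)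
    (hTne : T.Nonempty) (hBs : Bs.Nonempty) (hTB : T ⊆ B) (hT : τ * B.card ≤ T.card)
    (hBp : (Bp.card : ℝ) ≤ 2 * B.card)
    (hadd : ∀ x ∈ B, ∀ j ≤ n, ∀ y : Fin j → ZMod M, (∀ i, y i ∈ Bs) → x - ∑ i, y i ∈ Bp)
    (hn : 8 * Real.log (4 / τ) < n) :
    ∃ Λ : Finset (ZMod M), Λ.card ≤ n ∧ ∀ γ, (T.card : ℝ) / 2 ≤ ‖ft T γ‖ →
      ∃ (η : ZMod M) (m : ZMod M → ℤ), (∀ l ∈ Λ, |m l| ≤ 1) ∧
        γ = η + ∑ l ∈ Λ, (m l : ZMod M) * l ∧ (Bs.card : ℝ) / 2 ≤ ‖ft Bs η‖ := by
  classical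
  set Dis : Finset (ZMod M) → Prop := fun Λ => ∀ m : ZMod M → ℤ, (∀ γ ∈ Λ, |m γ| ≤ 1) →
    (∃ γ ∈ Λ, m γ ≠ 0) → ‖ft Bs (∑ γ ∈ Λ, (m γ : ZMod M) * γ)‖ ≤ (Bs.card : ℝ) / 2 with hDis
  set P : Finset (ZMod M) → Prop := fun Λ => Λ.card ≤ n ∧
    (∀ γ ∈ Λ, (T.card : ℝ) / 2 ≤ ‖ft T γ‖) ∧ Dis Λ with hP
  set S : Finset (Finset (ZMod M)) := (Finset.univ : Finset (Finset (ZMod M))).filter P with hS
  have hSne : S.Nonempty := by
    refine ⟨∅, ?_⟩
    rw [hS, Finset.mem_filter]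
    refine ⟨Finset.mem_univ _, by simp, by simp, ?_⟩
    intro m _ h
    obtain ⟨γ, hγ, _⟩ := h
    simp at hγ
  obtain ⟨Λ, hΛS, hmax⟩ := Finset.exists_max_image S Finset.card hSne
  have hΛ : P Λ := (Finset.mem_filter.1 hΛS).2
  obtain ⟨hΛn, hΛspec, hΛdis⟩ := hΛ
  have hΛlt : Λ.card < n := by
    have h := riesz_bound T B Bp Bs Λ τ hτ hTne hBs hTB hT hBp
      (fun x hx y hy => hadd x hx Λ.card hΛn y hy) hΛspec hΛdis
    have h2 : (Λ.card : ℝ) < n := lt_of_le_of_lt h hn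
    exact_mod_cast h2
  refine ⟨Λ, hΛn, ?_⟩
  intro γ hγ
  by_cases hmem : γ ∈ Λ
  · refine ⟨0, fun l => if l = γ then 1 else 0, ?_, ?_, ?_⟩
    · intro l _
      dsimp only
      split_ifs <;> simp
    · rw [Finset.sum_eq_single γ]
      · simp
      · intro l _ hl
        simp [hl]
      · intro h
        exact absurd hmem h
    · have h0 : ft Bs 0 = Bs.card := by
        unfold ft
        simp
      rw [h0]
      simp only [Complex.norm_natCast]
      have : (0 : ℝ) ≤ Bs.card := by positivity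
      linarith
  · -- `insert γ Λ` is not dissociated
    have hnd : ¬ Dis (insert γ Λ) := by
      intro hd
      have hin : insert γ Λ ∈ S := by
        rw [hS, Finset.mem_filter]
        refine ⟨Finset.mem_univ _, ?_, ?_, hd⟩
        · rw [Finset.card_insert_of_notMem hmem]
          omega
        · intro γ' hγ'
          rcases Finset.mem_insert.1 hγ' with h | h
          · rw [h]; exact hγ
          · exact hΛspec γ' h
      have := hmax _ hin
      rw [Finset.card_insert_of_notMem hmem] at this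
      omega
    rw [hDis] at hnd
    push Not at hnd
    obtain ⟨m, hm1, hm2, hm3⟩ := hnd
    rw [Finset.sum_insert hmem] at hm3
    have hmγ : m γ ≠ 0 := by
      intro h0
      obtain ⟨γ', hγ', hne⟩ := hm2
      have hγ'' : γ' ∈ Λ := by
        rcases Finset.mem_insert.1 hγ' with h | h
        · exact absurd (by rw [h]; exact h0) hne
        · exact h
      have := hΛdis m (fun g hg => hm1 g (Finset.mem_insert_of_mem hg)) ⟨γ', hγ'', hne⟩
      rw [h0] at hm3
      simp only [Int.cast_zero, zero_mul, zero_add] at hm3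
      linarith
    have hmγ1 := hm1 γ (Finset.mem_insert_self γ Λ)
    have hcases : m γ = 1 ∨ m γ = -1 := by
      rw [abs_le] at hmγ1
      omega
    rcases hcases with h1 | h1
    · refine ⟨(m γ : ZMod M) * γ + ∑ l ∈ Λ, (m l : ZMod M) * l, fun l => -m l, ?_, ?_, hm3.le⟩
      · intro l hl
        rw [abs_neg]
        exact hm1 l (Finset.mem_insert_of_mem hl)
      · rw [h1]
        simp only [Int.cast_one, one_mul, Int.cast_neg, neg_mul, Finset.sum_neg_distrib]
        ring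
    · refine ⟨-((m γ : ZMod M) * γ + ∑ l ∈ Λ, (m l : ZMod M) * l), fun l => m l, ?_, ?_, ?_⟩
      · intro l hl
        exact hm1 l (Finset.mem_insert_of_mem hl)
      · rw [h1]
        simp only [Int.cast_one, Int.cast_neg, neg_mul, one_mul]
        ring
      · rw [chb_norm_ft_neg]
        exact hm3.le

private lemma chb_nrm_sum (Λ : Finset (ZMod M)) (f : ZMod M → ZMod M) :
    nrm (∑ l ∈ Λ, f l) ≤ ∑ l ∈ Λ, nrm (f l) := by
  classical
  induction Λ using Finset.induction_on with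
  | empty => simp [nrm_zero]
  | insert a s ha ih =>
    rw [Finset.sum_insert ha, Finset.sum_insert ha]
    exact le_trans (nrm_add_le _ _) (by linarith)

private lemma chb_one_sub_add (a b : ZMod M) :
    ‖1 - (ZMod.stdAddChar (a + b) : ℂ)‖ ≤
      ‖1 - (ZMod.stdAddChar a : ℂ)‖ + ‖1 - (ZMod.stdAddChar b : ℂ)‖ := by
  rw [AddChar.map_add_eq_mul]
  have e : 1 - (ZMod.stdAddChar a : ℂ) * ZMod.stdAddChar b =
      (1 - (ZMod.stdAddChar a : ℂ)) + ZMod.stdAddChar a * (1 - (ZMod.stdAddChar b : ℂ)) := by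
    ring
  rw [e]
  refine le_trans (norm_add_le _ _) ?_
  rw [norm_mul, norm_char, one_mul]

/-- translating a regular Bohr set changes its Fourier coefficient little -/
private lemma chb_shift (Bs Bq : Finset (ZMod M)) (δ : ℝ) (hBs : Bs.Nonempty)
    (hsub : Bs ⊆ Bq) (hcard : (Bq.card : ℝ) ≤ (1 + δ) * Bs.card) (x : ZMod M)
    (hx : ∀ y ∈ Bs, y + x ∈ Bq) (η : ZMod M) (hη : (Bs.card : ℝ) / 2 ≤ ‖ft Bs η‖) :
    ‖1 - (ZMod.stdAddChar (η * x) : ℂ)‖ ≤ 4 * δ := by
  classical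
  have hBspos : (0 : ℝ) < Bs.card := by exact_mod_cast hBs.card_pos
  set Bx : Finset (ZMod M) := Bs.image (fun y => y + x) with hBx
  have hinj : Function.Injective (fun y : ZMod M => y + x) := add_left_injective x
  have hcardx : Bx.card = Bs.card := Finset.card_image_of_injective _ hinj
  have hBxq : Bx ⊆ Bq := by
    intro z hz
    obtain ⟨y, hy, rfl⟩ := Finset.mem_image.1 hz
    exact hx y hy
  have h1 : (ZMod.stdAddChar (η * x) : ℂ) * ft Bs η = ft Bx η := by
    unfold ft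
    rw [hBx, Finset.sum_image (fun _ _ _ _ h => hinj h), Finset.mul_sum]
    refine Finset.sum_congr rfl fun y _ => ?_
    rw [← AddChar.map_add_eq_mul]
    congr 1
    ring
  have h2 : ft Bq η = ft Bs η + ft (Bq \ Bs) η := by
    unfold ft
    rw [add_comm, Finset.sum_sdiff hsub]
  have h3 : ft Bq η = ft Bx η + ft (Bq \ Bx) η := by
    unfold ft
    rw [add_comm, Finset.sum_sdiff hBxq]
  have h4 : (1 - (ZMod.stdAddChar (η * x) : ℂ)) * ft Bs η =
      ft (Bq \ Bx) η - ft (Bq \ Bs) η := by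
    rw [sub_mul, h1, one_mul]
    have := h2.symm.trans h3
    linear_combination this
  have h5 : ((Bq \ Bs).card : ℝ) ≤ δ * Bs.card := by
    rw [Finset.card_sdiff_of_subset hsub, Nat.cast_sub (Finset.card_le_card hsub)]
    linarith
  have h6 : ((Bq \ Bx).card : ℝ) ≤ δ * Bs.card := by
    rw [Finset.card_sdiff_of_subset hBxq, Nat.cast_sub (Finset.card_le_card hBxq), hcardx]
    linarith
  have h7 : ‖1 - (ZMod.stdAddChar (η * x) : ℂ)‖ * ‖ft Bs η‖ ≤ 2 * δ * Bs.card := by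
    rw [← norm_mul, h4]
    refine le_trans (norm_sub_le _ _) ?_
    have g1 := norm_ft_le (Bq \ Bx) η
    have g2 := norm_ft_le (Bq \ Bs) η
    linarith
  have h8 : 0 ≤ ‖1 - (ZMod.stdAddChar (η * x) : ℂ)‖ := norm_nonneg _
  have h9 : ‖1 - (ZMod.stdAddChar (η * x) : ℂ)‖ * ((Bs.card : ℝ) / 2) ≤ 2 * δ * Bs.card :=
    le_trans (mul_le_mul_of_nonneg_left hη h8) h7
  by_contra hcon
  push Not at hcon
  nlinarith

/-- Bohr version -/
theorem chang_bohr (Γ : Finset (ZMod M)) (D : ℕ) (hD : 1 ≤ D) (hΓ : Γ.card ≤ D)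
    (T B : Finset (ZMod M)) (s3 s' : ℝ) (τ : ℝ) (n : ℕ)
    (hs3 : 0 < s3) (hs3' : s3 ≤ 1) (hs' : 0 < s') (hn1 : 1 ≤ n) (hτ : 0 < τ)
    (hB : B = Bohr Γ s3) (hreg3 : Reg Γ D s3) (hns : n * s' ≤ s3 / (1600000000 * D))
    (hreg : Reg Γ D s')
    (hTne : T.Nonempty) (hTB : T ⊆ B) (hT : τ * B.card ≤ T.card)
    (hn : 8 * Real.log (4 / τ) < n) :
    ∃ Λ : Finset (ZMod M), Λ.card ≤ n ∧ ∀ γ, (T.card : ℝ) / 2 ≤ ‖ft T γ‖ →
      ∀ x ∈ Bohr (Γ ∪ Λ) (s' / (1600000000 * D)),
        ‖1 - (ZMod.stdAddChar (γ * x) : ℂ)‖ ≤ 1 / 5000000 := by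
  have hDr : (1 : ℝ) ≤ D := by exact_mod_cast hD
  have hD0 : (0 : ℝ) < D := by linarith
  set κ : ℝ := s' / (1600000000 * D) with hκ
  have hκ0 : 0 < κ := by positivity
  have hBsne : (Bohr Γ s').Nonempty := ⟨0, zero_mem_Bohr hs'.le⟩
  have hBpos : (0 : ℝ) ≤ (B.card : ℝ) := by positivity
  obtain ⟨Λ, hΛn, hΛ⟩ := chang T B (Bohr Γ (s3 + s3 / (1600000000 * D))) (Bohr Γ s') τ n hτ hTne
    hBsne hTB hT (by
      have h := hreg3
      unfold Reg at h
      rw [← hB] at h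
      nlinarith) (by
      intro x hx j hj y hy
      rw [hB] at hx
      refine sub_mem_Bohr hx ?_
      have h1 := sum_mem_Bohr hs'.le y hy
      refine Bohr_mono ?_ h1
      have h2 : (j : ℝ) ≤ n := by exact_mod_cast hj
      calc (j : ℝ) * s' ≤ n * s' := by gcongr
        _ ≤ _ := hns) hn
  refine ⟨Λ, hΛn, ?_⟩
  intro γ hγ x hx
  obtain ⟨η, m, hm, hγη, hη⟩ := hΛ γ hγ
  rw [mem_Bohr] at hx
  have hxΓ : x ∈ Bohr Γ κ := by
    rw [mem_Bohr]
    intro g hg
    exact hx g (Finset.mem_union_left _ hg)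
  have h1 : ‖1 - (ZMod.stdAddChar (η * x) : ℂ)‖ ≤ 4 * (1 / 100000000) := by
    refine chb_shift (Bohr Γ s') (Bohr Γ (s' + κ)) (1 / 100000000) hBsne
      (Bohr_mono (by linarith)) ?_ x ?_ η hη
    · exact hreg
    · intro y hy
      exact add_mem_Bohr hy hxΓ
  have h2 : ‖1 - (ZMod.stdAddChar ((∑ l ∈ Λ, (m l : ZMod M) * l) * x) : ℂ)‖ ≤
      2 * Real.pi * (n * κ) := by
    refine le_trans (norm_one_sub_char_le _) ?_
    have h3 : nrm ((∑ l ∈ Λ, (m l : ZMod M) * l) * x) ≤ n * κ := by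
      rw [Finset.sum_mul]
      refine le_trans (chb_nrm_sum _ _) ?_
      have h4 : ∀ l ∈ Λ, nrm ((m l : ZMod M) * l * x) ≤ κ := by
        intro l hl
        have h5 := hm l hl
        have h6 := hx l (Finset.mem_union_right _ hl)
        have hcases : m l = 1 ∨ m l = -1 ∨ m l = 0 := by
          rw [abs_le] at h5
          omega
        rcases hcases with h | h | h
        · rw [h]
          simpa using h6
        · rw [h]
          simp only [Int.cast_neg, Int.cast_one, neg_mul, one_mul]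
          rw [nrm_neg]
          exact h6
        · rw [h]
          simp only [Int.cast_zero, zero_mul]
          rw [nrm_zero]
          exact hκ0.le
      calc ∑ l ∈ Λ, nrm ((m l : ZMod M) * l * x) ≤ ∑ _l ∈ Λ, κ := Finset.sum_le_sum h4
        _ = Λ.card * κ := by rw [Finset.sum_const, nsmul_eq_mul]
        _ ≤ n * κ := by
            have : (Λ.card : ℝ) ≤ n := by exact_mod_cast hΛn
            gcongr
    have hpi := Real.pi_pos
    gcongr
  have h3 : (n : ℝ) * κ ≤ 1 / 100000000 := by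
    have e : (n : ℝ) * κ = (n * s') / (1600000000 * D) := by
      rw [hκ]
      ring
    rw [e, div_le_iff₀ (by positivity)]
    have h4 : s3 / (1600000000 * (D : ℝ)) ≤ 1 := by
      rw [div_le_one (by positivity)]
      nlinarith
    nlinarith
  have hpi4 := Real.pi_le_four
  have hpi0 := Real.pi_pos
  have h4 : 2 * Real.pi * (n * κ) ≤ 8 * (1 / 100000000) := by
    have h5 : 0 ≤ (n : ℝ) * κ := by positivity
    nlinarith
  rw [hγη, add_mul]
  refine le_trans (chb_one_sub_add _ _) ?_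
  linarith

end Vale.Agent.P057.KM
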