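import Mathlib

namespace Vale.Agent.P057.KM

open Finset

theorem moment_pt (x : ℝ) (hx : 0 ≤ x) (n : ℕ) :
    ((n : ℝ) + 1) * x ^ n ≤ n * x ^ (n + 1) + 1 := by
  induction n with
  | zero => simp
  | succ n ih =>
    have h1 := mul_le_mul_of_nonneg_right ih hx
    have h2 : 0 ≤ (x ^ (n + 1) - 1) * (x - 1) := by
      rcases le_total 1 x with h | h
      · have : 1 ≤ x ^ (n + 1) := one_le_pow₀ h
        exact mul_nonneg (by linarith) (by linarith)
      · have : x ^ (n + 1) ≤ 1 := pow_le_one₀ hx h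
        exact mul_nonneg_of_nonpos_of_nonpos (by linarith) (by linarith)
    push_cast
    have e1 : ((n : ℝ) + 1) * x ^ n * x = ((n : ℝ) + 1) * x ^ (n + 1) := by ring
    have e2 : ((n : ℝ) * x ^ (n + 1) + 1) * x = n * x ^ (n + 1 + 1) + x := by ring
    have e3 : (x ^ (n + 1) - 1) * (x - 1) = x ^ (n + 1 + 1) - x ^ (n + 1) - x + 1 := by ring
    rw [e1, e2] at h1
    rw [e3] at h2
    nlinarith

theorem moment_select {ι : Type*} (s : Finset ι) (g : ι → ℝ) (K κ : ℝ) (P₀ : ℕ)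
    (hs : s.Nonempty) (h0 : ∀ i ∈ s, 0 ≤ g i) (hK : ∀ i ∈ s, g i ≤ K) (hKP : K ≤ 3 ^ P₀)
    (hκ : 0 < κ) (hκP : 1 / κ ≤ (34 / 33 : ℝ) ^ P₀) (hP₀ : 1 ≤ P₀)
    (h : ∀ P, P₀ ≤ P → (17 / 16 : ℝ) ^ P * s.card ≤ ∑ i ∈ s, g i ^ P) :
    ∃ (P : ℕ) (θ : ℝ), P₀ < P ∧ P ≤ 2 * P₀ ∧ 33 / 32 ≤ θ ∧
      ∑ i ∈ s.filter (fun i => g i < θ), g i ^ P ≤ κ * ∑ i ∈ s, g i ^ P ∧
      ∑ i ∈ s, g i ^ (P + 1) ≤ (3 / κ) * θ * ∑ i ∈ s, g i ^ P := by
  set S : ℕ → ℝ := fun j => ∑ i ∈ s, g i ^ j with hS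
  have hN : (0 : ℝ) < s.card := by
    have := hs.card_pos
    exact_mod_cast this
  have hSN : ∀ P, P₀ ≤ P → (s.card : ℝ) ≤ S P := by
    intro P hP
    refine le_trans ?_ (h P hP)
    have : (1 : ℝ) ≤ (17 / 16) ^ P := one_le_pow₀ (by norm_num)
    nlinarith
  have hSpos : ∀ P, P₀ ≤ P → 0 < S P := fun P hP => lt_of_lt_of_le hN (hSN P hP)
  have hbase : S P₀ ≤ S (P₀ + 1) := by
    have h1 : ((P₀ : ℝ) + 1) * S P₀ ≤ P₀ * S (P₀ + 1) + s.card := by
      have := Finset.sum_le_sum fun i (hi : i ∈ s) => moment_pt (g i) (h0 i hi) P₀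
      rw [← Finset.mul_sum, Finset.sum_add_distrib, ← Finset.mul_sum, Finset.sum_const,
        nsmul_eq_mul, mul_one] at this
      exact this
    have h2 := hSN P₀ le_rfl
    have h3 : (P₀ : ℝ) * S P₀ ≤ P₀ * S (P₀ + 1) := by linarith
    have h4 : (0 : ℝ) < P₀ := by exact_mod_cast hP₀
    exact le_of_mul_le_mul_left h3 h4
  have htop : S (2 * P₀ + 1) ≤ K * S (2 * P₀) := by
    simp only [hS]
    rw [Finset.mul_sum]
    refine Finset.sum_le_sum fun i hi => ?_
    rw [pow_succ, mul_comm]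
    exact mul_le_mul_of_nonneg_right (hK i hi) (pow_nonneg (h0 i hi) _)
  have hex : ∃ P, P₀ < P ∧ P ≤ 2 * P₀ ∧ S (P + 1) * S (P - 1) ≤ 3 * S P ^ 2 := by
    by_contra hcon
    push Not at hcon
    have claim : ∀ j, j < P₀ → 3 ^ (j + 1) * S (P₀ + j + 1) < S (P₀ + j + 2) := by
      intro j
      induction j with
      | zero =>
        intro hj
        have := hcon (P₀ + 1) (by omega) (by omega)
        simp only [Nat.add_sub_cancel] at this
        have hp := hSpos (P₀ + 1) (by omega)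
        have hp0 := hSpos P₀ le_rfl
        have hp2 := hSpos (P₀ + 2) (by omega)
        have h5 : S (P₀ + 1 + 1) * S P₀ ≤ S (P₀ + 1 + 1) * S (P₀ + 1) :=
          mul_le_mul_of_nonneg_left hbase hp2.le
        have h6 : 3 * S (P₀ + 1) ^ 2 < S (P₀ + 1 + 1) * S (P₀ + 1) := lt_of_lt_of_le this h5
        have h7 : (3 * S (P₀ + 1)) * S (P₀ + 1) < S (P₀ + 1 + 1) * S (P₀ + 1) := by
          calc (3 * S (P₀ + 1)) * S (P₀ + 1) = 3 * S (P₀ + 1) ^ 2 := by ring
            _ < _ := h6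
        have h8 := lt_of_mul_lt_mul_right h7 hp.le
        simpa using h8
      | succ j ih =>
        intro hj
        have ih' := ih (by omega)
        have := hcon (P₀ + (j + 1) + 1) (by omega) (by omega)
        simp only [Nat.add_sub_cancel] at this
        have hp := hSpos (P₀ + (j + 1) + 1) (by omega)
        have hp0 := hSpos (P₀ + (j + 1)) (by omega)
        have hp2 := hSpos (P₀ + (j + 1) + 1 + 1) (by omega)
        have e1 : P₀ + j + 1 = P₀ + (j + 1) := by omega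
        have e2 : P₀ + j + 2 = P₀ + (j + 1) + 1 := by omega
        have e3 : P₀ + (j + 1) + 2 = P₀ + (j + 1) + 1 + 1 := by omega
        rw [e1, e2] at ih'
        rw [e3]
        have h3 : (0 : ℝ) < 3 ^ (j + 1) := by positivity
        have h5 : 3 ^ (j + 1 + 1) * S (P₀ + (j + 1) + 1) * S (P₀ + (j + 1) + 1) <
            S (P₀ + (j + 1) + 1 + 1) * S (P₀ + (j + 1) + 1) := by
          calc 3 ^ (j + 1 + 1) * S (P₀ + (j + 1) + 1) * S (P₀ + (j + 1) + 1)
              = 3 ^ (j + 1) * (3 * S (P₀ + (j + 1) + 1) ^ 2) := by ring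
            _ < 3 ^ (j + 1) * (S (P₀ + (j + 1) + 1 + 1) * S (P₀ + (j + 1))) :=
                mul_lt_mul_of_pos_left this h3
            _ = S (P₀ + (j + 1) + 1 + 1) * (3 ^ (j + 1) * S (P₀ + (j + 1))) := by ring
            _ ≤ S (P₀ + (j + 1) + 1 + 1) * S (P₀ + (j + 1) + 1) :=
                mul_le_mul_of_nonneg_left ih'.le hp2.le
        exact lt_of_mul_lt_mul_right h5 hp.le
    have hlast := claim (P₀ - 1) (by omega)
    have e1 : P₀ - 1 + 1 = P₀ := by omega
    have e2 : P₀ + (P₀ - 1) + 1 = 2 * P₀ := by omega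
    have e3 : P₀ + (P₀ - 1) + 2 = 2 * P₀ + 1 := by omega
    rw [e1, e2, e3] at hlast
    have h9 : K * S (2 * P₀) ≤ 3 ^ P₀ * S (2 * P₀) :=
      mul_le_mul_of_nonneg_right hKP (hSpos _ (by omega)).le
    linarith
  obtain ⟨P, hP1, hP2, hP3⟩ := hex
  have hSp := hSpos P hP1.le
  have hSm := hSpos (P - 1) (by omega)
  set Rm : ℝ := S P / S (P - 1) with hRm
  have hRm0 : 0 < Rm := div_pos hSp hSm
  refine ⟨P, max (33 / 32) (κ * Rm), hP1, hP2, le_max_left _ _, ?_, ?_⟩
  · rcases le_total (κ * Rm) (33 / 32) with hle | hle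
    · rw [max_eq_left hle]
      have h1 : ∑ i ∈ s.filter (fun i => g i < 33 / 32), g i ^ P ≤
          ∑ i ∈ s, (33 / 32 : ℝ) ^ P := by
        refine le_trans (Finset.sum_le_sum (g := fun _ => (33 / 32 : ℝ) ^ P) fun i hi => ?_)
          (Finset.sum_le_sum_of_subset_of_nonneg (Finset.filter_subset _ _)
            fun _ _ _ => by positivity)
        rw [Finset.mem_filter] at hi
        exact pow_le_pow_left₀ (h0 i hi.1) hi.2.le _
      rw [Finset.sum_const, nsmul_eq_mul] at h1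
      refine h1.trans ?_
      have h2 := h P hP1.le
      have h3 : (34 / 33 : ℝ) ^ P₀ ≤ (34 / 33) ^ P := pow_le_pow_right₀ (by norm_num) hP1.le
      have h4 : 1 ≤ κ * (34 / 33 : ℝ) ^ P := by
        have := hκP.trans h3
        rw [div_le_iff₀ hκ] at this
        linarith
      have h5 : (33 / 32 : ℝ) ^ P * (34 / 33) ^ P = (17 / 16) ^ P := by
        rw [← mul_pow]; norm_num
      calc (s.card : ℝ) * (33 / 32) ^ P
          ≤ (s.card : ℝ) * (33 / 32) ^ P * (κ * (34 / 33 : ℝ) ^ P) :=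
            le_mul_of_one_le_right (by positivity) h4
        _ = κ * ((17 / 16) ^ P * s.card) := by rw [← h5]; ring
        _ ≤ κ * ∑ i ∈ s, g i ^ P := mul_le_mul_of_nonneg_left h2 hκ.le
    · rw [max_eq_right hle]
      have hPm : P = (P - 1) + 1 := by omega
      have h1 : ∑ i ∈ s.filter (fun i => g i < κ * Rm), g i ^ P ≤
          ∑ i ∈ s, (κ * Rm) * g i ^ (P - 1) := by
        refine le_trans (Finset.sum_le_sum (g := fun i => (κ * Rm) * g i ^ (P - 1))
          fun i hi => ?_)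
          (Finset.sum_le_sum_of_subset_of_nonneg (Finset.filter_subset _ _)
            fun i hi _ => mul_nonneg (by positivity) (pow_nonneg (h0 i hi) _))
        rw [Finset.mem_filter] at hi
        conv_lhs => rw [hPm]
        rw [pow_succ, mul_comm]
        exact mul_le_mul_of_nonneg_right hi.2.le (pow_nonneg (h0 i hi.1) _)
      rw [← Finset.mul_sum] at h1
      refine h1.trans (le_of_eq ?_)
      change κ * Rm * S (P - 1) = κ * S P
      rw [hRm, mul_assoc, div_mul_cancel₀ _ hSm.ne']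
  · change S (P + 1) ≤ 3 / κ * max (33 / 32) (κ * Rm) * S P
    have h1 : S (P + 1) ≤ 3 * Rm * S P := by
      rw [hRm]
      rw [show 3 * (S P / S (P - 1)) * S P = 3 * S P ^ 2 / S (P - 1) by ring]
      rw [le_div_iff₀ hSm]
      exact hP3
    have h2 : 3 * Rm ≤ 3 / κ * max (33 / 32) (κ * Rm) := by
      have h3 : κ * Rm ≤ max (33 / 32) (κ * Rm) := le_max_right _ _
      calc 3 * Rm = 3 / κ * (κ * Rm) := by field_simp
        _ ≤ _ := mul_le_mul_of_nonneg_left h3 (by positivity)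
    exact h1.trans (mul_le_mul_of_nonneg_right h2 hSp.le)

end Vale.Agent.P057.KM
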