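import Vale.Agent.P057.KM.Defs

namespace Vale.Agent.P057.KM

open Finset

variable {G : Type*} [AddCommGroup G] [Fintype G] [DecidableEq G]

omit [DecidableEq G] in
theorem corr_sub_eq (f : G → ℝ) (b b' : G) :
    corr f (b - b') = ∑ y, f (y + b) * f (y + b') := by
  unfold corr
  refine (Fintype.sum_equiv (Equiv.addRight b') _ _ ?_).symm
  intro y
  simp only [Equiv.coe_addRight]
  have : y + b' + (b - b') = y + b := by abel
  rw [this, mul_comm]

omit [DecidableEq G] in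
theorem conv_add_sub_eq (f : G → ℝ) (t b b' : G) :
    conv f (t + b - b') = ∑ y, f (y + b) * f (t - y - b') := by
  unfold conv
  refine (Fintype.sum_equiv (Equiv.addRight b) _ _ ?_).symm
  intro y
  simp only [Equiv.coe_addRight]
  have : t + b - b' - (y + b) = t - y - b' := by abel
  rw [this]

omit [DecidableEq G] in
theorem corr_pow_sum_eq (f : G → ℝ) (B : Finset G) (n : ℕ) :
    ∑ b ∈ B, ∑ b' ∈ B, (corr f (b - b')) ^ n =
      ∑ y : Fin n → G, (∑ b ∈ B, ∏ i, f (y i + b)) ^ 2 := by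
  have h1 : ∀ b b' : G, (corr f (b - b')) ^ n =
      ∑ y : Fin n → G, (∏ i, f (y i + b)) * (∏ i, f (y i + b')) := by
    intro b b'
    rw [corr_sub_eq, Fintype.sum_pow]
    refine Finset.sum_congr rfl fun y _ => ?_
    rw [Finset.prod_mul_distrib]
  simp_rw [h1]
  have h2 : ∀ b ∈ B, ∑ b' ∈ B, ∑ y : Fin n → G, (∏ i, f (y i + b)) * (∏ i, f (y i + b')) =
      ∑ y : Fin n → G, ∑ b' ∈ B, (∏ i, f (y i + b)) * (∏ i, f (y i + b')) := by
    intro b _
    rw [Finset.sum_comm]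
  rw [Finset.sum_congr rfl h2, Finset.sum_comm]
  refine Finset.sum_congr rfl fun y _ => ?_
  rw [sq, Finset.sum_mul_sum]

omit [DecidableEq G] in
theorem corr_pow_sum_nonneg (f : G → ℝ) (B : Finset G) (n : ℕ) :
    0 ≤ ∑ b ∈ B, ∑ b' ∈ B, (corr f (b - b')) ^ n := by
  rw [corr_pow_sum_eq]
  exact Finset.sum_nonneg fun _ _ => sq_nonneg _

omit [DecidableEq G] in
theorem conv_pow_sum_eq (f : G → ℝ) (B : Finset G) (n : ℕ) (t : G) :
    ∑ b ∈ B, ∑ b' ∈ B, (conv f (t + b - b')) ^ n =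
      ∑ y : Fin n → G, (∑ b ∈ B, ∏ i, f (y i + b)) * (∑ b ∈ B, ∏ i, f (t - y i - b)) := by
  have h1 : ∀ b b' : G, (conv f (t + b - b')) ^ n =
      ∑ y : Fin n → G, (∏ i, f (y i + b)) * (∏ i, f (t - y i - b')) := by
    intro b b'
    rw [conv_add_sub_eq, Fintype.sum_pow]
    refine Finset.sum_congr rfl fun y _ => ?_
    rw [Finset.prod_mul_distrib]
  simp_rw [h1]
  have h2 : ∀ b ∈ B, ∑ b' ∈ B, ∑ y : Fin n → G, (∏ i, f (y i + b)) * (∏ i, f (t - y i - b')) =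
      ∑ y : Fin n → G, ∑ b' ∈ B, (∏ i, f (y i + b)) * (∏ i, f (t - y i - b')) := by
    intro b _
    rw [Finset.sum_comm]
  rw [Finset.sum_congr rfl h2, Finset.sum_comm]
  refine Finset.sum_congr rfl fun y _ => ?_
  rw [Finset.sum_mul_sum]

omit [DecidableEq G] in
theorem refl_pow_sum_eq (f : G → ℝ) (B : Finset G) (n : ℕ) (t : G) :
    ∑ y : Fin n → G, (∑ b ∈ B, ∏ i, f (t - y i - b)) ^ 2 =
      ∑ b ∈ B, ∑ b' ∈ B, (corr f (b - b')) ^ n := by
  have h1 : ∀ b b' : G, (corr f (b - b')) ^ n =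
      ∑ y : Fin n → G, (∏ i, f (t - y i - b)) * (∏ i, f (t - y i - b')) := by
    intro b b'
    have : corr f (b - b') = ∑ y, f (t - y - b) * f (t - y - b') := by
      unfold corr
      refine (Fintype.sum_equiv ((Equiv.subLeft t).trans (Equiv.subRight b)) _ _ ?_).symm
      intro y
      simp only [Equiv.trans_apply, Equiv.subLeft_apply, Equiv.subRight_apply]
      have : t - y - b + (b - b') = t - y - b' := by abel
      rw [this]
    rw [this, Fintype.sum_pow]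
    refine Finset.sum_congr rfl fun y _ => ?_
    rw [Finset.prod_mul_distrib]
  simp_rw [h1]
  have h2 : ∀ b ∈ B, ∑ b' ∈ B, ∑ y : Fin n → G, (∏ i, f (t - y i - b)) *
      (∏ i, f (t - y i - b')) =
      ∑ y : Fin n → G, ∑ b' ∈ B, (∏ i, f (t - y i - b)) * (∏ i, f (t - y i - b')) := by
    intro b _
    rw [Finset.sum_comm]
  rw [Finset.sum_congr rfl h2, Finset.sum_comm]
  refine Finset.sum_congr rfl fun y _ => ?_
  rw [sq, Finset.sum_mul_sum]

omit [DecidableEq G] in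
theorem conv_pow_sum_le (f : G → ℝ) (B : Finset G) (n : ℕ) (t : G) :
    ∑ b ∈ B, ∑ b' ∈ B, (conv f (t + b - b')) ^ n ≤
      ∑ b ∈ B, ∑ b' ∈ B, (corr f (b - b')) ^ n := by
  have e1 := corr_pow_sum_eq f B n
  have e2 := refl_pow_sum_eq f B n t
  rw [conv_pow_sum_eq]
  have h : ∑ y : Fin n → G, (∑ b ∈ B, ∏ i, f (y i + b)) * (∑ b ∈ B, ∏ i, f (t - y i - b)) ≤
      ∑ y : Fin n → G, ((∑ b ∈ B, ∏ i, f (y i + b)) ^ 2 / 2 +
        (∑ b ∈ B, ∏ i, f (t - y i - b)) ^ 2 / 2) := by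
    refine Finset.sum_le_sum fun y _ => ?_
    nlinarith [sq_nonneg ((∑ b ∈ B, ∏ i, f (y i + b)) - (∑ b ∈ B, ∏ i, f (t - y i - b)))]
  rw [Finset.sum_add_distrib, ← Finset.sum_div, ← Finset.sum_div, ← e1, e2] at h
  linarith

theorem conv_pow_le_corr_pow (f : G → ℝ) (B C D : Finset G) (n : ℕ) (hn : Even n)
    (h : ∀ c ∈ C, ∀ b ∈ B, ∀ b' ∈ B, c + b' - b ∈ D) :
    (B.card : ℝ) ^ 2 * ∑ c ∈ C, (conv f c) ^ n ≤
      D.card * ∑ b ∈ B, ∑ b' ∈ B, (corr f (b - b')) ^ n := by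
  have key : ∀ b ∈ B, ∀ b' ∈ B, ∑ c ∈ C, (conv f c) ^ n ≤ ∑ t ∈ D, (conv f (t + b - b')) ^ n := by
    intro b hb b' hb'
    have h1 : ∑ c ∈ C, (conv f c) ^ n =
        ∑ t ∈ C.image (fun c => c + b' - b), (conv f (t + b - b')) ^ n := by
      rw [Finset.sum_image]
      · refine Finset.sum_congr rfl fun c _ => ?_
        have : c + b' - b + b - b' = c := by abel
        rw [this]
      · intro x _ y _ hxy
        have : x + b' - b = y + b' - b := hxy
        simpa using this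
    rw [h1]
    refine Finset.sum_le_sum_of_subset_of_nonneg ?_ ?_
    · intro t ht
      rw [Finset.mem_image] at ht
      obtain ⟨c, hc, rfl⟩ := ht
      exact h c hc b hb b' hb'
    · intro t _ _
      exact hn.pow_nonneg _
  have h2 : (B.card : ℝ) ^ 2 * ∑ c ∈ C, (conv f c) ^ n =
      ∑ b ∈ B, ∑ b' ∈ B, ∑ c ∈ C, (conv f c) ^ n := by
    simp only [Finset.sum_const, nsmul_eq_mul]
    ring
  rw [h2]
  calc ∑ b ∈ B, ∑ b' ∈ B, ∑ c ∈ C, (conv f c) ^ n
      ≤ ∑ b ∈ B, ∑ b' ∈ B, ∑ t ∈ D, (conv f (t + b - b')) ^ n :=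
        Finset.sum_le_sum fun b hb => Finset.sum_le_sum fun b' hb' => key b hb b' hb'
    _ = ∑ t ∈ D, ∑ b ∈ B, ∑ b' ∈ B, (conv f (t + b - b')) ^ n := by
        rw [Finset.sum_comm]
        rw [Finset.sum_congr rfl fun b _ => Finset.sum_comm]
        rw [Finset.sum_comm]
        refine Finset.sum_congr rfl fun t _ => ?_
        exact Finset.sum_comm
    _ ≤ ∑ t ∈ D, ∑ b ∈ B, ∑ b' ∈ B, (corr f (b - b')) ^ n :=
        Finset.sum_le_sum fun t _ => conv_pow_sum_le f B n t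
    _ = D.card * ∑ b ∈ B, ∑ b' ∈ B, (corr f (b - b')) ^ n := by
        rw [Finset.sum_const, nsmul_eq_mul]

end Vale.Agent.P057.KM
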