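import Vale.Agent.P057.KM.Defs

namespace Vale.Agent.P057.KM

open Finset

variable {G : Type*} [AddCommGroup G] [Fintype G] [DecidableEq G]

/-- the sifted set -/
def sifted (A B : Finset G) {P : ℕ} (s : Fin P → G) : Finset G :=
  B.filter (fun b => ∀ i, b - s i ∈ A)

def sind (A : Finset G) (x : G) : ℝ := if x ∈ A then 1 else 0

omit [Fintype G] in
theorem sind_prod (A : Finset G) {P : ℕ} (s : Fin P → G) (b : G) :
    ∏ i, sind A (b - s i) = if (∀ i, b - s i ∈ A) then (1 : ℝ) else 0 := by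
  unfold sind
  rw [Finset.prod_ite_zero]
  simp

theorem sum_sind (A : Finset G) (b : G) : ∑ x, sind A (b - x) = (A.card : ℝ) := by
  have h : ∑ x, sind A (b - x) = ∑ x, sind A x :=
    Fintype.sum_equiv (Equiv.subLeft b) _ _ (fun x => rfl)
  rw [h]
  unfold sind
  rw [Finset.sum_ite_mem, Finset.univ_inter, Finset.sum_const, nsmul_eq_mul, mul_one]

theorem sum_sind_mul (A : Finset G) (b b' : G) :
    ∑ x, sind A (b - x) * sind A (b' - x) = (cc A (b - b') : ℝ) := by
  have h : ∑ x, sind A (b - x) * sind A (b' - x) =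
      ∑ y, sind A (y + (b - b')) * sind A y := by
    refine Fintype.sum_equiv (Equiv.subLeft b') _ _ (fun x => ?_)
    simp only [Equiv.subLeft_apply]
    have : b' - x + (b - b') = b - x := by abel
    rw [this]
  rw [h]
  unfold sind cc
  rw [Finset.card_filter]
  push_cast
  rw [← Finset.sum_filter_add_sum_filter_not Finset.univ (fun y => y ∈ A)]
  have h2 : ∑ x with ¬ x ∈ A, (if x + (b - b') ∈ A then (1 : ℝ) else 0) *
      (if x ∈ A then (1 : ℝ) else 0) = 0 := by
    refine Finset.sum_eq_zero fun x hx => ?_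
    rw [Finset.mem_filter] at hx
    rw [if_neg hx.2, mul_zero]
  rw [h2, add_zero, Finset.filter_mem_eq_inter, Finset.univ_inter]
  refine Finset.sum_congr rfl fun x hx => ?_
  rw [if_pos hx, mul_one]

theorem sum_sifted_card (A B : Finset G) (P : ℕ) :
    ∑ s : Fin P → G, ((sifted A B s).card : ℝ) = B.card * (A.card : ℝ) ^ P := by
  have h1 : ∀ s : Fin P → G, ((sifted A B s).card : ℝ) = ∑ b ∈ B, ∏ i, sind A (b - s i) := by
    intro s
    simp_rw [sind_prod]
    unfold sifted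
    rw [Finset.card_filter]
    push_cast
    rfl
  simp_rw [h1]
  rw [Finset.sum_comm]
  have h2 : ∀ b ∈ B, ∑ s : Fin P → G, ∏ i, sind A (b - s i) = (A.card : ℝ) ^ P := by
    intro b _
    rw [← sum_sind A b, Fintype.sum_pow]
  rw [Finset.sum_congr rfl h2, Finset.sum_const, nsmul_eq_mul]

theorem sum_sifted_pairs (A B : Finset G) (P : ℕ) (w : G × G → ℝ) :
    ∑ s : Fin P → G, ∑ p ∈ sifted A B s ×ˢ sifted A B s, w p =
      ∑ p ∈ B ×ˢ B, (cc A (p.1 - p.2) : ℝ) ^ P * w p := by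
  have h1 : ∀ s : Fin P → G, ∑ p ∈ sifted A B s ×ˢ sifted A B s, w p =
      ∑ p ∈ B ×ˢ B, (∏ i, (sind A (p.1 - s i) * sind A (p.2 - s i))) * w p := by
    intro s
    have e : sifted A B s ×ˢ sifted A B s =
        (B ×ˢ B).filter (fun p => (∀ i, p.1 - s i ∈ A) ∧ (∀ i, p.2 - s i ∈ A)) := by
      ext p
      simp only [sifted, Finset.mem_product, Finset.mem_filter]
      tauto
    rw [e, Finset.sum_filter]
    refine Finset.sum_congr rfl fun p _ => ?_
    rw [Finset.prod_mul_distrib, sind_prod, sind_prod]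
    by_cases ha : ∀ i, p.1 - s i ∈ A <;> by_cases hb : ∀ i, p.2 - s i ∈ A <;> simp [ha, hb]
  simp_rw [h1]
  rw [Finset.sum_comm]
  refine Finset.sum_congr rfl fun p _ => ?_
  rw [← Finset.sum_mul, ← sum_sind_mul, Fintype.sum_pow]

theorem sift (A B : Finset G) (hA : A.Nonempty) (hB : B.Nonempty) (β : ℝ) (hβ : 0 < β) (P : ℕ)
    (θ κ R : ℝ) (hκ : 0 < κ) (hR : 0 < R) (g : G → ℝ)
    (hg : ∀ x, g x = β * (cc A x) / (A.card : ℝ) ^ 2)
    (h0 : (B.card : ℝ) ^ 2 ≤ ∑ p ∈ B ×ˢ B, g (p.1 - p.2) ^ P)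
    (h1 : ∑ p ∈ (B ×ˢ B).filter (fun p => g (p.1 - p.2) < θ), g (p.1 - p.2) ^ P ≤
      κ * ∑ p ∈ B ×ˢ B, g (p.1 - p.2) ^ P)
    (h2 : ∑ p ∈ B ×ˢ B, g (p.1 - p.2) ^ (P + 1) ≤ R * ∑ p ∈ B ×ˢ B, g (p.1 - p.2) ^ P) :
    ∃ A' : Finset G, A' ⊆ B ∧ A'.Nonempty ∧
      (1 / 4) * ((A.card : ℝ) / β) ^ P * B.card ≤ A'.card ∧
      (((A' ×ˢ A').filter (fun p => g (p.1 - p.2) < θ)).card : ℝ) ≤ 4 * κ * (A'.card : ℝ) ^ 2 ∧
      ∑ p ∈ A' ×ˢ A', g (p.1 - p.2) ≤ 4 * R * (A'.card : ℝ) ^ 2 := by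
  have hAc : (0 : ℝ) < A.card := by exact_mod_cast hA.card_pos
  have hBc : (0 : ℝ) < B.card := by exact_mod_cast hB.card_pos
  set γ : ℝ := β / (A.card : ℝ) ^ 2 with hγ
  have hγ0 : 0 < γ := by positivity
  have hg' : ∀ x, g x = γ * (cc A x : ℝ) := by
    intro x; rw [hg, hγ]; ring
  have hg0 : ∀ x, 0 ≤ g x := by
    intro x; rw [hg']; positivity
  set c : G × G → ℝ := fun p => (cc A (p.1 - p.2) : ℝ) with hc
  have hc0 : ∀ p, 0 ≤ c p := fun p => by simp only [hc]; positivity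
  have hgp : ∀ (p : G × G), g (p.1 - p.2) ^ P = γ ^ P * c p ^ P := by
    intro p; rw [hg', mul_pow]
  set SP : ℝ := ∑ p ∈ B ×ˢ B, c p ^ P with hSP
  have hγP : 0 < γ ^ P := by positivity
  have eSP : ∑ p ∈ B ×ˢ B, g (p.1 - p.2) ^ P = γ ^ P * SP := by
    rw [hSP, Finset.mul_sum]
    exact Finset.sum_congr rfl fun p _ => hgp p
  rw [eSP] at h0 h1 h2
  have h1' : ∑ p ∈ (B ×ˢ B).filter (fun p => g (p.1 - p.2) < θ), c p ^ P ≤ κ * SP := by
    have e : ∑ p ∈ (B ×ˢ B).filter (fun p => g (p.1 - p.2) < θ), g (p.1 - p.2) ^ P =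
        γ ^ P * ∑ p ∈ (B ×ˢ B).filter (fun p => g (p.1 - p.2) < θ), c p ^ P := by
      rw [Finset.mul_sum]
      exact Finset.sum_congr rfl fun p _ => hgp p
    rw [e] at h1
    have : γ ^ P * ∑ p ∈ (B ×ˢ B).filter (fun p => g (p.1 - p.2) < θ), c p ^ P ≤
        γ ^ P * (κ * SP) := by linarith
    exact le_of_mul_le_mul_left this hγP
  have h2' : ∑ p ∈ B ×ˢ B, c p ^ P * g (p.1 - p.2) ≤ R * SP := by
    have e : ∑ p ∈ B ×ˢ B, g (p.1 - p.2) ^ (P + 1) =
        γ ^ P * ∑ p ∈ B ×ˢ B, c p ^ P * g (p.1 - p.2) := by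
      rw [Finset.mul_sum]
      refine Finset.sum_congr rfl fun p _ => ?_
      rw [pow_succ, hgp p]; ring
    rw [e] at h2
    have : γ ^ P * ∑ p ∈ B ×ˢ B, c p ^ P * g (p.1 - p.2) ≤ γ ^ P * (R * SP) := by linarith
    exact le_of_mul_le_mul_left this hγP
  have hSPpos : 0 < SP := by
    have : 0 < γ ^ P * SP := lt_of_lt_of_le (by positivity) h0
    exact pos_of_mul_pos_right this hγP.le
  set T : ℝ := (1 / 4) * ((A.card : ℝ) / β) ^ P * B.card with hT
  have hT0 : 0 ≤ T := by positivity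
  -- sums over s
  have s1 : ∑ s : Fin P → G, ((sifted A B s).card : ℝ) ^ 2 = SP := by
    have := sum_sifted_pairs A B P (fun _ => 1)
    simp only [Finset.sum_const, nsmul_eq_mul, mul_one, Finset.card_product] at this
    rw [hSP]
    rw [← this]
    refine Finset.sum_congr rfl fun s _ => ?_
    push_cast; ring
  have s2 : ∑ s : Fin P → G, T * ((sifted A B s).card : ℝ) ≤ SP / 4 := by
    rw [← Finset.mul_sum, sum_sifted_card]
    have e : T * ((B.card : ℝ) * (A.card : ℝ) ^ P) * γ ^ P = (1 / 4) * (B.card : ℝ) ^ 2 := by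
      rw [hT, hγ, div_pow, div_pow]
      have hβP : β ^ P ≠ 0 := by positivity
      have hAP : (A.card : ℝ) ^ P ≠ 0 := by positivity
      field_simp
      ring
    have h3 : T * ((B.card : ℝ) * (A.card : ℝ) ^ P) * γ ^ P ≤ (SP / 4) * γ ^ P := by
      rw [e]; linarith
    exact le_of_mul_le_mul_right h3 hγP
  set bad : (Fin P → G) → ℝ := fun s =>
    (((sifted A B s ×ˢ sifted A B s).filter (fun p => g (p.1 - p.2) < θ)).card : ℝ) with hbad
  set tot : (Fin P → G) → ℝ := fun s =>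
    ∑ p ∈ sifted A B s ×ˢ sifted A B s, g (p.1 - p.2) with htot
  have s3 : ∑ s : Fin P → G, bad s ≤ κ * SP := by
    have := sum_sifted_pairs A B P (fun p => if g (p.1 - p.2) < θ then 1 else 0)
    have e : ∑ s : Fin P → G, bad s =
        ∑ p ∈ B ×ˢ B, (cc A (p.1 - p.2) : ℝ) ^ P * (if g (p.1 - p.2) < θ then 1 else 0) := by
      rw [← this]
      refine Finset.sum_congr rfl fun s _ => ?_
      simp only [hbad]
      rw [Finset.card_filter]
      push_cast
      rfl
    rw [e]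
    refine le_trans (le_of_eq ?_) h1'
    rw [Finset.sum_filter]
    refine Finset.sum_congr rfl fun p _ => ?_
    simp only [hc]
    split_ifs <;> simp
  have s4 : ∑ s : Fin P → G, tot s ≤ R * SP := by
    have := sum_sifted_pairs A B P (fun p => g (p.1 - p.2))
    simp only [htot]
    rw [this]
    exact h2'
  have hex : ∃ s : Fin P → G, 0 < ((sifted A B s).card : ℝ) ^ 2 -
      T * ((sifted A B s).card : ℝ) - bad s / (4 * κ) - tot s / (4 * R) := by
    by_contra hcon
    push Not at hcon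
    have hsum : ∑ s : Fin P → G, (((sifted A B s).card : ℝ) ^ 2 -
      T * ((sifted A B s).card : ℝ) - bad s / (4 * κ) - tot s / (4 * R)) ≤ 0 :=
      Finset.sum_nonpos fun s _ => hcon s
    rw [Finset.sum_sub_distrib, Finset.sum_sub_distrib, Finset.sum_sub_distrib,
      ← Finset.sum_div, ← Finset.sum_div, s1] at hsum
    have b1 : (∑ s : Fin P → G, bad s) / (4 * κ) ≤ SP / 4 := by
      rw [div_le_iff₀ (by positivity)]
      linarith
    have b2 : (∑ s : Fin P → G, tot s) / (4 * R) ≤ SP / 4 := by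
      rw [div_le_iff₀ (by positivity)]
      linarith
    linarith
  obtain ⟨s, hs⟩ := hex
  have hbad0 : 0 ≤ bad s := by simp only [hbad]; positivity
  have htot0 : 0 ≤ tot s := Finset.sum_nonneg fun p _ => hg0 _
  have q1 : 0 ≤ bad s / (4 * κ) := by positivity
  have q2 : 0 ≤ tot s / (4 * R) := by positivity
  have q3 : 0 ≤ T * ((sifted A B s).card : ℝ) := by positivity
  have hcard0 : (0 : ℝ) ≤ (sifted A B s).card := by positivity
  have hne : (sifted A B s).Nonempty := by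
    rw [Finset.nonempty_iff_ne_empty]
    intro h
    rw [h] at hs q3
    simp only [Finset.card_empty, Nat.cast_zero] at hs q3
    nlinarith
  have hcpos : (0 : ℝ) < (sifted A B s).card := by exact_mod_cast hne.card_pos
  refine ⟨sifted A B s, Finset.filter_subset _ _, hne, ?_, ?_, ?_⟩
  · by_contra hlt
    push Not at hlt
    have : ((sifted A B s).card : ℝ) ^ 2 < T * ((sifted A B s).card : ℝ) := by
      rw [sq]
      exact mul_lt_mul_of_pos_right hlt hcpos
    linarith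
  · have : bad s / (4 * κ) ≤ ((sifted A B s).card : ℝ) ^ 2 := by linarith
    rw [div_le_iff₀ (by positivity)] at this
    calc bad s ≤ _ := this
      _ = 4 * κ * ((sifted A B s).card : ℝ) ^ 2 := by ring
  · have : tot s / (4 * R) ≤ ((sifted A B s).card : ℝ) ^ 2 := by linarith
    rw [div_le_iff₀ (by positivity)] at this
    calc tot s ≤ _ := this
      _ = 4 * R * ((sifted A B s).card : ℝ) ^ 2 := by ring

end Vale.Agent.P057.KM
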