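import Mathlib

namespace Vale.Agent.P057.KM

open Finset

theorem unbalance_pt1 (x : ℝ) (q : ℕ) :
    (1 / 8 : ℝ) * (x ^ (2 * q) - (1 / 8) ^ (2 * q)) ≤ |x| ^ (2 * q + 1) := by
  have hev : x ^ (2 * q) = |x| ^ (2 * q) := by
    rw [pow_mul, pow_mul, sq_abs]
  rw [hev]
  have h0 : (0 : ℝ) ≤ |x| := abs_nonneg x
  rcases le_total (1 / 8 : ℝ) |x| with h | h
  · have : (1 / 8 : ℝ) * |x| ^ (2 * q) ≤ |x| ^ (2 * q + 1) := by
      rw [pow_succ, mul_comm]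
      exact mul_le_mul_of_nonneg_left h (pow_nonneg h0 _)
    have h8 : (0 : ℝ) ≤ (1 / 8) ^ (2 * q) := by positivity
    linarith
  · have h1 : |x| ^ (2 * q) ≤ (1 / 8) ^ (2 * q) := pow_le_pow_left₀ h0 h _
    have h2 : 0 ≤ |x| ^ (2 * q + 1) := pow_nonneg h0 _
    linarith

theorem unbalance_pt2 (x : ℝ) (q : ℕ) :
    |x| ^ (2 * q + 1) = 2 * (max x 0) ^ (2 * q + 1) - x ^ (2 * q + 1) := by
  rcases le_total 0 x with h | h
  · rw [abs_of_nonneg h, max_eq_left h]; ring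
  · rw [abs_of_nonpos h, max_eq_right h]
    have : (-x) ^ (2 * q + 1) = - x ^ (2 * q + 1) := Odd.neg_pow ⟨q, rfl⟩ x
    rw [this, zero_pow (by omega)]; ring

theorem unbalance_pt3 (x g : ℝ) (n P : ℕ) (_hn : 1 ≤ n) (hP : 34 * n ≤ P) (h1 : x + 1 ≤ g)
    (h2 : 0 ≤ g) : (17 / 16 : ℝ) ^ P * (16 ^ n * ((max x 0) ^ n - (1 / 8) ^ n)) ≤ g ^ P := by
  rcases le_total (1 / 8 : ℝ) x with h | h
  · have hx0 : 0 ≤ x := by linarith
    rw [max_eq_left hx0]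
    have hb : 1 + 8 * x / 17 ≤ (16 / 17) * g := by linarith
    have hb1 : (1 : ℝ) ≤ (16 / 17) * g := by linarith
    have h34 : 16 * x ≤ ((16 / 17) * g) ^ 34 := by
      have := one_add_mul_le_pow (a := 8 * x / 17) (by linarith) 34
      have h' : (1 + 8 * x / 17) ^ 34 ≤ ((16 / 17) * g) ^ 34 :=
        pow_le_pow_left₀ (by linarith) hb _
      push_cast at this
      linarith
    have hP' : ((16 / 17) * g) ^ (34 * n) ≤ ((16 / 17) * g) ^ P := pow_le_pow_right₀ hb1 hP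
    have hn' : (16 * x) ^ n ≤ ((16 / 17) * g) ^ (34 * n) := by
      rw [pow_mul]
      exact pow_le_pow_left₀ (by linarith) h34 _
    have hfin : (16 * x) ^ n ≤ ((16 / 17) * g) ^ P := hn'.trans hP'
    have hsplit : g ^ P = (17 / 16 : ℝ) ^ P * ((16 / 17) * g) ^ P := by
      rw [← mul_pow]; congr 1; ring
    rw [hsplit]
    refine mul_le_mul_of_nonneg_left ?_ (by positivity)
    have : (0 : ℝ) ≤ 16 ^ n * (1 / 8) ^ n := by positivity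
    calc (16 : ℝ) ^ n * (x ^ n - (1 / 8) ^ n) = (16 * x) ^ n - 16 ^ n * (1 / 8) ^ n := by
          rw [mul_pow]; ring
      _ ≤ (16 * x) ^ n := by linarith
      _ ≤ _ := hfin
  · have hm : max x 0 ≤ 1 / 8 := max_le h (by norm_num)
    have hm0 : 0 ≤ max x 0 := le_max_right _ _
    have h3 : (max x 0) ^ n ≤ (1 / 8) ^ n := pow_le_pow_left₀ hm0 hm _
    have h4 : (17 / 16 : ℝ) ^ P * (16 ^ n * ((max x 0) ^ n - (1 / 8) ^ n)) ≤ 0 := by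
      refine mul_nonpos_of_nonneg_of_nonpos (by positivity) ?_
      refine mul_nonpos_of_nonneg_of_nonpos (by positivity) ?_
      linarith
    exact h4.trans (pow_nonneg h2 _)

theorem unbalance {ι : Type*} (s : Finset ι) (X g : ι → ℝ) (q P : ℕ) (hq : 2 ≤ q)
    (hP : 34 * (2 * q + 1) ≤ P) (h1 : ∀ i ∈ s, X i + 1 ≤ g i) (h2 : ∀ i ∈ s, 0 ≤ g i)
    (h3 : 0 ≤ ∑ i ∈ s, X i ^ (2 * q + 1))
    (h4 : (1 / 4 : ℝ) ^ (2 * q) * s.card ≤ ∑ i ∈ s, X i ^ (2 * q)) :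
    (17 / 16 : ℝ) ^ P * s.card ≤ ∑ i ∈ s, g i ^ P := by
  set N : ℝ := (s.card : ℝ) with hN
  have hN0 : 0 ≤ N := by positivity
  -- sum of |X|^n
  have ha : (1 / 8 : ℝ) * ((1 / 4) ^ (2 * q) * N - (1 / 8) ^ (2 * q) * N) ≤
      ∑ i ∈ s, |X i| ^ (2 * q + 1) := by
    have := Finset.sum_le_sum fun i (_ : i ∈ s) => unbalance_pt1 (X i) q
    rw [← Finset.mul_sum, Finset.sum_sub_distrib, Finset.sum_const, nsmul_eq_mul] at this
    have e : (s.card : ℝ) * (1 / 8) ^ (2 * q) = (1 / 8) ^ (2 * q) * N := by ring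
    rw [e] at this
    linarith
  have hb : ∑ i ∈ s, |X i| ^ (2 * q + 1) ≤ 2 * ∑ i ∈ s, (max (X i) 0) ^ (2 * q + 1) := by
    have : ∑ i ∈ s, |X i| ^ (2 * q + 1) =
        2 * ∑ i ∈ s, (max (X i) 0) ^ (2 * q + 1) - ∑ i ∈ s, X i ^ (2 * q + 1) := by
      rw [Finset.mul_sum, ← Finset.sum_sub_distrib]
      exact Finset.sum_congr rfl fun i _ => unbalance_pt2 (X i) q
    linarith
  have hc : (17 / 16 : ℝ) ^ P * (16 ^ (2 * q + 1) *
      (∑ i ∈ s, (max (X i) 0) ^ (2 * q + 1) - (1 / 8) ^ (2 * q + 1) * N)) ≤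
      ∑ i ∈ s, g i ^ P := by
    have := Finset.sum_le_sum fun i (hi : i ∈ s) =>
      unbalance_pt3 (X i) (g i) (2 * q + 1) P (by omega) hP (h1 i hi) (h2 i hi)
    rw [← Finset.mul_sum, ← Finset.mul_sum, Finset.sum_sub_distrib, Finset.sum_const,
      nsmul_eq_mul] at this
    have e : (s.card : ℝ) * (1 / 8) ^ (2 * q + 1) = (1 / 8) ^ (2 * q + 1) * N := by ring
    rw [e] at this
    exact this
  refine le_trans ?_ hc
  refine mul_le_mul_of_nonneg_left ?_ (by positivity)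
  -- reduce to numbers
  have hS : (1 / 16 : ℝ) * ((1 / 4) ^ (2 * q) * N - (1 / 8) ^ (2 * q) * N) ≤
      ∑ i ∈ s, (max (X i) 0) ^ (2 * q + 1) := by linarith
  have e1 : (16 : ℝ) ^ (2 * q + 1) * (1 / 4) ^ (2 * q) = 16 * 4 ^ (2 * q) := by
    rw [pow_succ, mul_comm ((16 : ℝ) ^ (2 * q)) 16, mul_assoc, ← mul_pow]; norm_num
  have e2 : (16 : ℝ) ^ (2 * q + 1) * (1 / 8) ^ (2 * q) = 16 * 2 ^ (2 * q) := by
    rw [pow_succ, mul_comm ((16 : ℝ) ^ (2 * q)) 16, mul_assoc, ← mul_pow]; norm_num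
  have e3 : (16 : ℝ) ^ (2 * q + 1) * (1 / 8) ^ (2 * q + 1) = 2 * 2 ^ (2 * q) := by
    rw [← mul_pow]; norm_num; ring
  have e4 : (4 : ℝ) ^ (2 * q) = 2 ^ (2 * q) * 2 ^ (2 * q) := by
    rw [← mul_pow]; norm_num
  have h16 : (16 : ℝ) ≤ 2 ^ (2 * q) := by
    calc (16 : ℝ) = 2 ^ 4 := by norm_num
      _ ≤ 2 ^ (2 * q) := pow_le_pow_right₀ (by norm_num) (by omega)
  have hmul := mul_le_mul_of_nonneg_left hS (by positivity : (0 : ℝ) ≤ 16 ^ (2 * q + 1))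
  have : (16 : ℝ) ^ (2 * q + 1) * (1 / 16 * ((1 / 4) ^ (2 * q) * N - (1 / 8) ^ (2 * q) * N)) =
      (2 ^ (2 * q) * 2 ^ (2 * q) - 2 ^ (2 * q)) * N := by
    rw [← e4]
    linear_combination (1 / 16 * N) * e1 - (1 / 16 * N) * e2
  rw [this] at hmul
  have h5 : (16 : ℝ) ^ (2 * q + 1) *
      (∑ i ∈ s, (max (X i) 0) ^ (2 * q + 1) - (1 / 8) ^ (2 * q + 1) * N) =
      16 ^ (2 * q + 1) * ∑ i ∈ s, (max (X i) 0) ^ (2 * q + 1) - 2 * 2 ^ (2 * q) * N := by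
    rw [← e3]; ring
  rw [h5]
  nlinarith [mul_nonneg hN0 (by linarith : (0 : ℝ) ≤ 2 ^ (2 * q) - 16),
    mul_nonneg (mul_nonneg hN0 (by linarith : (0 : ℝ) ≤ 2 ^ (2 * q) - 16))
      (by linarith : (0 : ℝ) ≤ 2 ^ (2 * q) - 16)]

end Vale.Agent.P057.KM
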