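import Vale.Agent.P057.KM.Balance
import Vale.Agent.P057.KM.Positivity
import Vale.Agent.P057.KM.Unbalance
import Vale.Agent.P057.KM.Moment
import Vale.Agent.P057.KM.Sift

namespace Vale.Agent.P057.KM

open Finset

variable {G : Type*} [AddCommGroup G] [Fintype G] [DecidableEq G]

theorem core_sift (A C Bp Bs B2 Dp : Finset G) (L : ℕ) (hL : 1 ≤ L)
    (hinj : Function.Injective (fun x : G => x + x))
    (hA : A.Nonempty) (hC : C.Nonempty) (hB2 : B2.Nonempty) (hABp : A ⊆ Bp)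
    (h1 : ∀ x ∈ Bs, ∀ a ∈ A, a + x ∈ Bp) (h2 : ∀ x ∈ Bs, ∀ a ∈ A, a - x ∈ Bp)
    (h3 : ∀ c ∈ C, ∀ a ∈ A, c + c - a ∈ Bp)
    (h4 : ∀ b ∈ B2, ∀ b' ∈ B2, b - b' ∈ Bs)
    (h5 : ∀ c ∈ C, ∀ b ∈ B2, ∀ b' ∈ B2, c + c + b' - b ∈ Dp)
    (hno : ∀ a ∈ A, ∀ b ∈ A, ∀ c ∈ C, a + b = c + c → a = b)
    (hbig : 2 * (Bp.card : ℝ) ≤ (A.card : ℝ) ^ 2)
    (hDp : (Dp.card : ℝ) ≤ 4 ^ (L + 1) * C.card)
    (hK : (Bp.card : ℝ) ≤ 3 ^ (400 * L) * A.card)
    (g : G → ℝ) (hg : ∀ x, g x = (Bp.card : ℝ) * (cc A x) / (A.card : ℝ) ^ 2) :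
    ∃ (θ : ℝ) (A' : Finset G), 33 / 32 ≤ θ ∧ A' ⊆ B2 ∧ A'.Nonempty ∧
      (1 / 4) * ((A.card : ℝ) / Bp.card) ^ (800 * L) * B2.card ≤ A'.card ∧
      (((A' ×ˢ A').filter (fun p => g (p.1 - p.2) < θ)).card : ℝ) ≤
        (1 / 200) * (A'.card : ℝ) ^ 2 ∧
      ∑ p ∈ A' ×ˢ A', g (p.1 - p.2) ≤ 9600 * θ * (A'.card : ℝ) ^ 2 := by
  have hAc : (0 : ℝ) < A.card := by exact_mod_cast hA.card_pos
  have hBpc : (0 : ℝ) < Bp.card := by exact_mod_cast (hA.mono hABp).card_pos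
  have hCc : (0 : ℝ) < C.card := by exact_mod_cast hC.card_pos
  have hB2c : (0 : ℝ) < B2.card := by exact_mod_cast hB2.card_pos
  have hg0 : ∀ x, 0 ≤ g x := by
    intro x
    rw [hg]
    exact div_nonneg (mul_nonneg hBpc.le (Nat.cast_nonneg _)) (pow_nonneg hAc.le _)
  set s := B2 ×ˢ B2 with hs
  have hscard : (s.card : ℝ) = (B2.card : ℝ) ^ 2 := by
    rw [hs, Finset.card_product]; push_cast; ring
  set X : G × G → ℝ := fun p => (Bp.card : ℝ) * corr (bal A Bp) (p.1 - p.2) with hX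
  set g' : G × G → ℝ := fun p => g (p.1 - p.2) with hg'
  have hXg : ∀ p ∈ s, X p + 1 ≤ g' p := by
    intro p hp
    rw [hs, Finset.mem_product] at hp
    have := corr_bal_le A Bp Bs hA hABp h1 h2 (p.1 - p.2) (h4 p.1 hp.1 p.2 hp.2)
    rw [← hg] at this
    exact this
  have hXsum : ∀ n : ℕ, ∑ p ∈ s, X p ^ n = (Bp.card : ℝ) ^ n *
      ∑ b ∈ B2, ∑ b' ∈ B2, (corr (bal A Bp) (b - b')) ^ n := by
    intro n
    rw [hs, Finset.sum_product, Finset.mul_sum]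
    refine Finset.sum_congr rfl fun b _ => ?_
    rw [Finset.mul_sum]
    refine Finset.sum_congr rfl fun b' _ => ?_
    simp only [hX]
    rw [mul_pow]
  have hodd : 0 ≤ ∑ p ∈ s, X p ^ (2 * (L + 1) + 1) := by
    rw [hXsum]
    exact mul_nonneg (pow_nonneg hBpc.le _) (corr_pow_sum_nonneg _ _ _)
  have heven : (1 / 4 : ℝ) ^ (2 * (L + 1)) * s.card ≤ ∑ p ∈ s, X p ^ (2 * (L + 1)) := by
    have hcc := conv_pow_le_corr_pow (bal A Bp) B2 (C.image (fun c => c + c)) Dp (2 * (L + 1))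
      (even_two_mul _) (by
        intro c hc b hb b' hb'
        rw [Finset.mem_image] at hc
        obtain ⟨c₀, hc₀, rfl⟩ := hc
        exact h5 c₀ hc₀ b hb b' hb')
    rw [Finset.sum_image (fun x _ y _ hxy => hinj hxy)] at hcc
    have h6 : (C.card : ℝ) * (1 / 2) ^ (2 * (L + 1)) ≤
        (Bp.card : ℝ) ^ (2 * (L + 1)) * ∑ c ∈ C, (conv (bal A Bp) (c + c)) ^ (2 * (L + 1)) := by
      rw [Finset.mul_sum, ← nsmul_eq_mul, ← Finset.sum_const]
      refine Finset.sum_le_sum fun c hc => ?_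
      rw [← mul_pow]
      have h7 := conv_bal_le A C Bp hA hABp hinj h3 hno hbig c hc
      have h8 : ((1 : ℝ) / 2) ^ (2 * (L + 1)) ≤
          (-((Bp.card : ℝ) * conv (bal A Bp) (c + c))) ^ (2 * (L + 1)) :=
        pow_le_pow_left₀ (by norm_num) (by linarith) _
      rwa [Even.neg_pow (even_two_mul _)] at h8
    have h9 : (B2.card : ℝ) ^ 2 * (C.card * (1 / 2) ^ (2 * (L + 1))) ≤
        Dp.card * ∑ p ∈ s, X p ^ (2 * (L + 1)) := by
      rw [hXsum]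
      calc (B2.card : ℝ) ^ 2 * (C.card * (1 / 2) ^ (2 * (L + 1)))
          ≤ (B2.card : ℝ) ^ 2 * ((Bp.card : ℝ) ^ (2 * (L + 1)) *
            ∑ c ∈ C, (conv (bal A Bp) (c + c)) ^ (2 * (L + 1))) :=
            mul_le_mul_of_nonneg_left h6 (by positivity)
        _ = (Bp.card : ℝ) ^ (2 * (L + 1)) * ((B2.card : ℝ) ^ 2 *
            ∑ c ∈ C, (conv (bal A Bp) (c + c)) ^ (2 * (L + 1))) := by ring
        _ ≤ (Bp.card : ℝ) ^ (2 * (L + 1)) * (Dp.card *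
            ∑ b ∈ B2, ∑ b' ∈ B2, (corr (bal A Bp) (b - b')) ^ (2 * (L + 1))) :=
            mul_le_mul_of_nonneg_left hcc (pow_nonneg hBpc.le _)
        _ = _ := by ring
    have hXnn : 0 ≤ ∑ p ∈ s, X p ^ (2 * (L + 1)) :=
      Finset.sum_nonneg fun p _ => (even_two_mul (L + 1)).pow_nonneg _
    have h10 : (B2.card : ℝ) ^ 2 * (C.card * (1 / 2) ^ (2 * (L + 1))) ≤
        (4 ^ (L + 1) * C.card) * ∑ p ∈ s, X p ^ (2 * (L + 1)) :=
      h9.trans (mul_le_mul_of_nonneg_right hDp hXnn)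
    have e4 : (4 : ℝ) ^ (L + 1) * (1 / 4) ^ (2 * (L + 1)) = (1 / 2) ^ (2 * (L + 1)) := by
      rw [pow_mul, pow_mul, ← mul_pow]; norm_num
    rw [hscard]
    have h11 : (4 ^ (L + 1) * (C.card : ℝ)) * ((1 / 4) ^ (2 * (L + 1)) * (B2.card : ℝ) ^ 2) ≤
        (4 ^ (L + 1) * C.card) * ∑ p ∈ s, X p ^ (2 * (L + 1)) := by
      refine le_trans (le_of_eq ?_) h10
      rw [← e4]; ring
    exact le_of_mul_le_mul_left h11 (by positivity)
  have hall : ∀ P, 400 * L ≤ P → (17 / 16 : ℝ) ^ P * s.card ≤ ∑ p ∈ s, g' p ^ P := by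
    intro P hP
    exact unbalance s X g' (L + 1) P (by omega) (by omega) hXg (fun p _ => hg0 _) hodd heven
  have hsne : s.Nonempty := hB2.product hB2
  have hgK : ∀ p ∈ s, g' p ≤ (Bp.card : ℝ) / A.card := by
    intro p _
    simp only [hg']
    rw [hg, div_le_div_iff₀ (by positivity) hAc]
    have h12 : (cc A (p.1 - p.2) : ℝ) ≤ A.card := by
      have : cc A (p.1 - p.2) ≤ A.card := Finset.card_filter_le _ _
      exact_mod_cast this
    have h13 : (Bp.card : ℝ) * (cc A (p.1 - p.2)) * A.card ≤ Bp.card * A.card * A.card := by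
      refine mul_le_mul_of_nonneg_right ?_ hAc.le
      exact mul_le_mul_of_nonneg_left h12 hBpc.le
    calc (Bp.card : ℝ) * (cc A (p.1 - p.2)) * A.card ≤ Bp.card * A.card * A.card := h13
      _ = Bp.card * (A.card : ℝ) ^ 2 := by ring
  have hKP : (Bp.card : ℝ) / A.card ≤ 3 ^ (400 * L) := by
    rw [div_le_iff₀ hAc]; exact hK
  have hκP : 1 / (1 / 800 : ℝ) ≤ (34 / 33 : ℝ) ^ (400 * L) := by
    rw [pow_mul]
    have h14 : (800 : ℝ) ≤ (34 / 33) ^ 400 := by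
      have h14' : (30 : ℝ) ≤ (34 / 33) ^ 200 := by norm_num
      calc (800 : ℝ) ≤ 30 ^ 2 := by norm_num
        _ ≤ ((34 / 33) ^ 200) ^ 2 := pow_le_pow_left₀ (by norm_num) h14' 2
        _ = (34 / 33) ^ 400 := by rw [← pow_mul]
    calc 1 / (1 / 800 : ℝ) = 800 := by norm_num
      _ ≤ (34 / 33) ^ 400 := h14
      _ ≤ ((34 / 33) ^ 400) ^ L := le_self_pow₀ (by linarith) (by omega)
  obtain ⟨P, θ, hP1, hP2, hθ, hm1, hm2⟩ := moment_select s g' ((Bp.card : ℝ) / A.card) (1 / 800)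
    (400 * L) hsne (fun p _ => hg0 _) hgK hKP (by norm_num) hκP (by omega) hall
  have h0 : (B2.card : ℝ) ^ 2 ≤ ∑ p ∈ B2 ×ˢ B2, g (p.1 - p.2) ^ P := by
    have := hall P hP1.le
    rw [hscard] at this
    refine le_trans ?_ this
    have h15 : (1 : ℝ) ≤ (17 / 16) ^ P := one_le_pow₀ (by norm_num)
    nlinarith [sq_nonneg (B2.card : ℝ)]
  obtain ⟨A', hA'B, hA'ne, hA'1, hA'2, hA'3⟩ := sift A B2 hA hB2 (Bp.card : ℝ) hBpc P θ (1 / 800)
    (3 / (1 / 800) * θ) (by norm_num) (by positivity) g hg h0 hm1 hm2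
  refine ⟨θ, A', hθ, hA'B, hA'ne, ?_, ?_, ?_⟩
  · refine le_trans ?_ hA'1
    have h16 : (A.card : ℝ) / Bp.card ≤ 1 := by
      rw [div_le_one hBpc]
      exact_mod_cast Finset.card_le_card hABp
    have h17 : ((A.card : ℝ) / Bp.card) ^ (800 * L) ≤ ((A.card : ℝ) / Bp.card) ^ P :=
      pow_le_pow_of_le_one (by positivity) h16 (by omega)
    refine mul_le_mul_of_nonneg_right ?_ hB2c.le
    exact mul_le_mul_of_nonneg_left h17 (by norm_num)
  · refine hA'2.trans (le_of_eq ?_)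
    ring
  · refine hA'3.trans (le_of_eq ?_)
    ring

end Vale.Agent.P057.KM
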