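import Mathlib

namespace Vale.Agent.P057.KM

open Finset

/-- number of `y ∈ A` with `y + x ∈ A` -/
def cc {G : Type*} [AddCommGroup G] [DecidableEq G] (A : Finset G) (x : G) : ℕ :=
  (A.filter (fun y => y + x ∈ A)).card

/-- `|A ∩ (x + B)|` -/
def hit {G : Type*} [AddCommGroup G] [DecidableEq G] (A B : Finset G) (x : G) : ℕ :=
  (A.filter (fun a => a - x ∈ B)).card

def conv {G : Type*} [AddCommGroup G] [Fintype G] (f : G → ℝ) (x : G) : ℝ :=
  ∑ y, f y * f (x - y)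

def corr {G : Type*} [AddCommGroup G] [Fintype G] (f : G → ℝ) (x : G) : ℝ :=
  ∑ y, f y * f (y + x)

/-- `F_S(x) = #{a ∈ A : x - a ∈ S} / |A|` -/
noncomputable def FS {G : Type*} [AddCommGroup G] [DecidableEq G] (A S : Finset G) (x : G) : ℝ :=
  ((A.filter (fun a => x - a ∈ S)).card : ℝ) / A.card

/-- balanced function `1_A/|A| - 1_B/|B|` -/
noncomputable def bal {G : Type*} [DecidableEq G] (A B : Finset G) (x : G) : ℝ :=
  (if x ∈ A then (1 : ℝ) / A.card else 0) - (if x ∈ B then (1 : ℝ) / B.card else 0)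

noncomputable def nrm {M : ℕ} (x : ZMod M) : ℝ := |(x.valMinAbs : ℝ)| / M

open Classical in
noncomputable def Bohr {M : ℕ} [NeZero M] (Γ : Finset (ZMod M)) (ρ : ℝ) : Finset (ZMod M) :=
  Finset.univ.filter (fun x => ∀ γ ∈ Γ, nrm (γ * x) ≤ ρ)

/-- (conjugate) Fourier coefficient of the indicator of `T` -/
noncomputable def ft {M : ℕ} [NeZero M] (T : Finset (ZMod M)) (γ : ZMod M) : ℂ :=
  ∑ x ∈ T, (ZMod.stdAddChar (γ * x) : ℂ)

/-- the frequency set `Γ/2` -/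
def half {M : ℕ} (Γ : Finset (ZMod M)) : Finset (ZMod M) := Γ.image (fun γ => 2⁻¹ * γ)

/-- regularity of a Bohr set at one scale -/
def Reg {M : ℕ} [NeZero M] (Γ : Finset (ZMod M)) (D : ℕ) (ρ : ℝ) : Prop :=
  ((Bohr Γ (ρ + ρ / (1600000000 * D))).card : ℝ) ≤ (1 + 1 / 100000000) * (Bohr Γ ρ).card

end Vale.Agent.P057.KM
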