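import Vale.Agent.P057.KM.Iterate
import Vale.Agent.P057.Defs

namespace Vale.Agent.P057.KM

open Finset Filter

private lemma fi_attained (N : ℕ) :
    ∃ A : Finset ℕ, A ⊆ Finset.Icc 1 N ∧ ¬ HasAP 3 A ∧ A.card = r 3 N := by
  have h : sSup {m : ℕ | ∃ A : Finset ℕ, A ⊆ Finset.Icc 1 N ∧ ¬ HasAP 3 A ∧ A.card = m} ∈
      {m : ℕ | ∃ A : Finset ℕ, A ⊆ Finset.Icc 1 N ∧ ¬ HasAP 3 A ∧ A.card = m} := by
    apply Nat.sSup_mem
    · refine ⟨0, ∅, by simp, ?_, by simp⟩
      rintro ⟨a, d, _, h⟩
      have := h 0 (by norm_num)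
      simp at this
    · refine ⟨N, ?_⟩
      rintro m ⟨A, hA, _, rfl⟩
      have := Finset.card_le_card hA
      simpa using this
  exact h

private lemma fi_cast_inj {N x y : ℕ} (hx : x ≤ 2 * N) (hy : y ≤ 2 * N)
    (h : (x : ZMod (2 * N + 1)) = (y : ZMod (2 * N + 1))) : x = y := by
  have h1 := (ZMod.natCast_eq_natCast_iff' x y (2 * N + 1)).1 h
  rwa [Nat.mod_eq_of_lt (by omega), Nat.mod_eq_of_lt (by omega)] at h1

/-- transfer to integer intervals -/
theorem r_three_transfer : ∃ C : ℝ, 0 < C ∧ ∀ (N : ℕ), 1 ≤ N → ∀ L : ℕ, 1 ≤ L →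
    3 * Real.exp (-(L : ℝ)) * N ≤ (r 3 N : ℝ) →
      Real.log N ≤ C * (L : ℝ) ^ 6 * (1 + Real.log L) := by
  obtain ⟨C, hC, hb⟩ := density_bound
  refine ⟨C, hC, ?_⟩
  intro N hN L hL hr
  obtain ⟨A, hA, hAP, hcard⟩ := fi_attained N
  have hmem : ∀ x ∈ A, 1 ≤ x ∧ x ≤ N := fun x hx => Finset.mem_Icc.1 (hA hx)
  have hNr : (1 : ℝ) ≤ N := by exact_mod_cast hN
  have hodd : Odd (2 * N + 1) := ⟨N, by ring⟩
  have hne : NeZero (2 * N + 1) := ⟨by omega⟩
  have hinj : Set.InjOn (fun x : ℕ => (x : ZMod (2 * N + 1))) (A : Set ℕ) := by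
    intro x hx y hy h
    have h1 := hmem x hx
    have h2 := hmem y hy
    exact fi_cast_inj (by omega) (by omega) h
  have hno : ∀ a ∈ A.image (fun x : ℕ => (x : ZMod (2 * N + 1))),
      ∀ b ∈ A.image (fun x : ℕ => (x : ZMod (2 * N + 1))),
      ∀ c ∈ A.image (fun x : ℕ => (x : ZMod (2 * N + 1))), a + b = c + c → a = b := by
    intro a ha b hb c hc habc
    obtain ⟨x, hx, rfl⟩ := Finset.mem_image.1 ha
    obtain ⟨y, hy, rfl⟩ := Finset.mem_image.1 hb
    obtain ⟨z, hz, rfl⟩ := Finset.mem_image.1 hc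
    have h1 := hmem x hx
    have h2 := hmem y hy
    have h3 := hmem z hz
    have h4 : x + y = z + z := by
      apply fi_cast_inj (N := N) (by omega) (by omega)
      push_cast
      exact habc
    have h5 : x = y := by
      rcases lt_trichotomy x y with h | h | h
      · exfalso
        apply hAP
        refine ⟨x, z - x, by omega, ?_⟩
        intro i hi
        interval_cases i
        · simpa using hx
        · have : x + 1 * (z - x) = z := by omega
          rw [this]
          exact hz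
        · have : x + 2 * (z - x) = y := by omega
          rw [this]
          exact hy
      · exact h
      · exfalso
        apply hAP
        refine ⟨y, z - y, by omega, ?_⟩
        intro i hi
        interval_cases i
        · simpa using hy
        · have : y + 1 * (z - y) = z := by omega
          rw [this]
          exact hz
        · have : y + 2 * (z - y) = x := by omega
          rw [this]
          exact hx
    rw [h5]
  have hcard' : (A.image (fun x : ℕ => (x : ZMod (2 * N + 1)))).card = r 3 N := by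
    rw [Finset.card_image_of_injOn hinj, hcard]
  have hexp := Real.exp_pos (-(L : ℝ))
  have hdens : Real.exp (-(L : ℝ)) * ((2 * N + 1 : ℕ) : ℝ) ≤
      ((A.image (fun x : ℕ => (x : ZMod (2 * N + 1)))).card : ℝ) := by
    rw [hcard']
    refine le_trans ?_ hr
    push_cast
    nlinarith
  have h := hb (2 * N + 1) hne hodd _ hno L hL hdens
  refine le_trans ?_ h
  apply Real.log_le_log (by linarith)
  push_cast
  linarith

theorem r_three_bound : ∃ c : ℝ, 0 < c ∧ ∀ᶠ N : ℕ in atTop,
    (r 3 N : ℝ) ≤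
      N * Real.exp (-c * (Real.log N / Real.log (Real.log N)) ^ (1 / 6 : ℝ)) := by
  obtain ⟨C, hC, hb⟩ := r_three_transfer
  set c : ℝ := 1 / (4 * (C + 1)) with hc
  have hc0 : 0 < c := by positivity
  have hc4 : c ≤ 1 / 4 := by
    rw [hc]
    apply one_div_le_one_div_of_le (by norm_num)
    linarith
  have hCc : C * c ≤ 1 / 4 := by
    rw [hc, mul_one_div, div_le_iff₀ (by positivity)]
    linarith
  refine ⟨c, hc0, ?_⟩
  have hlog : Tendsto (fun N : ℕ => Real.log (N : ℝ)) atTop atTop :=
    Real.tendsto_log_atTop.comp tendsto_natCast_atTop_atTop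
  have hloglog : Tendsto (fun N : ℕ => Real.log (Real.log (N : ℝ))) atTop atTop :=
    Real.tendsto_log_atTop.comp hlog
  have hquot : Tendsto (fun x : ℝ => x / Real.log x) atTop atTop := by
    have h1 := (Real.isLittleO_log_id_atTop).tendsto_div_nhds_zero
    have h2 : Tendsto (fun x : ℝ => Real.log x / x) atTop (nhdsWithin 0 (Set.Ioi 0)) := by
      rw [tendsto_nhdsWithin_iff]
      refine ⟨h1, ?_⟩
      filter_upwards [eventually_gt_atTop (1 : ℝ)] with x hx
      exact div_pos (Real.log_pos hx) (by linarith)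
    have h3 := h2.inv_tendsto_nhdsGT_zero
    refine h3.congr (fun x => ?_)
    simp
  have ht : Tendsto (fun N : ℕ => (Real.log (N : ℝ) / Real.log (Real.log (N : ℝ))) ^ (1 / 6 : ℝ))
      atTop atTop :=
    (tendsto_rpow_atTop (by norm_num)).comp (hquot.comp hlog)
  filter_upwards [eventually_ge_atTop 1, hlog.eventually_ge_atTop 1,
    hloglog.eventually_ge_atTop 2, ht.eventually_ge_atTop (3 / c)] with N hN hx hxx htt
  by_contra hcon
  push Not at hcon
  set x := Real.log (N : ℝ) with hxdef
  set t := (x / Real.log x) ^ (1 / 6 : ℝ) with htdef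
  have hx0 : 0 < x := by linarith
  have hlx0 : 0 < Real.log x := by linarith
  have hq0 : 0 ≤ x / Real.log x := by positivity
  have ht0 : 0 ≤ t := Real.rpow_nonneg hq0 _
  have hct3 : 3 ≤ c * t := by
    rw [div_le_iff₀ hc0] at htt
    linarith
  have htpos : 0 < t := by
    by_contra h
    push Not at h
    nlinarith
  have ht6 : t ^ 6 = x / Real.log x := by
    rw [htdef, ← Real.rpow_natCast, ← Real.rpow_mul hq0]
    norm_num
  set L := ⌈c * t⌉₊ + 2 with hL
  have hL1 : 1 ≤ L := by omega
  have hLge : c * t + 2 ≤ L := by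
    rw [hL]
    push_cast
    have := Nat.le_ceil (c * t)
    linarith
  have hLle : (L : ℝ) ≤ 2 * (c * t) := by
    rw [hL]
    push_cast
    have := Nat.ceil_lt_add_one (show 0 ≤ c * t by positivity)
    linarith
  have hNr : (1 : ℝ) ≤ N := by exact_mod_cast hN
  have h1 : 3 * Real.exp (-(L : ℝ)) * N ≤ (r 3 N : ℝ) := by
    refine le_trans ?_ hcon.le
    have h2 : 3 * Real.exp (-(L : ℝ)) ≤ Real.exp (-c * t) := by
      have h3 : Real.exp (-(L : ℝ)) ≤ Real.exp (-c * t) * Real.exp (-2) := by
        rw [← Real.exp_add]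
        apply Real.exp_le_exp.2
        linarith
      have h4 : 3 * Real.exp (-2) ≤ 1 := by
        have h5 : (3 : ℝ) ≤ Real.exp 2 := by
          have := Real.add_one_le_exp (2 : ℝ)
          linarith
        have h6 : Real.exp 2 * Real.exp (-2) = 1 := by
          rw [← Real.exp_add]
          simp
        have h7 := Real.exp_pos (-2)
        nlinarith
      have h8 := Real.exp_pos (-c * t)
      nlinarith
    nlinarith
  have h2 := hb N hN L hL1 h1
  have hLr1 : (1 : ℝ) ≤ L := by exact_mod_cast hL1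
  have hL0 : (0 : ℝ) < L := by linarith
  -- bound on `L ^ 6`
  have h3 : (L : ℝ) ^ 6 ≤ 64 * c ^ 6 * (x / Real.log x) := by
    calc (L : ℝ) ^ 6 ≤ (2 * (c * t)) ^ 6 := pow_le_pow_left₀ hL0.le hLle 6
      _ = 64 * c ^ 6 * t ^ 6 := by ring
      _ = _ := by rw [ht6]
  -- bound on `log L`
  have h4 : Real.log L ≤ Real.log x - 1 := by
    have h5 : Real.log L ≤ Real.log t := by
      apply Real.log_le_log hL0
      nlinarith
    have h6 : Real.log t ≤ (1 / 6) * Real.log x := by
      have h7 : Real.log (t ^ 6) ≤ Real.log x := by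
        rw [ht6]
        apply Real.log_le_log (by positivity)
        rw [div_le_iff₀ hlx0]
        nlinarith
      rw [Real.log_pow] at h7
      push_cast at h7
      linarith
    linarith
  have h5 : C * (L : ℝ) ^ 6 * (1 + Real.log L) ≤
      C * (64 * c ^ 6 * (x / Real.log x)) * Real.log x := by
    have h6 : 0 ≤ 1 + Real.log L := by
      have := Real.log_nonneg hLr1
      linarith
    calc C * (L : ℝ) ^ 6 * (1 + Real.log L)
        ≤ C * (64 * c ^ 6 * (x / Real.log x)) * (1 + Real.log L) := by gcongr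
      _ ≤ C * (64 * c ^ 6 * (x / Real.log x)) * Real.log x := by
          gcongr
          linarith
  have h6 : C * (64 * c ^ 6 * (x / Real.log x)) * Real.log x = 64 * (C * c) * c ^ 5 * x := by
    field_simp
  have h7 : 64 * (C * c) * c ^ 5 ≤ 1 / 2 := by
    have h8 : c ^ 5 ≤ (1 / 4) ^ 5 := pow_le_pow_left₀ hc0.le hc4 5
    have h9 : 0 ≤ c ^ 5 := by positivity
    have h10 : 0 ≤ C * c := by positivity
    calc 64 * (C * c) * c ^ 5 ≤ 64 * (1 / 4) * (1 / 4) ^ 5 := by gcongr
      _ ≤ 1 / 2 := by norm_num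
  have h8 : 64 * (C * c) * c ^ 5 * x ≤ 1 / 2 * x := by gcongr
  rw [h6] at h5
  linarith

end Vale.Agent.P057.KM
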