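import Vale.Agent.P057.KM.Defs

namespace Vale.Agent.P057.KM

open Finset ComplexConjugate

variable {M : ℕ} [NeZero M]

private lemma ff_orth (a : ZMod M) :
    ∑ γ : ZMod M, (ZMod.stdAddChar (γ * a) : ℂ) = if a = 0 then (M : ℂ) else 0 := by
  rw [AddChar.sum_mulShift a (ZMod.isPrimitive_stdAddChar M)]
  simp [ZMod.card]

private lemma ff_conj (a : ZMod M) :
    conj (ZMod.stdAddChar a : ℂ) = (ZMod.stdAddChar (-a) : ℂ) :=
  (AddChar.map_neg_eq_conj (K := ℂ) ZMod.stdAddChar a).symm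

private lemma ff_conj_ft (A : Finset (ZMod M)) (γ : ZMod M) :
    conj (ft A γ) = ∑ x ∈ A, (ZMod.stdAddChar (-(γ * x)) : ℂ) := by
  unfold ft
  rw [map_sum]
  exact Finset.sum_congr rfl fun x _ => ff_conj _

private lemma ff_norm_sq (A : Finset (ZMod M)) (γ : ZMod M) :
    ((‖ft A γ‖ ^ 2 : ℝ) : ℂ) = ft A γ * conj (ft A γ) := by
  rw [Complex.mul_conj']
  push_cast
  rfl

private lemma ff_norm_sq' (A : Finset (ZMod M)) (γ : ZMod M) :
    ((‖ft A γ‖ ^ 2 : ℝ) : ℂ) = ∑ x ∈ A, ∑ y ∈ A, (ZMod.stdAddChar (γ * (x - y)) : ℂ) := by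
  rw [ff_norm_sq, ff_conj_ft]
  unfold ft
  rw [Finset.sum_mul_sum]
  refine Finset.sum_congr rfl fun x _ => Finset.sum_congr rfl fun y _ => ?_
  rw [← AddChar.map_add_eq_mul]
  congr 1
  ring

/-- `c_A(w) = (1/M) Σ_γ |ft A γ|² e(γ w)` -/
theorem cc_fourier (A : Finset (ZMod M)) (w : ZMod M) :
    (M : ℂ) * (cc A w : ℂ) = ∑ γ : ZMod M, ((‖ft A γ‖ ^ 2 : ℝ) : ℂ) *
      (ZMod.stdAddChar (γ * w) : ℂ) := by
  have h1 : ∀ γ : ZMod M, ((‖ft A γ‖ ^ 2 : ℝ) : ℂ) * (ZMod.stdAddChar (γ * w) : ℂ) =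
      ∑ x ∈ A, ∑ y ∈ A, (ZMod.stdAddChar (γ * (x - y + w)) : ℂ) := by
    intro γ
    rw [ff_norm_sq', Finset.sum_mul]
    refine Finset.sum_congr rfl fun x _ => ?_
    rw [Finset.sum_mul]
    refine Finset.sum_congr rfl fun y _ => ?_
    rw [← AddChar.map_add_eq_mul]
    congr 1
    ring
  rw [Finset.sum_congr rfl fun γ _ => h1 γ, Finset.sum_comm]
  have h2 : ∀ x ∈ A, ∑ γ : ZMod M, ∑ y ∈ A, (ZMod.stdAddChar (γ * (x - y + w)) : ℂ) =
      if x + w ∈ A then (M : ℂ) else 0 := by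
    intro x _
    rw [Finset.sum_comm]
    have h3 : ∀ y ∈ A, ∑ γ : ZMod M, (ZMod.stdAddChar (γ * (x - y + w)) : ℂ) =
        if x + w = y then (M : ℂ) else 0 := by
      intro y _
      rw [ff_orth]
      have : x - y + w = 0 ↔ x + w = y := by
        constructor
        · intro h
          linear_combination h
        · intro h
          linear_combination h
      simp only [this]
    rw [Finset.sum_congr rfl h3, Finset.sum_ite_eq]
  rw [Finset.sum_congr rfl h2, ← Finset.sum_filter, Finset.sum_const, nsmul_eq_mul, mul_comm]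
  rfl

/-- index set of the four-fold sums -/
private def ffI (A' T : Finset (ZMod M)) (k : ℕ) :
    Finset ((ZMod M × ZMod M) × ((Fin k → ZMod M) × (Fin k → ZMod M))) :=
  (A' ×ˢ A') ×ˢ ((Fintype.piFinset fun _ : Fin k => T) ×ˢ (Fintype.piFinset fun _ : Fin k => T))

private def ffu {k : ℕ} (i : (ZMod M × ZMod M) × ((Fin k → ZMod M) × (Fin k → ZMod M))) :
    ZMod M := i.1.1 + ∑ j, i.2.1 j - ∑ j, i.2.2 j - i.1.2

omit [NeZero M] in
private lemma ff_card (A' T : Finset (ZMod M)) (k : ℕ) :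
    ((ffI A' T k).card : ℝ) = (A'.card : ℝ) ^ 2 * (T.card : ℝ) ^ (2 * k) := by
  unfold ffI
  rw [Finset.card_product, Finset.card_product, Finset.card_product, Fintype.card_piFinset]
  simp only [Finset.prod_const, Finset.card_univ, Fintype.card_fin]
  push_cast
  ring

private lemma ff_char_sum {ι : Type*} (s : Finset ι) (f : ι → ZMod M) :
    (ZMod.stdAddChar (∑ j ∈ s, f j) : ℂ) = ∏ j ∈ s, (ZMod.stdAddChar (f j) : ℂ) := by
  classical
  induction s using Finset.induction_on with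
  | empty => simp
  | insert a s ha ih => rw [Finset.sum_insert ha, Finset.prod_insert ha,
      AddChar.map_add_eq_mul, ih]

private lemma ff_pow (T : Finset (ZMod M)) (k : ℕ) (γ : ZMod M) :
    ∑ t ∈ Fintype.piFinset (fun _ : Fin k => T), (ZMod.stdAddChar (γ * ∑ j, t j) : ℂ) =
      ft T γ ^ k := by
  have h1 : ∏ _j : Fin k, ft T γ = ft T γ ^ k := by
    rw [Finset.prod_const, Finset.card_univ, Fintype.card_fin]
  rw [← h1]
  unfold ft
  rw [Finset.prod_univ_sum]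
  refine Finset.sum_congr rfl fun t _ => ?_
  rw [Finset.mul_sum]
  exact ff_char_sum _ _

private lemma ff_pow' (T : Finset (ZMod M)) (k : ℕ) (γ : ZMod M) :
    ∑ t ∈ Fintype.piFinset (fun _ : Fin k => T), (ZMod.stdAddChar (-(γ * ∑ j, t j)) : ℂ) =
      conj (ft T γ) ^ k := by
  rw [← map_pow, ← ff_pow, map_sum]
  exact Finset.sum_congr rfl fun t _ => (ff_conj _).symm

private lemma ff_sum_u (A' T : Finset (ZMod M)) (k : ℕ) (γ : ZMod M) :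
    ∑ i ∈ ffI A' T k, (ZMod.stdAddChar (γ * ffu i) : ℂ) =
      ((‖ft A' γ‖ ^ 2 * ‖ft T γ‖ ^ (2 * k) : ℝ) : ℂ) := by
  have h0 : ∀ i ∈ ffI A' T k, (ZMod.stdAddChar (γ * ffu i) : ℂ) =
      ((ZMod.stdAddChar (γ * i.1.1) : ℂ) * (ZMod.stdAddChar (-(γ * i.1.2)) : ℂ)) *
      ((ZMod.stdAddChar (γ * ∑ j, i.2.1 j) : ℂ) *
        (ZMod.stdAddChar (-(γ * ∑ j, i.2.2 j)) : ℂ)) := by
    intro i _
    rw [← AddChar.map_add_eq_mul, ← AddChar.map_add_eq_mul, ← AddChar.map_add_eq_mul]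
    congr 1
    unfold ffu
    ring
  rw [Finset.sum_congr rfl h0]
  unfold ffI
  rw [Finset.sum_product]
  have h1 : ∀ p : ZMod M × ZMod M, ∑ q ∈ (Fintype.piFinset fun _ : Fin k => T) ×ˢ
      (Fintype.piFinset fun _ : Fin k => T),
      ((ZMod.stdAddChar (γ * p.1) : ℂ) * (ZMod.stdAddChar (-(γ * p.2)) : ℂ)) *
      ((ZMod.stdAddChar (γ * ∑ j, q.1 j) : ℂ) *
        (ZMod.stdAddChar (-(γ * ∑ j, q.2 j)) : ℂ)) =
      ((ZMod.stdAddChar (γ * p.1) : ℂ) * (ZMod.stdAddChar (-(γ * p.2)) : ℂ)) *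
        (ft T γ ^ k * conj (ft T γ) ^ k) := by
    intro p
    rw [← Finset.mul_sum, Finset.sum_product]
    congr 1
    rw [← ff_pow, ← ff_pow', Finset.sum_mul_sum]
  rw [Finset.sum_congr rfl fun p _ => h1 p, ← Finset.sum_mul, Finset.sum_product]
  have h2 : ∑ x ∈ A', ∑ y ∈ A', (ZMod.stdAddChar (γ * x) : ℂ) *
      (ZMod.stdAddChar (-(γ * y)) : ℂ) = ft A' γ * conj (ft A' γ) := by
    rw [ff_conj_ft]
    unfold ft
    rw [Finset.sum_mul_sum]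
  rw [h2, ← mul_pow, ← ff_norm_sq, ← ff_norm_sq]
  push_cast
  rw [pow_mul]

private lemma ff_sum_cc (A A' T : Finset (ZMod M)) (k : ℕ) (x : ZMod M) :
    (M : ℂ) * ((∑ i ∈ ffI A' T k, (cc A (ffu i + x) : ℝ) : ℝ) : ℂ) =
      ∑ γ : ZMod M, ((‖ft A γ‖ ^ 2 * (‖ft A' γ‖ ^ 2 * ‖ft T γ‖ ^ (2 * k)) : ℝ) : ℂ) *
        (ZMod.stdAddChar (γ * x) : ℂ) := by
  have h0 : (M : ℂ) * ((∑ i ∈ ffI A' T k, (cc A (ffu i + x) : ℝ) : ℝ) : ℂ) =
      ∑ i ∈ ffI A' T k, ∑ γ : ZMod M, ((‖ft A γ‖ ^ 2 : ℝ) : ℂ) *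
        (ZMod.stdAddChar (γ * (ffu i + x)) : ℂ) := by
    rw [Complex.ofReal_sum, Finset.mul_sum]
    refine Finset.sum_congr rfl fun i _ => ?_
    rw [← cc_fourier]
    push_cast
    rfl
  rw [h0, Finset.sum_comm]
  refine Finset.sum_congr rfl fun γ _ => ?_
  have h1 : ∀ i ∈ ffI A' T k, ((‖ft A γ‖ ^ 2 : ℝ) : ℂ) *
        (ZMod.stdAddChar (γ * (ffu i + x)) : ℂ) =
      ((‖ft A γ‖ ^ 2 : ℝ) : ℂ) * (ZMod.stdAddChar (γ * x) : ℂ) *
        (ZMod.stdAddChar (γ * ffu i) : ℂ) := by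
    intro i _
    rw [mul_assoc, ← AddChar.map_add_eq_mul]
    congr 2
    ring
  rw [Finset.sum_congr rfl h1, ← Finset.mul_sum, ff_sum_u]
  push_cast
  ring

private lemma ff_sum_cc0 (A A' : Finset (ZMod M)) :
    (M : ℝ) * ∑ p ∈ A' ×ˢ A', (cc A (p.1 - p.2) : ℝ) =
      ∑ γ : ZMod M, ‖ft A γ‖ ^ 2 * ‖ft A' γ‖ ^ 2 := by
  have h : ((M : ℝ) * ∑ p ∈ A' ×ˢ A', (cc A (p.1 - p.2) : ℝ) : ℂ) =
      ((∑ γ : ZMod M, ‖ft A γ‖ ^ 2 * ‖ft A' γ‖ ^ 2 : ℝ) : ℂ) := by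
    push_cast
    rw [Finset.mul_sum]
    have h0 : ∀ p ∈ A' ×ˢ A', (M : ℂ) * (cc A (p.1 - p.2) : ℂ) =
        ∑ γ : ZMod M, ((‖ft A γ‖ ^ 2 : ℝ) : ℂ) *
          (ZMod.stdAddChar (γ * (p.1 - p.2)) : ℂ) := fun p _ => cc_fourier A _
    rw [Finset.sum_congr rfl h0, Finset.sum_comm]
    refine Finset.sum_congr rfl fun γ _ => ?_
    rw [← Finset.mul_sum, Finset.sum_product]
    have := ff_norm_sq' A' γ
    push_cast at this ⊢
    rw [this]
  exact_mod_cast h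

private lemma ff_diff (A A' T B4 : Finset (ZMod M)) (k : ℕ) (ν : ℝ) (hν : 0 ≤ ν)
    (hspec : ∀ γ : ZMod M, (T.card : ℝ) / 2 ≤ ‖ft T γ‖ →
      ∀ x ∈ B4, ‖1 - (ZMod.stdAddChar (γ * x) : ℂ)‖ ≤ ν) :
    |(B4.card : ℝ) * ∑ i ∈ ffI A' T k, (cc A (ffu i) : ℝ) -
      ∑ x ∈ B4, ∑ i ∈ ffI A' T k, (cc A (ffu i + x) : ℝ)| ≤
      (ν + 2 * (1 / 4) ^ k) * (B4.card : ℝ) * (T.card : ℝ) ^ (2 * k) *
        ∑ p ∈ A' ×ˢ A', (cc A (p.1 - p.2) : ℝ) := by
  have hM : (0 : ℝ) < M := by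
    have := NeZero.pos M
    exact_mod_cast this
  set W : ZMod M → ℝ := fun γ => ‖ft A γ‖ ^ 2 * (‖ft A' γ‖ ^ 2 * ‖ft T γ‖ ^ (2 * k)) with hW
  set N : ZMod M → ℝ := fun x => ∑ i ∈ ffI A' T k, (cc A (ffu i + x) : ℝ) with hN
  have hN0 : ∑ i ∈ ffI A' T k, (cc A (ffu i) : ℝ) = N 0 := by
    simp [hN]
  have hNx : ∀ x, (M : ℂ) * ((N x : ℝ) : ℂ) = ∑ γ, ((W γ : ℝ) : ℂ) *
      (ZMod.stdAddChar (γ * x) : ℂ) := fun x => ff_sum_cc A A' T k x
  have hN00 : (M : ℂ) * ((N 0 : ℝ) : ℂ) = ∑ γ, ((W γ : ℝ) : ℂ) := by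
    rw [hNx]
    refine Finset.sum_congr rfl fun γ _ => ?_
    simp
  have hW0 : ∀ γ, 0 ≤ W γ := fun γ => by positivity
  -- the difference as a Fourier sum
  have h1 : (M : ℂ) * (((B4.card : ℝ) * N 0 - ∑ x ∈ B4, N x : ℝ) : ℂ) =
      ∑ γ, ((W γ : ℝ) : ℂ) * ∑ x ∈ B4, (1 - (ZMod.stdAddChar (γ * x) : ℂ)) := by
    have h2 : (((B4.card : ℝ) * N 0 - ∑ x ∈ B4, N x : ℝ) : ℂ) =
        ∑ x ∈ B4, (((N 0 : ℝ) : ℂ) - ((N x : ℝ) : ℂ)) := by
      rw [Finset.sum_sub_distrib, Finset.sum_const, nsmul_eq_mul]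
      push_cast
      ring
    rw [h2, Finset.mul_sum]
    have h3 : ∀ x ∈ B4, (M : ℂ) * (((N 0 : ℝ) : ℂ) - ((N x : ℝ) : ℂ)) =
        ∑ γ, ((W γ : ℝ) : ℂ) * (1 - (ZMod.stdAddChar (γ * x) : ℂ)) := by
      intro x _
      rw [mul_sub, hN00, hNx, ← Finset.sum_sub_distrib]
      refine Finset.sum_congr rfl fun γ _ => ?_
      ring
    rw [Finset.sum_congr rfl h3, Finset.sum_comm]
    refine Finset.sum_congr rfl fun γ _ => ?_
    rw [Finset.mul_sum]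
  have hT0 : (0 : ℝ) ≤ (T.card : ℝ) := Nat.cast_nonneg _
  have hB0 : (0 : ℝ) ≤ (B4.card : ℝ) := Nat.cast_nonneg _
  have hnormT : ∀ γ, ‖ft T γ‖ ≤ T.card := by
    intro γ
    unfold ft
    refine (norm_sum_le _ _).trans ?_
    simp
  have hq0 : (0 : ℝ) ≤ (1 / 4) ^ k := by positivity
  -- pointwise bound
  have h4 : ∀ γ, ‖((W γ : ℝ) : ℂ) * ∑ x ∈ B4, (1 - (ZMod.stdAddChar (γ * x) : ℂ))‖ ≤
      (ν + 2 * (1 / 4) ^ k) * (B4.card : ℝ) * (T.card : ℝ) ^ (2 * k) *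
        (‖ft A γ‖ ^ 2 * ‖ft A' γ‖ ^ 2) := by
    intro γ
    rw [norm_mul, Complex.norm_real, Real.norm_of_nonneg (hW0 γ)]
    have hV0 : 0 ≤ ‖ft A γ‖ ^ 2 * ‖ft A' γ‖ ^ 2 := by positivity
    by_cases hγ : (T.card : ℝ) / 2 ≤ ‖ft T γ‖
    · have h5 : ‖∑ x ∈ B4, (1 - (ZMod.stdAddChar (γ * x) : ℂ))‖ ≤ B4.card * ν := by
        refine (norm_sum_le _ _).trans ?_
        rw [← nsmul_eq_mul]
        exact Finset.sum_le_card_nsmul _ _ _ (hspec γ hγ)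
      have h6 : ‖ft T γ‖ ^ (2 * k) ≤ (T.card : ℝ) ^ (2 * k) :=
        pow_le_pow_left₀ (norm_nonneg _) (hnormT γ) _
      have h7 : W γ ≤ (‖ft A γ‖ ^ 2 * ‖ft A' γ‖ ^ 2) * (T.card : ℝ) ^ (2 * k) := by
        rw [hW]
        simp only
        rw [← mul_assoc]
        exact mul_le_mul_of_nonneg_left h6 hV0
      calc W γ * ‖∑ x ∈ B4, (1 - (ZMod.stdAddChar (γ * x) : ℂ))‖
          ≤ ((‖ft A γ‖ ^ 2 * ‖ft A' γ‖ ^ 2) * (T.card : ℝ) ^ (2 * k)) * (B4.card * ν) :=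
            mul_le_mul h7 h5 (norm_nonneg _) (by positivity)
        _ = ν * ((B4.card : ℝ) * (T.card : ℝ) ^ (2 * k) *
              (‖ft A γ‖ ^ 2 * ‖ft A' γ‖ ^ 2)) := by ring
        _ ≤ (ν + 2 * (1 / 4) ^ k) * ((B4.card : ℝ) * (T.card : ℝ) ^ (2 * k) *
              (‖ft A γ‖ ^ 2 * ‖ft A' γ‖ ^ 2)) := by
            refine mul_le_mul_of_nonneg_right ?_ (by positivity)
            linarith
        _ = _ := by ring
    · have h5 : ‖∑ x ∈ B4, (1 - (ZMod.stdAddChar (γ * x) : ℂ))‖ ≤ B4.card * 2 := by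
        refine (norm_sum_le _ _).trans ?_
        rw [← nsmul_eq_mul]
        refine Finset.sum_le_card_nsmul _ _ _ fun x _ => ?_
        refine (norm_sub_le _ _).trans ?_
        rw [AddChar.norm_apply, norm_one]
        norm_num
      have h6 : ‖ft T γ‖ ^ (2 * k) ≤ (T.card : ℝ) ^ (2 * k) * (1 / 4) ^ k := by
        have h8 : ‖ft T γ‖ ^ (2 * k) ≤ ((T.card : ℝ) / 2) ^ (2 * k) :=
          pow_le_pow_left₀ (norm_nonneg _) (not_le.mp hγ).le _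
        refine h8.trans (le_of_eq ?_)
        rw [div_pow, pow_mul 2 2 k, div_eq_mul_inv, one_div, inv_pow]
        norm_num
      have h7 : W γ ≤ (‖ft A γ‖ ^ 2 * ‖ft A' γ‖ ^ 2) *
          ((T.card : ℝ) ^ (2 * k) * (1 / 4) ^ k) := by
        rw [hW]
        simp only
        rw [← mul_assoc]
        exact mul_le_mul_of_nonneg_left h6 hV0
      calc W γ * ‖∑ x ∈ B4, (1 - (ZMod.stdAddChar (γ * x) : ℂ))‖
          ≤ ((‖ft A γ‖ ^ 2 * ‖ft A' γ‖ ^ 2) *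
            ((T.card : ℝ) ^ (2 * k) * (1 / 4) ^ k)) * (B4.card * 2) :=
            mul_le_mul h7 h5 (norm_nonneg _) (by positivity)
        _ = (2 * (1 / 4) ^ k) * ((B4.card : ℝ) * (T.card : ℝ) ^ (2 * k) *
              (‖ft A γ‖ ^ 2 * ‖ft A' γ‖ ^ 2)) := by ring
        _ ≤ (ν + 2 * (1 / 4) ^ k) * ((B4.card : ℝ) * (T.card : ℝ) ^ (2 * k) *
              (‖ft A γ‖ ^ 2 * ‖ft A' γ‖ ^ 2)) := by
            refine mul_le_mul_of_nonneg_right ?_ (by positivity)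
            linarith
        _ = _ := by ring
  have h9 : (M : ℝ) * |(B4.card : ℝ) * N 0 - ∑ x ∈ B4, N x| ≤
      (M : ℝ) * ((ν + 2 * (1 / 4) ^ k) * (B4.card : ℝ) * (T.card : ℝ) ^ (2 * k) *
        ∑ p ∈ A' ×ˢ A', (cc A (p.1 - p.2) : ℝ)) := by
    have h10 : (M : ℝ) * |(B4.card : ℝ) * N 0 - ∑ x ∈ B4, N x| =
        ‖(M : ℂ) * (((B4.card : ℝ) * N 0 - ∑ x ∈ B4, N x : ℝ) : ℂ)‖ := by
      rw [norm_mul, Complex.norm_real, Real.norm_eq_abs, Complex.norm_natCast]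
    rw [h10, h1]
    refine (norm_sum_le _ _).trans ?_
    refine (Finset.sum_le_sum fun γ _ => h4 γ).trans (le_of_eq ?_)
    rw [← Finset.mul_sum, ← ff_sum_cc0]
    ring
  rw [hN0]
  exact le_of_mul_le_mul_left h9 hM

omit [NeZero M] in
private lemma ff_hit (A B4 : Finset (ZMod M)) (u : ZMod M) :
    ∑ x ∈ B4, (cc A (u + x) : ℝ) = ∑ y ∈ A, (hit A B4 (y + u) : ℝ) := by
  have h1 : ∀ x ∈ B4, (cc A (u + x) : ℝ) = ∑ y ∈ A, if y + (u + x) ∈ A then (1 : ℝ) else 0 := by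
    intro x _
    unfold cc
    rw [Finset.card_filter]
    push_cast
    rfl
  have h2 : ∀ y ∈ A, (hit A B4 (y + u) : ℝ) =
      ∑ x ∈ B4, if y + (u + x) ∈ A then (1 : ℝ) else 0 := by
    intro y _
    unfold hit
    rw [← Finset.sum_filter, Finset.sum_const, nsmul_eq_mul, mul_one]
    congr 1
    refine Finset.card_bij (fun a _ => a - (y + u)) ?_ ?_ ?_
    · intro a ha
      simp only [Finset.mem_filter] at ha ⊢
      refine ⟨ha.2, ?_⟩
      have : y + (u + (a - (y + u))) = a := by abel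
      rw [this]
      exact ha.1
    · intro a _ b _ hab
      exact sub_left_injective hab
    · intro x hx
      simp only [Finset.mem_filter] at hx
      refine ⟨y + (u + x), ?_, ?_⟩
      · simp only [Finset.mem_filter]
        refine ⟨hx.2, ?_⟩
        have : y + (u + x) - (y + u) = x := by abel
        rw [this]
        exact hx.1
      · abel
  rw [Finset.sum_congr rfl h1, Finset.sum_comm, Finset.sum_congr rfl h2]

theorem fourier_finish (A A' T B4 S : Finset (ZMod M)) (k : ℕ) (β θ ε ν R : ℝ)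
    (hA : A.Nonempty) (hA' : A'.Nonempty) (hT : T.Nonempty) (hB4 : B4.Nonempty)
    (hβ : 0 < β) (hθ : 0 < θ) (hε : 0 < ε) (hν : 0 ≤ ν) (hR : 0 ≤ R)
    (g : ZMod M → ℝ) (hg : ∀ x, g x = β * (cc A x) / (A.card : ℝ) ^ 2)
    (hS : ∀ x, x ∈ S ↔ θ ≤ g x)
    (hap : ∀ t t' : Fin k → ZMod M, (∀ i, t i ∈ T) → (∀ i, t' i ∈ T) →
        ∑ a ∈ A', |FS A' S (a + ∑ i, t i - ∑ i, t' i) - FS A' S a| ≤ ε * A'.card)
    (hbad : (((A' ×ˢ A').filter (fun p => g (p.1 - p.2) < θ)).card : ℝ) ≤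
      ε * (A'.card : ℝ) ^ 2)
    (hR' : ∑ p ∈ A' ×ˢ A', g (p.1 - p.2) ≤ R * (A'.card : ℝ) ^ 2)
    (hspec : ∀ γ : ZMod M, (T.card : ℝ) / 2 ≤ ‖ft T γ‖ →
      ∀ x ∈ B4, ‖1 - (ZMod.stdAddChar (γ * x) : ℂ)‖ ≤ ν)
    (hc : (ν + 2 * (1 / 4) ^ k) * R ≤ ε * θ) :
    ∃ z : ZMod M, (1 - 3 * ε) * θ * (A.card : ℝ) / β * B4.card ≤ hit A B4 z := by
  have hAc : (0 : ℝ) < A.card := by exact_mod_cast hA.card_pos
  have hA'c : (0 : ℝ) < A'.card := by exact_mod_cast hA'.card_pos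
  have hTc : (0 : ℝ) < T.card := by exact_mod_cast hT.card_pos
  have hBc : (0 : ℝ) < B4.card := by exact_mod_cast hB4.card_pos
  have hccg : ∀ x, (cc A x : ℝ) = (A.card : ℝ) ^ 2 / β * g x := by
    intro x
    rw [hg]
    field_simp
  have hg0 : ∀ x, 0 ≤ g x := by
    intro x
    rw [hg]
    exact div_nonneg (mul_nonneg hβ.le (Nat.cast_nonneg _)) (sq_nonneg _)
  have hq0 : (0 : ℝ) ≤ (1 / 4) ^ k := pow_nonneg (by norm_num) k
  have hTk : (0 : ℝ) < (T.card : ℝ) ^ (2 * k) := pow_pos hTc _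
  have hA'2 : (0 : ℝ) < (A'.card : ℝ) ^ 2 := pow_pos hA'c _
  -- number of good pairs after a shift
  have hFS : ∀ x, FS A' S x = (∑ a' ∈ A', if x - a' ∈ S then (1 : ℝ) else 0) / A'.card := by
    intro x
    unfold FS
    rw [Finset.card_filter]
    push_cast
    rfl
  have hFS0 : (1 - ε) * (A'.card : ℝ) ≤ ∑ a ∈ A', FS A' S a := by
    have h1 : ∑ a ∈ A', FS A' S a =
        (((A' ×ˢ A').filter (fun p => p.1 - p.2 ∈ S)).card : ℝ) / A'.card := by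
      rw [Finset.card_filter]
      push_cast
      rw [Finset.sum_product, Finset.sum_div]
      exact Finset.sum_congr rfl fun a _ => hFS a
    have h2 : ((A' ×ˢ A').filter (fun p => p.1 - p.2 ∈ S)).card +
        ((A' ×ˢ A').filter (fun p => g (p.1 - p.2) < θ)).card = A'.card * A'.card := by
      have h3 : (A' ×ˢ A').filter (fun p => g (p.1 - p.2) < θ) =
          (A' ×ˢ A').filter (fun p => ¬ (p.1 - p.2 ∈ S)) := by
        refine Finset.filter_congr fun p _ => ?_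
        rw [hS, not_le]
      rw [h3, Finset.card_filter_add_card_filter_not, Finset.card_product]
    have h4 : (((A' ×ˢ A').filter (fun p => p.1 - p.2 ∈ S)).card : ℝ) +
        (((A' ×ˢ A').filter (fun p => g (p.1 - p.2) < θ)).card : ℝ) =
        (A'.card : ℝ) ^ 2 := by
      rw [sq]
      exact_mod_cast h2
    rw [h1, le_div_iff₀ hA'c]
    nlinarith
  have hshift : ∀ t t' : Fin k → ZMod M, (∀ i, t i ∈ T) → (∀ i, t' i ∈ T) →
      (1 - 2 * ε) * θ * (A'.card : ℝ) ^ 2 ≤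
        ∑ p ∈ A' ×ˢ A', g (p.1 + ∑ i, t i - ∑ i, t' i - p.2) := by
    intro t t' ht ht'
    have h1 := hap t t' ht ht'
    have h2 : (1 - 2 * ε) * (A'.card : ℝ) ≤
        ∑ a ∈ A', FS A' S (a + ∑ i, t i - ∑ i, t' i) := by
      have h3 : ∑ a ∈ A', (FS A' S a - FS A' S (a + ∑ i, t i - ∑ i, t' i)) ≤
          ε * A'.card := by
        refine le_trans (Finset.sum_le_sum fun a _ => ?_) h1
        rw [abs_sub_comm]
        exact le_abs_self _
      rw [Finset.sum_sub_distrib] at h3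
      linarith
    have h4 : ∑ a ∈ A', FS A' S (a + ∑ i, t i - ∑ i, t' i) ≤
        (∑ p ∈ A' ×ˢ A', g (p.1 + ∑ i, t i - ∑ i, t' i - p.2)) / (θ * A'.card) := by
      rw [Finset.sum_product, Finset.sum_div]
      refine Finset.sum_le_sum fun a _ => ?_
      rw [hFS, ← div_div]
      refine div_le_div_of_nonneg_right ?_ hA'c.le
      rw [Finset.sum_div]
      refine Finset.sum_le_sum fun a' _ => ?_
      split_ifs with h
      · rw [le_div_iff₀ hθ, one_mul]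
        exact (hS _).mp h
      · exact div_nonneg (hg0 _) hθ.le
    have h5 := h2.trans h4
    rw [le_div_iff₀ (mul_pos hθ hA'c)] at h5
    calc (1 - 2 * ε) * θ * (A'.card : ℝ) ^ 2 = (1 - 2 * ε) * (A'.card : ℝ) *
          (θ * A'.card) := by ring
      _ ≤ _ := h5
  -- N₁
  set Q : ℝ := (A.card : ℝ) ^ 2 / β with hQ
  have hQ0 : 0 < Q := div_pos (pow_pos hAc 2) hβ
  set N1 : ℝ := ∑ i ∈ ffI A' T k, (cc A (ffu i) : ℝ) with hN1
  have hN1lb : (1 - 2 * ε) * θ * Q * ((A'.card : ℝ) ^ 2 * (T.card : ℝ) ^ (2 * k)) ≤ N1 := by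
    have h1 : N1 = ∑ q ∈ (Fintype.piFinset fun _ : Fin k => T) ×ˢ
        (Fintype.piFinset fun _ : Fin k => T), Q * ∑ p ∈ A' ×ˢ A',
          g (p.1 + ∑ i, q.1 i - ∑ i, q.2 i - p.2) := by
      rw [hN1]
      unfold ffI
      rw [Finset.sum_product, Finset.sum_comm]
      refine Finset.sum_congr rfl fun q _ => ?_
      rw [Finset.mul_sum]
      refine Finset.sum_congr rfl fun p _ => ?_
      rw [hccg]
      rfl
    have h2 : ∀ q ∈ (Fintype.piFinset fun _ : Fin k => T) ×ˢ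
        (Fintype.piFinset fun _ : Fin k => T), Q * ((1 - 2 * ε) * θ * (A'.card : ℝ) ^ 2) ≤
          Q * ∑ p ∈ A' ×ˢ A', g (p.1 + ∑ i, q.1 i - ∑ i, q.2 i - p.2) := by
      intro q hq
      rw [Finset.mem_product, Fintype.mem_piFinset, Fintype.mem_piFinset] at hq
      exact mul_le_mul_of_nonneg_left (hshift q.1 q.2 hq.1 hq.2) hQ0.le
    have h3 := Finset.card_nsmul_le_sum _ _ _ h2
    rw [← h1, Finset.card_product, Fintype.card_piFinset] at h3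
    simp only [Finset.prod_const, Finset.card_univ, Fintype.card_fin, nsmul_eq_mul] at h3
    push_cast at h3
    refine le_trans (le_of_eq ?_) h3
    ring
  -- N₂
  set N2 : ℝ := ∑ x ∈ B4, ∑ i ∈ ffI A' T k, (cc A (ffu i + x) : ℝ) with hN2
  have hdiff := ff_diff A A' T B4 k ν hν hspec
  rw [← hN1, ← hN2] at hdiff
  have hcc : ∑ p ∈ A' ×ˢ A', (cc A (p.1 - p.2) : ℝ) ≤ Q * (R * (A'.card : ℝ) ^ 2) := by
    have h1 : ∑ p ∈ A' ×ˢ A', (cc A (p.1 - p.2) : ℝ) =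
        Q * ∑ p ∈ A' ×ˢ A', g (p.1 - p.2) := by
      rw [Finset.mul_sum]
      exact Finset.sum_congr rfl fun p _ => hccg _
    rw [h1]
    exact mul_le_mul_of_nonneg_left hR' hQ0.le
  have hN2lb : (1 - 3 * ε) * θ * Q * ((A'.card : ℝ) ^ 2 * (T.card : ℝ) ^ (2 * k)) * B4.card
      ≤ N2 := by
    have h1 : (B4.card : ℝ) * N1 - N2 ≤ (ν + 2 * (1 / 4) ^ k) * (B4.card : ℝ) *
        (T.card : ℝ) ^ (2 * k) * (Q * (R * (A'.card : ℝ) ^ 2)) := by
      refine (le_abs_self _).trans (hdiff.trans ?_)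
      exact mul_le_mul_of_nonneg_left hcc
        (mul_nonneg (mul_nonneg (by linarith) hBc.le) hTk.le)
    have h2 : (ν + 2 * (1 / 4) ^ k) * (B4.card : ℝ) *
        (T.card : ℝ) ^ (2 * k) * (Q * (R * (A'.card : ℝ) ^ 2)) ≤
        ε * θ * ((B4.card : ℝ) * (T.card : ℝ) ^ (2 * k) * (Q * (A'.card : ℝ) ^ 2)) := by
      calc (ν + 2 * (1 / 4) ^ k) * (B4.card : ℝ) *
          (T.card : ℝ) ^ (2 * k) * (Q * (R * (A'.card : ℝ) ^ 2)) =
          ((ν + 2 * (1 / 4) ^ k) * R) * ((B4.card : ℝ) * (T.card : ℝ) ^ (2 * k) *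
            (Q * (A'.card : ℝ) ^ 2)) := by ring
        _ ≤ _ := mul_le_mul_of_nonneg_right hc
          (mul_pos (mul_pos hBc hTk) (mul_pos hQ0 hA'2)).le
    have h3 : (B4.card : ℝ) * ((1 - 2 * ε) * θ * Q * ((A'.card : ℝ) ^ 2 *
        (T.card : ℝ) ^ (2 * k))) ≤ (B4.card : ℝ) * N1 :=
      mul_le_mul_of_nonneg_left hN1lb hBc.le
    nlinarith
  have hN2eq : N2 = ∑ i ∈ ffI A' T k, ∑ y ∈ A, (hit A B4 (y + ffu i) : ℝ) := by
    rw [hN2, Finset.sum_comm]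
    exact Finset.sum_congr rfl fun i _ => ff_hit A B4 (ffu i)
  by_contra hcon
  push Not at hcon
  have hne : (ffI A' T k).Nonempty := by
    rw [← Finset.card_pos]
    have h1 := ff_card A' T k
    have h2 : (0 : ℝ) < ((ffI A' T k).card : ℝ) := by
      rw [h1]
      exact mul_pos hA'2 hTk
    exact_mod_cast h2
  have hlt : N2 < ∑ i ∈ ffI A' T k, ∑ y ∈ A, (1 - 3 * ε) * θ * (A.card : ℝ) / β * B4.card := by
    rw [hN2eq]
    refine Finset.sum_lt_sum_of_nonempty hne fun i _ => ?_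
    exact Finset.sum_lt_sum_of_nonempty hA fun y _ => hcon _
  rw [Finset.sum_const, Finset.sum_const, nsmul_eq_mul, nsmul_eq_mul, ff_card] at hlt
  have hfin : (A'.card : ℝ) ^ 2 * (T.card : ℝ) ^ (2 * k) *
      ((A.card : ℝ) * ((1 - 3 * ε) * θ * (A.card : ℝ) / β * B4.card)) =
      (1 - 3 * ε) * θ * Q * ((A'.card : ℝ) ^ 2 * (T.card : ℝ) ^ (2 * k)) * B4.card := by
    rw [hQ]
    ring
  rw [hfin] at hlt
  exact absurd hN2lb (not_le.mpr hlt)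

end Vale.Agent.P057.KM
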