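import Mathlib

namespace Vale.Agent.P057.KM

open Finset

theorem pow_le_fact_cosh (x : ℝ) (q : ℕ) :
    x ^ (2 * q) ≤ (Nat.factorial (2 * q) : ℝ) * Real.cosh x := by
  have h := Real.hasSum_cosh x
  have h1 : x ^ (2 * q) / (Nat.factorial (2 * q) : ℝ) ≤ Real.cosh x := by
    refine le_hasSum h q (fun j _ => ?_)
    exact div_nonneg ((even_two_mul j).pow_nonneg x) (by positivity)
  rw [div_le_iff₀ (by positivity)] at h1
  linarith

theorem sample_exp_sum {α : Type*} (A : Finset α) (Z : α → ℝ) (hZ : ∀ a ∈ A, |Z a| ≤ 1)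
    (hZ0 : ∑ a ∈ A, Z a = 0) (l : ℝ) (hl : |l| ≤ 1) :
    ∑ a ∈ A, Real.exp (l * Z a) ≤ A.card * Real.exp (l ^ 2) := by
  have h1 : ∀ a ∈ A, Real.exp (l * Z a) ≤ 1 + l * Z a + l ^ 2 := by
    intro a ha
    have h2 : |l * Z a| ≤ 1 := by
      rw [abs_mul]
      exact mul_le_one₀ hl (abs_nonneg _) (hZ a ha)
    have h3 := Real.abs_exp_sub_one_sub_id_le h2
    have h4 := (abs_le.mp h3).2
    have h5 : (l * Z a) ^ 2 ≤ l ^ 2 := by
      rw [mul_pow]
      have : Z a ^ 2 ≤ 1 := by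
        rw [← sq_abs]
        exact pow_le_one₀ (abs_nonneg _) (hZ a ha)
      nlinarith [sq_nonneg l]
    linarith
  calc ∑ a ∈ A, Real.exp (l * Z a) ≤ ∑ a ∈ A, (1 + l * Z a + l ^ 2) := Finset.sum_le_sum h1
    _ = A.card * (1 + l ^ 2) := by
        rw [Finset.sum_add_distrib, Finset.sum_add_distrib, ← Finset.mul_sum, hZ0,
          Finset.sum_const, Finset.sum_const, nsmul_eq_mul, nsmul_eq_mul]
        ring
    _ ≤ A.card * Real.exp (l ^ 2) := by
        refine mul_le_mul_of_nonneg_left ?_ (Nat.cast_nonneg _)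
        linarith [Real.add_one_le_exp (l ^ 2)]

theorem sample_exp_pi {α : Type*} (A : Finset α) (Z : α → ℝ) (hZ : ∀ a ∈ A, |Z a| ≤ 1)
    (hZ0 : ∑ a ∈ A, Z a = 0) (l : ℝ) (hl : |l| ≤ 1) (m : ℕ) :
    ∑ v ∈ Fintype.piFinset (fun _ : Fin m => A), Real.exp (l * ∑ i, Z (v i)) ≤
      (A.card : ℝ) ^ m * Real.exp (m * l ^ 2) := by
  have h1 : ∑ v ∈ Fintype.piFinset (fun _ : Fin m => A), Real.exp (l * ∑ i, Z (v i)) =
      (∑ a ∈ A, Real.exp (l * Z a)) ^ m := by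
    have h2 : (∑ a ∈ A, Real.exp (l * Z a)) ^ m =
        ∏ _i : Fin m, ∑ a ∈ A, Real.exp (l * Z a) := by
      rw [Finset.prod_const, Finset.card_univ, Fintype.card_fin]
    rw [h2, Finset.prod_univ_sum]
    refine Finset.sum_congr rfl fun v _ => ?_
    rw [Finset.mul_sum, Real.exp_sum]
  rw [h1]
  have h3 := sample_exp_sum A Z hZ hZ0 l hl
  have h4 : 0 ≤ ∑ a ∈ A, Real.exp (l * Z a) := Finset.sum_nonneg fun _ _ => (Real.exp_pos _).le
  calc (∑ a ∈ A, Real.exp (l * Z a)) ^ m ≤ (A.card * Real.exp (l ^ 2)) ^ m :=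
        pow_le_pow_left₀ h4 h3 m
    _ = _ := by rw [mul_pow, ← Real.exp_nat_mul]

/-- moment bound for sampling: `Z` has mean zero over `A` and `|Z| ≤ 1` -/
theorem sample_moment {α : Type*} (A : Finset α) (Z : α → ℝ) (hZ : ∀ a ∈ A, |Z a| ≤ 1)
    (hZ0 : ∑ a ∈ A, Z a = 0) (m q : ℕ) (hq : 1 ≤ q) (hqm : q ≤ m) :
    ∑ v ∈ Fintype.piFinset (fun _ : Fin m => A), ((∑ i, Z (v i)) / m) ^ (2 * q) ≤
      (A.card : ℝ) ^ m * (4 * Real.exp 1 * q / m) ^ q := by
  have hq0 : (0 : ℝ) < q := by exact_mod_cast hq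
  have hm0 : (0 : ℝ) < m := by exact_mod_cast (lt_of_lt_of_le hq hqm)
  set l : ℝ := Real.sqrt (q / m) with hl
  have hl2 : l ^ 2 = q / m := Real.sq_sqrt (by positivity)
  have hlpos : 0 < l := Real.sqrt_pos.mpr (by positivity)
  have hl1 : |l| ≤ 1 := by
    rw [abs_of_pos hlpos, hl, Real.sqrt_le_one]
    rw [div_le_one hm0]
    exact_mod_cast hqm
  have hml : (m : ℝ) * l ^ 2 = q := by rw [hl2]; field_simp
  have hp := sample_exp_pi A Z hZ hZ0 l hl1 m
  have hn := sample_exp_pi A Z hZ hZ0 (-l) (by rwa [abs_neg]) m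
  rw [neg_sq] at hn
  rw [hml] at hp hn
  set F : ℝ := (Nat.factorial (2 * q) : ℝ) with hF
  have hF0 : 0 ≤ F := by positivity
  have h1 : ∑ v ∈ Fintype.piFinset (fun _ : Fin m => A), (l * ∑ i, Z (v i)) ^ (2 * q) ≤
      F * ((A.card : ℝ) ^ m * Real.exp q) := by
    calc ∑ v ∈ Fintype.piFinset (fun _ : Fin m => A), (l * ∑ i, Z (v i)) ^ (2 * q)
        ≤ ∑ v ∈ Fintype.piFinset (fun _ : Fin m => A), F * Real.cosh (l * ∑ i, Z (v i)) :=
          Finset.sum_le_sum fun v _ => pow_le_fact_cosh _ q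
      _ = F * ((∑ v ∈ Fintype.piFinset (fun _ : Fin m => A), Real.exp (l * ∑ i, Z (v i)) +
            ∑ v ∈ Fintype.piFinset (fun _ : Fin m => A), Real.exp (-l * ∑ i, Z (v i))) / 2) := by
          rw [← Finset.mul_sum, ← Finset.sum_add_distrib, Finset.sum_div]
          congr 1
          refine Finset.sum_congr rfl fun v _ => ?_
          rw [Real.cosh_eq, neg_mul]
      _ ≤ F * ((A.card : ℝ) ^ m * Real.exp q) :=
          mul_le_mul_of_nonneg_left (by linarith) hF0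
  have hF1 : F ≤ (4 * (q : ℝ) ^ 2) ^ q := by
    have h2 := Nat.factorial_le_pow (2 * q)
    have h3 : F ≤ ((2 * q : ℕ) : ℝ) ^ (2 * q) := by
      rw [hF]
      exact_mod_cast h2
    refine h3.trans (le_of_eq ?_)
    rw [pow_mul]
    congr 1
    push_cast
    ring
  have h4 : ∀ v : Fin m → α, ((∑ i, Z (v i)) / m) ^ (2 * q) =
      (1 / ((l * m) ^ 2) ^ q) * (l * ∑ i, Z (v i)) ^ (2 * q) := by
    intro v
    rw [← pow_mul, ← one_div_pow, ← mul_pow]
    congr 1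
    field_simp
  simp_rw [h4]
  rw [← Finset.mul_sum]
  have hlm : (l * m) ^ 2 = q * m := by
    rw [mul_pow, hl2]
    field_simp
  rw [hlm]
  have hqm0 : (0 : ℝ) < ((q : ℝ) * m) ^ q := by positivity
  calc 1 / ((q : ℝ) * m) ^ q * ∑ v ∈ Fintype.piFinset (fun _ : Fin m => A),
        (l * ∑ i, Z (v i)) ^ (2 * q)
      ≤ 1 / ((q : ℝ) * m) ^ q * ((4 * (q : ℝ) ^ 2) ^ q * ((A.card : ℝ) ^ m * Real.exp q)) := by
        refine mul_le_mul_of_nonneg_left ?_ (by positivity)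
        refine h1.trans ?_
        exact mul_le_mul_of_nonneg_right hF1 (by positivity)
    _ = (A.card : ℝ) ^ m * ((4 * (q : ℝ) ^ 2) ^ q * Real.exp 1 ^ q / ((q : ℝ) * m) ^ q) := by
        rw [← Real.exp_nat_mul, mul_one]
        ring
    _ = (A.card : ℝ) ^ m * (4 * Real.exp 1 * q / m) ^ q := by
        congr 1
        rw [← mul_pow, ← div_pow]
        congr 1
        field_simp

end Vale.Agent.P057.KM
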