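import Vale.Agent.P057.KM.Defs
import Vale.Agent.P057.KM.SampleMoment

namespace Vale.Agent.P057.KM

open Finset

variable {G : Type*} [AddCommGroup G] [Fintype G] [DecidableEq G]

/-- empirical version of `FS` for the sample `v` -/
noncomputable def smp {m : ℕ} (S : Finset G) (v : Fin m → G) (x : G) : ℝ :=
  (∑ i, (if x - v i ∈ S then (1 : ℝ) else 0)) / m

omit [Fintype G] in
theorem FS_nonneg (A S : Finset G) (x : G) : 0 ≤ FS A S x := by
  unfold FS; positivity

omit [Fintype G] in
theorem FS_le_one (A S : Finset G) (x : G) : FS A S x ≤ 1 := by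
  unfold FS
  refine div_le_one_of_le₀ ?_ (Nat.cast_nonneg _)
  exact_mod_cast Finset.card_filter_le _ _

omit [Fintype G] in
theorem smp_moment (A S W : Finset G) (hA : A.Nonempty) (m q : ℕ) (hq : 1 ≤ q) (hqm : q ≤ m) :
    ∑ v ∈ Fintype.piFinset (fun _ : Fin m => A), ∑ x ∈ W, (smp S v x - FS A S x) ^ (2 * q) ≤
      W.card * ((A.card : ℝ) ^ m * (4 * Real.exp 1 * q / m) ^ q) := by
  rw [Finset.sum_comm]
  rw [← nsmul_eq_mul, ← Finset.sum_const]
  refine Finset.sum_le_sum fun x _ => ?_
  have hAc : (0 : ℝ) < A.card := by exact_mod_cast hA.card_pos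
  have hm0 : (0 : ℝ) < m := by exact_mod_cast (lt_of_lt_of_le hq hqm)
  have hZ : ∀ a ∈ A, |(if x - a ∈ S then (1 : ℝ) else 0) - FS A S x| ≤ 1 := by
    intro a _
    have h1 := FS_nonneg A S x
    have h2 := FS_le_one A S x
    rw [abs_le]
    split_ifs <;> constructor <;> linarith
  have hZ0 : ∑ a ∈ A, ((if x - a ∈ S then (1 : ℝ) else 0) - FS A S x) = 0 := by
    rw [Finset.sum_sub_distrib, Finset.sum_const, nsmul_eq_mul]
    have : ∑ a ∈ A, (if x - a ∈ S then (1 : ℝ) else 0) =
        ((A.filter (fun a => x - a ∈ S)).card : ℝ) := by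
      rw [Finset.card_filter]; push_cast; rfl
    rw [this]
    unfold FS
    field_simp
    ring
  have := sample_moment A (fun a => (if x - a ∈ S then (1 : ℝ) else 0) - FS A S x) hZ hZ0 m q
    hq hqm
  refine le_trans (le_of_eq ?_) this
  refine Finset.sum_congr rfl fun v _ => ?_
  congr 1
  unfold smp
  rw [Finset.sum_sub_distrib, Finset.sum_const, Finset.card_univ, Fintype.card_fin, nsmul_eq_mul]
  field_simp

omit [Fintype G] in
theorem many_good (A S W : Finset G) (hA : A.Nonempty) (m q : ℕ) (hq : 1 ≤ q) (hqm : q ≤ m) :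
    (A.card : ℝ) ^ m / 2 ≤ (((Fintype.piFinset (fun _ : Fin m => A)).filter (fun v =>
      ∑ x ∈ W, (smp S v x - FS A S x) ^ (2 * q) ≤
        2 * W.card * (4 * Real.exp 1 * q / m) ^ q)).card : ℝ) := by
  have hq0 : (0 : ℝ) < q := by exact_mod_cast hq
  have hm0 : (0 : ℝ) < m := by exact_mod_cast (lt_of_lt_of_le hq hqm)
  set η : ℝ := (4 * Real.exp 1 * q / m) ^ q with hη
  have hη0 : 0 < η := by positivity
  set V := Fintype.piFinset (fun _ : Fin m => A) with hV
  have hVc : (V.card : ℝ) = (A.card : ℝ) ^ m := by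
    rw [hV, Fintype.card_piFinset]
    simp
  have hmom := smp_moment A S W hA m q hq hqm
  rw [← hη] at hmom
  set Φ : (Fin m → G) → ℝ := fun v => ∑ x ∈ W, (smp S v x - FS A S x) ^ (2 * q) with hΦ
  have hΦ0 : ∀ v, 0 ≤ Φ v := fun v =>
    Finset.sum_nonneg fun x _ => (even_two_mul q).pow_nonneg _
  have hsplit : ((V.filter (fun v => Φ v ≤ 2 * W.card * η)).card : ℝ) +
      ((V.filter (fun v => ¬ Φ v ≤ 2 * W.card * η)).card : ℝ) = (A.card : ℝ) ^ m := by
    rw [← hVc]
    exact_mod_cast Finset.card_filter_add_card_filter_not (s := V) (fun v => Φ v ≤ 2 * W.card * η)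
  have hbad : ((V.filter (fun v => ¬ Φ v ≤ 2 * W.card * η)).card : ℝ) ≤ (A.card : ℝ) ^ m / 2 := by
    rcases W.eq_empty_or_nonempty with hW | hW
    · have : V.filter (fun v => ¬ Φ v ≤ 2 * W.card * η) = ∅ := by
        rw [Finset.filter_eq_empty_iff]
        intro v _ hcon
        apply hcon
        simp [hΦ, hW]
      rw [this]
      simp only [Finset.card_empty, Nat.cast_zero]
      positivity
    · have hWc : (0 : ℝ) < W.card := by exact_mod_cast hW.card_pos
      have h1 : ((V.filter (fun v => ¬ Φ v ≤ 2 * W.card * η)).card : ℝ) * (2 * W.card * η) ≤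
          W.card * ((A.card : ℝ) ^ m * η) := by
        calc ((V.filter (fun v => ¬ Φ v ≤ 2 * W.card * η)).card : ℝ) * (2 * W.card * η)
            = ∑ _v ∈ V.filter (fun v => ¬ Φ v ≤ 2 * W.card * η), (2 * W.card * η) := by
              rw [Finset.sum_const, nsmul_eq_mul]
          _ ≤ ∑ v ∈ V.filter (fun v => ¬ Φ v ≤ 2 * W.card * η), Φ v := by
              refine Finset.sum_le_sum fun v hv => ?_
              rw [Finset.mem_filter] at hv
              exact (not_le.mp hv.2).le
          _ ≤ ∑ v ∈ V, Φ v :=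
              Finset.sum_le_sum_of_subset_of_nonneg (Finset.filter_subset _ _)
                fun v _ _ => hΦ0 v
          _ ≤ _ := hmom
      have h2 : ((V.filter (fun v => ¬ Φ v ≤ 2 * W.card * η)).card : ℝ) * (2 * W.card * η) ≤
          ((A.card : ℝ) ^ m / 2) * (2 * W.card * η) := by
        refine h1.trans (le_of_eq ?_)
        ring
      exact le_of_mul_le_mul_right h2 (by positivity)
  linarith

end Vale.Agent.P057.KM
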