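import Vale.Agent.P057.KM.OneStep

namespace Vale.Agent.P057.KM

open Finset

private lemma it_hit_le {M : ℕ} [NeZero M] (A B : Finset (ZMod M)) (x : ZMod M) :
    hit A B x ≤ B.card := by
  unfold hit
  refine Finset.card_le_card_of_injOn (fun a => a - x) ?_ ?_
  · intro a ha
    exact (Finset.mem_filter.1 ha).2
  · intro a _ b _ h
    simpa using h

private lemma it_exp (L : ℕ) : Real.exp L < (1 + 1 / 200 : ℝ) ^ (201 * L + 1) := by
  have h1 : Real.exp (1 / 201) ≤ 1 + 1 / 200 := by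
    have h2 : (1 : ℝ) - 1 / 201 ≤ Real.exp (-(1 / 201)) := by
      have := Real.add_one_le_exp (-(1 / 201 : ℝ))
      linarith
    have h3 : Real.exp (1 / 201) * Real.exp (-(1 / 201)) = 1 := by
      rw [← Real.exp_add]
      simp
    have h4 := Real.exp_pos (1 / 201)
    nlinarith
  have h5 : Real.exp L = Real.exp (1 / 201) ^ (201 * L) := by
    rw [← Real.exp_nat_mul]
    congr 1
    push_cast
    ring
  rw [h5]
  calc Real.exp (1 / 201) ^ (201 * L) ≤ (1 + 1 / 200 : ℝ) ^ (201 * L) :=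
        pow_le_pow_left₀ (Real.exp_pos _).le h1 _
    _ < (1 + 1 / 200 : ℝ) ^ (201 * L + 1) := by
        apply pow_lt_pow_right₀ (by norm_num)
        omega

/-- iteration of `one_step` as long as the size hypothesis holds -/
private lemma it_iter (M : ℕ) [NeZero M] (hM : Odd M) (A₀ : Finset (ZMod M))
    (hno : ∀ a ∈ A₀, ∀ b ∈ A₀, ∀ c ∈ A₀, a + b = c + c → a = b) (L : ℕ) (hL : 1 ≤ L)
    (hA : Real.exp (-(L : ℝ)) * M ≤ A₀.card) (J DJ : ℕ) (hDJ : DJ = 1 + J * (10 ^ 17 * L ^ 4))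
    (r : ℝ) (hr : r = 1 / (10 ^ 77 * (DJ : ℝ) ^ 6 * L ^ 4))
    (hbig : 3 * Real.exp (2 * L) ≤ (r ^ J / (6400000000 * DJ)) ^ DJ * M) :
    ∀ j, j ≤ J → ∃ (Γ : Finset (ZMod M)) (ρ : ℝ) (x : ZMod M),
      Γ.card ≤ 1 + j * (10 ^ 17 * L ^ 4) ∧ r ^ j ≤ ρ ∧ ρ ≤ 1 ∧
      Reg Γ (1 + j * (10 ^ 17 * L ^ 4)) ρ ∧
      (1 + 1 / 200) ^ j * Real.exp (-(L : ℝ)) * (Bohr Γ ρ).card ≤ hit A₀ (Bohr Γ ρ) x := by
  have hLr : (1 : ℝ) ≤ L := by exact_mod_cast hL
  have hDJ1 : 1 ≤ DJ := by omega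
  have hDJr : (1 : ℝ) ≤ DJ := by exact_mod_cast hDJ1
  have hr0 : 0 < r := by rw [hr]; positivity
  have hr1 : r ≤ 1 := by
    rw [hr, div_le_one (by positivity)]
    have h6 : (1 : ℝ) ≤ (DJ : ℝ) ^ 6 := one_le_pow₀ hDJr
    have h4 : (1 : ℝ) ≤ (L : ℝ) ^ 4 := one_le_pow₀ hLr
    calc (1 : ℝ) ≤ 10 ^ 77 * 1 * 1 := by norm_num
      _ ≤ _ := by gcongr
  intro j
  induction j with
  | zero =>
    intro _
    refine ⟨∅, 1, 0, by simp, by simp, le_refl _, ?_, ?_⟩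
    · unfold Reg
      rw [Bohr_empty, Bohr_empty]
      have : (0 : ℝ) ≤ ((Finset.univ : Finset (ZMod M)).card : ℝ) := by positivity
      nlinarith
    · rw [Bohr_empty]
      unfold hit
      simpa [ZMod.card] using hA
  | succ j ih =>
    intro hj
    obtain ⟨Γ, ρ, x, h1, h2, h3, h4, h5⟩ := ih (by omega)
    have hρ0 : 0 < ρ := lt_of_lt_of_le (pow_pos hr0 j) h2
    have hDle : 1 + j * (10 ^ 17 * L ^ 4) ≤ DJ := by
      rw [hDJ]
      gcongr
      omega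
    have hDler : ((1 + j * (10 ^ 17 * L ^ 4) : ℕ) : ℝ) ≤ DJ := by exact_mod_cast hDle
    have hD1 : 1 ≤ 1 + j * (10 ^ 17 * L ^ 4) := by omega
    have hD1r : (1 : ℝ) ≤ ((1 + j * (10 ^ 17 * L ^ 4) : ℕ) : ℝ) := by exact_mod_cast hD1
    have hα : Real.exp (-(L : ℝ)) ≤ (1 + 1 / 200) ^ j * Real.exp (-(L : ℝ)) := by
      have : (1 : ℝ) ≤ (1 + 1 / 200) ^ j := one_le_pow₀ (by norm_num)
      have h := Real.exp_pos (-(L : ℝ))
      nlinarith
    have hbig' : 3 * Real.exp (2 * L) ≤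
        (ρ / (6400000000 * ((1 + j * (10 ^ 17 * L ^ 4) : ℕ) : ℝ))) ^
          (1 + j * (10 ^ 17 * L ^ 4)) * M := by
      refine le_trans hbig ?_
      have g0 : 0 < r ^ J / (6400000000 * (DJ : ℝ)) := by positivity
      have g1 : r ^ J / (6400000000 * (DJ : ℝ)) ≤ 1 := by
        rw [div_le_one (by positivity)]
        have : r ^ J ≤ 1 := pow_le_one₀ hr0.le hr1
        nlinarith
      have g2 : r ^ J / (6400000000 * (DJ : ℝ)) ≤
          ρ / (6400000000 * ((1 + j * (10 ^ 17 * L ^ 4) : ℕ) : ℝ)) := by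
        apply div_le_div₀ hρ0.le _ (by positivity) (by gcongr)
        exact le_trans (pow_le_pow_of_le_one hr0.le hr1 (by omega)) h2
      have hM0 : (0 : ℝ) ≤ M := by positivity
      apply mul_le_mul_of_nonneg_right _ hM0
      calc (r ^ J / (6400000000 * (DJ : ℝ))) ^ DJ
          ≤ (r ^ J / (6400000000 * (DJ : ℝ))) ^ (1 + j * (10 ^ 17 * L ^ 4)) :=
            pow_le_pow_of_le_one g0.le g1 hDle
        _ ≤ _ := pow_le_pow_left₀ g0.le g2 _
    obtain ⟨Γ', ρ', x', k1, k2, k3, k4, k5⟩ :=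
      one_step hM A₀ hno Γ (1 + j * (10 ^ 17 * L ^ 4)) L hD1 hL h1 ρ
        ((1 + 1 / 200) ^ j * Real.exp (-(L : ℝ))) hρ0 h3 hα h4 x h5 hbig'
    have he : 1 + (j + 1) * (10 ^ 17 * L ^ 4) = 1 + j * (10 ^ 17 * L ^ 4) + 10 ^ 17 * L ^ 4 := by
      ring
    rw [he]
    refine ⟨Γ', ρ', x', k1, ?_, k3, k4, ?_⟩
    · refine le_trans ?_ k2
      rw [pow_succ]
      have g3 : ρ * r ≤ ρ / (10 ^ 77 * ((1 + j * (10 ^ 17 * L ^ 4) : ℕ) : ℝ) ^ 6 * L ^ 4) := by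
        rw [hr, mul_one_div]
        gcongr
      refine le_trans ?_ g3
      gcongr
    · rw [pow_succ]
      have e : (1 + 1 / 200 : ℝ) ^ j * (1 + 1 / 200) * Real.exp (-(L : ℝ)) * (Bohr Γ' ρ').card =
        (1 + 1 / 200) * ((1 + 1 / 200) ^ j * Real.exp (-(L : ℝ))) * (Bohr Γ' ρ').card := by ring
      rw [e]
      exact k5

private lemma it_num (L : ℕ) (hL : 1 ≤ L) (J DJ : ℕ) (hJ : J = 201 * L + 1)
    (hDJ : DJ = 1 + J * (10 ^ 17 * L ^ 4)) (r : ℝ)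
    (hr : r = 1 / (10 ^ 77 * (DJ : ℝ) ^ 6 * L ^ 4)) (X : ℝ)
    (hX : 10 ^ 26 * (L : ℝ) ^ 6 * (1 + Real.log L) ≤ X) :
    Real.log (3 * Real.exp (2 * L)) ≤
      DJ * (Real.log (r ^ J / (6400000000 * DJ))) + X := by
  have hLr : (1 : ℝ) ≤ L := by exact_mod_cast hL
  have hL0 : (0 : ℝ) < L := by linarith
  have hℓ : 0 ≤ Real.log L := Real.log_nonneg hLr
  set ℓ := Real.log L with hℓdef
  have hJr : (J : ℝ) ≤ 202 * L := by
    have : J ≤ 202 * L := by omega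
    exact_mod_cast this
  have hJ0 : (0 : ℝ) ≤ J := by positivity
  have hDJ1 : 1 ≤ DJ := by omega
  have hDJr : (1 : ℝ) ≤ DJ := by exact_mod_cast hDJ1
  have hDJ0 : (0 : ℝ) < DJ := by linarith
  have hL5 : (1 : ℝ) ≤ (L : ℝ) ^ 5 := one_le_pow₀ hLr
  have hL6 : (1 : ℝ) ≤ (L : ℝ) ^ 6 := one_le_pow₀ hLr
  have hDJu : (DJ : ℝ) ≤ 10 ^ 20 * (L : ℝ) ^ 5 := by
    have h1 : (DJ : ℝ) = 1 + J * (10 ^ 17 * (L : ℝ) ^ 4) := by rw [hDJ]; push_cast; ring
    rw [h1]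
    have h2 : (J : ℝ) * (10 ^ 17 * (L : ℝ) ^ 4) ≤ 202 * L * (10 ^ 17 * (L : ℝ) ^ 4) := by
      gcongr
    have h3 : 202 * (L : ℝ) * (10 ^ 17 * (L : ℝ) ^ 4) = 202 * 10 ^ 17 * (L : ℝ) ^ 5 := by ring
    nlinarith
  have hlog10 : Real.log 10 ≤ 3 := by
    have h1 : Real.log 10 = Real.log 5 + Real.log 2 := by
      rw [← Real.log_mul (by norm_num) (by norm_num)]
      norm_num
    have h2 : Real.log 5 ≤ 2 := by
      rw [Real.log_le_iff_le_exp (by norm_num)]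
      have h3 := Real.exp_one_gt_d9
      have h4 : Real.exp 2 = Real.exp 1 * Real.exp 1 := by
        rw [← Real.exp_add]
        norm_num
      rw [h4]
      nlinarith
    have h5 : Real.log 2 ≤ 1 := by
      have := Real.log_two_lt_d9
      linarith
    linarith
  have hlogD : Real.log DJ ≤ 60 + 5 * ℓ := by
    calc Real.log DJ ≤ Real.log (10 ^ 20 * (L : ℝ) ^ 5) := Real.log_le_log hDJ0 hDJu
      _ = 20 * Real.log 10 + 5 * ℓ := by
          rw [Real.log_mul (by positivity) (by positivity), Real.log_pow, Real.log_pow]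
          push_cast
          ring
      _ ≤ _ := by linarith
  have hlogr : Real.log r = -(77 * Real.log 10 + 6 * Real.log DJ + 4 * ℓ) := by
    rw [hr, one_div, Real.log_inv, Real.log_mul (by positivity) (by positivity),
      Real.log_mul (by positivity) (by positivity), Real.log_pow, Real.log_pow, Real.log_pow]
    push_cast
    ring
  have hr0 : 0 < r := by rw [hr]; positivity
  have hlog64 : Real.log 6400000000 ≤ 30 := by
    calc Real.log 6400000000 ≤ Real.log (10 ^ 10) :=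
          Real.log_le_log (by norm_num) (by norm_num)
      _ = 10 * Real.log 10 := by rw [Real.log_pow]; push_cast; ring
      _ ≤ 30 := by linarith
  have hmain : Real.log (r ^ J / (6400000000 * DJ)) =
      J * Real.log r - (Real.log 6400000000 + Real.log DJ) := by
    rw [Real.log_div (by positivity) (by positivity), Real.log_pow,
      Real.log_mul (by norm_num) (by positivity)]
  have hlhs : Real.log (3 * Real.exp (2 * L)) ≤ 2 + 2 * L := by
    rw [Real.log_mul (by norm_num) (Real.exp_pos _).ne', Real.log_exp]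
    have : Real.log 3 ≤ 2 := by
      have := Real.log_le_sub_one_of_pos (by norm_num : (0 : ℝ) < 3)
      linarith
    linarith
  rw [hmain, hlogr]
  have hlogr' : 77 * Real.log 10 + 6 * Real.log DJ + 4 * ℓ ≤ 600 + 34 * ℓ := by
    linarith
  have hJt : (J : ℝ) * (77 * Real.log 10 + 6 * Real.log DJ + 4 * ℓ) ≤
      202 * L * (600 + 34 * ℓ) := by
    have h0 : 0 ≤ 600 + 34 * ℓ := by linarith
    calc (J : ℝ) * (77 * Real.log 10 + 6 * Real.log DJ + 4 * ℓ)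
        ≤ J * (600 + 34 * ℓ) := by gcongr
      _ ≤ 202 * L * (600 + 34 * ℓ) := by gcongr
  have hsum : (J : ℝ) * (77 * Real.log 10 + 6 * Real.log DJ + 4 * ℓ) +
      (Real.log 6400000000 + Real.log DJ) ≤ 200000 * (L * (1 + ℓ)) := by
    have h1 : ℓ ≤ L * ℓ := by nlinarith
    nlinarith
  have hnn : 0 ≤ (L : ℝ) * (1 + ℓ) := by positivity
  have hprod : (DJ : ℝ) * ((J : ℝ) * (77 * Real.log 10 + 6 * Real.log DJ + 4 * ℓ) +
      (Real.log 6400000000 + Real.log DJ)) ≤ 10 ^ 20 * (L : ℝ) ^ 5 * (200000 * (L * (1 + ℓ))) := by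
    calc _ ≤ (DJ : ℝ) * (200000 * (L * (1 + ℓ))) := by gcongr
      _ ≤ _ := by gcongr
  have he : 10 ^ 20 * (L : ℝ) ^ 5 * (200000 * (L * (1 + ℓ))) =
      200000 * 10 ^ 20 * ((L : ℝ) ^ 6 * (1 + ℓ)) := by ring
  have hL6ℓ : (L : ℝ) ≤ (L : ℝ) ^ 6 * (1 + ℓ) := by
    have h1 : (L : ℝ) ≤ (L : ℝ) ^ 6 := by
      calc (L : ℝ) = (L : ℝ) ^ 1 := by ring
        _ ≤ (L : ℝ) ^ 6 := pow_le_pow_right₀ hLr (by norm_num)
    nlinarith
  nlinarith

theorem density_bound : ∃ C : ℝ, 0 < C ∧ ∀ (M : ℕ) (_ : NeZero M) (_ : Odd M)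
    (A₀ : Finset (ZMod M)),
    (∀ a ∈ A₀, ∀ b ∈ A₀, ∀ c ∈ A₀, a + b = c + c → a = b) →
    ∀ L : ℕ, 1 ≤ L → Real.exp (-(L : ℝ)) * M ≤ A₀.card →
      Real.log M ≤ C * (L : ℝ) ^ 6 * (1 + Real.log L) := by
  refine ⟨10 ^ 26, by norm_num, ?_⟩
  intro M _ hM A₀ hno L hL hA
  by_contra hcon
  push Not at hcon
  have hLr : (1 : ℝ) ≤ L := by exact_mod_cast hL
  set J := 201 * L + 1 with hJ
  set DJ := 1 + J * (10 ^ 17 * L ^ 4) with hDJ
  have hDJ1 : 1 ≤ DJ := by omega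
  have hDJr : (1 : ℝ) ≤ DJ := by exact_mod_cast hDJ1
  set r : ℝ := 1 / (10 ^ 77 * (DJ : ℝ) ^ 6 * L ^ 4) with hr
  have hr0 : 0 < r := by rw [hr]; positivity
  have hM0 : (0 : ℝ) < M := by exact_mod_cast Nat.pos_of_ne_zero (NeZero.ne M)
  have hbig : 3 * Real.exp (2 * L) ≤ (r ^ J / (6400000000 * DJ)) ^ DJ * M := by
    rw [← Real.log_le_log_iff (by positivity) (by positivity)]
    have e : Real.log ((r ^ J / (6400000000 * DJ)) ^ DJ * M) =
        DJ * (Real.log (r ^ J / (6400000000 * DJ))) + Real.log M := by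
      rw [Real.log_mul (by positivity) (by positivity), Real.log_pow]
    rw [e]
    exact it_num L hL J DJ hJ hDJ r hr (Real.log M) hcon.le
  obtain ⟨Γ, ρ, x, h1, h2, h3, h4, h5⟩ :=
    it_iter M hM A₀ hno L hL hA J DJ hDJ r hr hbig J le_rfl
  have hρ0 : 0 < ρ := lt_of_lt_of_le (pow_pos hr0 J) h2
  have hne : (0 : ℝ) < (Bohr Γ ρ).card := by
    have : (Bohr Γ ρ).Nonempty := ⟨0, zero_mem_Bohr hρ0.le⟩
    exact_mod_cast this.card_pos
  have h6 : (hit A₀ (Bohr Γ ρ) x : ℝ) ≤ (Bohr Γ ρ).card := by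
    exact_mod_cast it_hit_le A₀ (Bohr Γ ρ) x
  have h7 : (1 + 1 / 200) ^ J * Real.exp (-(L : ℝ)) ≤ 1 := by
    by_contra h
    push Not at h
    nlinarith
  have h8 := it_exp L
  have h9 : Real.exp (L : ℝ) * Real.exp (-(L : ℝ)) = 1 := by
    rw [← Real.exp_add]
    simp
  have h10 := Real.exp_pos (-(L : ℝ))
  rw [← hJ] at h8
  nlinarith

end Vale.Agent.P057.KM
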