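import Vale.Agent.P057.KM.CoreSift
import Vale.Agent.P057.KM.BohrSize
import Vale.Agent.P057.KM.AlmostPeriodic
import Vale.Agent.P057.KM.ChangB
import Vale.Agent.P057.KM.FourierFinish

namespace Vale.Agent.P057.KM

open Finset

variable {M : ℕ} [NeZero M]

private lemma os_Bohr_card_pos (Γ : Finset (ZMod M)) {ρ : ℝ} (h : 0 ≤ ρ) :
    (0 : ℝ) < (Bohr Γ ρ).card := by
  have : (Bohr Γ ρ).Nonempty := ⟨0, zero_mem_Bohr h⟩
  exact_mod_cast this.card_pos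

private lemma os_Reg_mono {Γ : Finset (ZMod M)} {D D' : ℕ} {ρ : ℝ} (hD : 1 ≤ D) (hDD : D ≤ D')
    (hρ : 0 ≤ ρ) (h : Reg Γ D ρ) : Reg Γ D' ρ := by
  unfold Reg at h ⊢
  refine le_trans ?_ h
  have h1 : ρ + ρ / (1600000000 * (D' : ℝ)) ≤ ρ + ρ / (1600000000 * (D : ℝ)) := by
    have hD0 : (0 : ℝ) < D := by exact_mod_cast hD
    have hDD' : (D : ℝ) ≤ D' := by exact_mod_cast hDD
    gcongr
  exact_mod_cast Finset.card_le_card (Bohr_mono h1)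

private lemma os_log (L : ℕ) (hL : 1 ≤ L) :
    8 * Real.log (4 / (1 / 2 * Real.exp (-(812 * (L : ℝ) ^ 2)) ^ (6005376000000 * L ^ 2))) <
      ((10 ^ 17 * L ^ 4 : ℕ) : ℝ) := by
  have hLr : (1 : ℝ) ≤ L := by exact_mod_cast hL
  have hL4 : (1 : ℝ) ≤ (L : ℝ) ^ 4 := one_le_pow₀ hLr
  have e1 : 4 / (1 / 2 * Real.exp (-(812 * (L : ℝ) ^ 2)) ^ (6005376000000 * L ^ 2)) =
      8 * Real.exp ((812 * (L : ℝ) ^ 2) * ((6005376000000 * L ^ 2 : ℕ) : ℝ)) := by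
    rw [← Real.exp_nat_mul, div_eq_iff (by positivity)]
    have : Real.exp ((812 * (L : ℝ) ^ 2) * ((6005376000000 * L ^ 2 : ℕ) : ℝ)) *
        Real.exp (((6005376000000 * L ^ 2 : ℕ) : ℝ) * -(812 * (L : ℝ) ^ 2)) = 1 := by
      rw [← Real.exp_add]
      rw [show (812 * (L : ℝ) ^ 2) * ((6005376000000 * L ^ 2 : ℕ) : ℝ) +
        ((6005376000000 * L ^ 2 : ℕ) : ℝ) * -(812 * (L : ℝ) ^ 2) = 0 by ring]
      exact Real.exp_zero
    linear_combination (-4) * this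
  rw [e1, Real.log_mul (by norm_num) (Real.exp_pos _).ne', Real.log_exp]
  have e2 : Real.log 8 ≤ 7 := by
    have := Real.log_le_sub_one_of_pos (by norm_num : (0 : ℝ) < 8)
    linarith
  push_cast
  nlinarith

private lemma os_rad {σ₂ σ₃ s' σ₄ E D n L : ℝ} (hE : E = 1600000000) (hD : 0 < D) (hL : 0 < L)
    (hσ₂ : 0 < σ₂) (hn : n = 10 ^ 17 * L ^ 4) (f1 : σ₂ / (24 * (E * D)) / 2 ≤ σ₃)
    (f2 : σ₃ / (n * (E * D)) / 2 ≤ s') (f3 : s' / (E * D) / 2 ≤ σ₄) :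
    σ₂ / (10 ^ 47 * D ^ 3 * L ^ 4) ≤ σ₄ := by
  have hE0 : 0 < E := by rw [hE]; norm_num
  have hn0 : 0 < n := by rw [hn]; positivity
  have f4 : σ₂ / (24 * (E * D)) / 2 / (n * (E * D)) / 2 / (E * D) / 2 ≤ σ₄ := by
    refine le_trans ?_ f3
    have g1 : σ₂ / (24 * (E * D)) / 2 / (n * (E * D)) / 2 ≤ s' := by
      refine le_trans ?_ f2
      gcongr
    gcongr
  refine le_trans ?_ f4
  have f5 : σ₂ / (24 * (E * D)) / 2 / (n * (E * D)) / 2 / (E * D) / 2 =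
      σ₂ / (192 * E ^ 3 * 10 ^ 17 * D ^ 3 * L ^ 4) := by
    rw [hn]
    field_simp
    ring
  rw [f5]
  have f6 : 192 * E ^ 3 * 10 ^ 17 ≤ 10 ^ 47 := by
    rw [hE]
    norm_num
  have f7 : 0 < 192 * E ^ 3 * 10 ^ 17 := by positivity
  gcongr

/-- almost periodicity and Chang's lemma relative to a Bohr set -/
private lemma os_spec (Γ₂ : Finset (ZMod M)) (D L : ℕ) (hD : 1 ≤ D) (hL : 1 ≤ L)
    (hΓ₂ : Γ₂.card ≤ D) (σ₂ : ℝ) (h0 : 0 < σ₂) (h1 : σ₂ ≤ 1) (hreg : Reg Γ₂ D σ₂)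
    (A' S : Finset (ZMod M)) (hne : A'.Nonempty) (hA' : A' ⊆ Bohr Γ₂ σ₂)
    (hcard : Real.exp (-(811 * (L : ℝ) ^ 2)) * (Bohr Γ₂ σ₂).card ≤ A'.card) :
    ∃ (T Γ' : Finset (ZMod M)) (ρ' : ℝ), T.Nonempty ∧ Γ'.card ≤ D + 10 ^ 17 * L ^ 4 ∧
      σ₂ / (10 ^ 47 * (D : ℝ) ^ 3 * (L : ℝ) ^ 4) ≤ ρ' ∧ 0 < ρ' ∧ ρ' ≤ 1 ∧
      Reg Γ' (D + 10 ^ 17 * L ^ 4) ρ' ∧
      (∀ t t' : Fin 12 → ZMod M, (∀ i, t i ∈ T) → (∀ i, t' i ∈ T) →
        ∑ a ∈ A', |FS A' S (a + ∑ i, t i - ∑ i, t' i) - FS A' S a| ≤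
          (1 / 200) * A'.card) ∧
      (∀ γ : ZMod M, (T.card : ℝ) / 2 ≤ ‖ft T γ‖ → ∀ x ∈ Bohr Γ' ρ',
        ‖1 - (ZMod.stdAddChar (γ * x) : ℂ)‖ ≤ 1 / 5000000) := by
  have hDr : (1 : ℝ) ≤ D := by exact_mod_cast hD
  have hLr : (1 : ℝ) ≤ L := by exact_mod_cast hL
  have hD0 : (0 : ℝ) < D := by linarith
  have hL0 : (0 : ℝ) < L := by linarith
  have hL2 : (1 : ℝ) ≤ (L : ℝ) ^ 2 := one_le_pow₀ hLr
  have hL4 : (1 : ℝ) ≤ (L : ℝ) ^ 4 := one_le_pow₀ hLr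
  set E : ℝ := 1600000000 with hE
  have hE0 : 0 < E := by norm_num [hE]
  have hE1 : 1 ≤ E := by norm_num [hE]
  have hED : 0 < E * D := mul_pos hE0 hD0
  have hED1 : 1 ≤ E * D := by nlinarith
  -- the set `B3`
  obtain ⟨σ₃, hσ₃l, hσ₃u, hσ₃reg⟩ := exists_regular Γ₂ hD hΓ₂
    (ρ := σ₂ / (24 * (E * D))) (by positivity)
  have hσ₃0 : 0 < σ₃ := lt_of_lt_of_le (by positivity) hσ₃l
  set B2 := Bohr Γ₂ σ₂ with hB2
  set B3 := Bohr Γ₂ σ₃ with hB3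
  set U := Bohr Γ₂ (σ₂ + σ₂ / (E * D)) with hU
  have h24 : 24 * σ₃ ≤ σ₂ / (E * D) := by
    have := mul_le_mul_of_nonneg_left hσ₃u (by norm_num : (0 : ℝ) ≤ 24)
    refine this.trans (le_of_eq ?_)
    field_simp
  have hUcard : (U.card : ℝ) ≤ (1 + 1 / 100000000) * B2.card := hreg
  have hB2c : (0 : ℝ) < B2.card := os_Bohr_card_pos Γ₂ h0.le
  have hB3c : (0 : ℝ) < B3.card := os_Bohr_card_pos Γ₂ hσ₃0.le
  have hUc : (0 : ℝ) < U.card := os_Bohr_card_pos Γ₂ (by positivity)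
  have hA'c : (0 : ℝ) < A'.card := by exact_mod_cast hne.card_pos
  have hB2A' : (B2.card : ℝ) ≤ Real.exp (811 * (L : ℝ) ^ 2) * A'.card := by
    have h2 := mul_le_mul_of_nonneg_left hcard (Real.exp_pos (811 * (L : ℝ) ^ 2)).le
    rw [← mul_assoc, ← Real.exp_add] at h2
    simpa using h2
  have hexp2 : (4 : ℝ) ≤ Real.exp (793 * (L : ℝ) ^ 2) := by
    have := Real.add_one_le_exp (793 * (L : ℝ) ^ 2)
    nlinarith
  -- almost periodicity
  obtain ⟨T, hTB, hTcard, hTap⟩ := almost_periodic A' S U U B3 hne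
    ⟨0, zero_mem_Bohr hσ₃0.le⟩ 12 (6005376000000 * L ^ 2) (802 * L ^ 2) (1 / 200)
    (by norm_num) (by norm_num) (by norm_num) (by nlinarith [Nat.one_le_pow 2 L hL])
    (by
      intro a ha b hb
      have := add_mem_Bohr (hA' ha) hb
      refine Bohr_mono ?_ this
      linarith)
    (by
      intro a ha j hj s s' hs hs'
      have e1 := sum_mem_Bohr hσ₃0.le s hs
      have e2 := sum_mem_Bohr hσ₃0.le s' hs'
      have e3 := sub_mem_Bohr (add_mem_Bohr (hA' ha) e1) e2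
      refine Bohr_mono ?_ e3
      have hj' : (j : ℝ) ≤ 12 := by exact_mod_cast hj
      nlinarith)
    (by
      have e1 : 2 * (U.card : ℝ) ≤ 4 * B2.card := by linarith
      refine e1.trans ?_
      have e2 : Real.exp (2 * ((802 * L ^ 2 : ℕ) : ℝ)) =
          Real.exp (793 * (L : ℝ) ^ 2) * Real.exp (811 * (L : ℝ) ^ 2) := by
        rw [← Real.exp_add]
        congr 1
        push_cast
        ring
      rw [e2]
      calc 4 * (B2.card : ℝ) ≤ 4 * (Real.exp (811 * (L : ℝ) ^ 2) * A'.card) := by linarith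
        _ ≤ Real.exp (793 * (L : ℝ) ^ 2) * (Real.exp (811 * (L : ℝ) ^ 2) * A'.card) :=
            mul_le_mul_of_nonneg_right hexp2
              (mul_nonneg (Real.exp_pos _).le (Nat.cast_nonneg _))
        _ = _ := by ring)
    (by
      push_cast
      apply le_of_eq
      ring)
  set m : ℕ := 6005376000000 * L ^ 2 with hm
  -- density of `T`
  have hratio : Real.exp (-(812 * (L : ℝ) ^ 2)) ≤ (A'.card : ℝ) / U.card := by
    rw [le_div_iff₀ hUc]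
    have e1 : (U.card : ℝ) ≤ Real.exp (812 * (L : ℝ) ^ 2) * A'.card := by
      have e2 : (1 + 1 / 100000000 : ℝ) ≤ Real.exp ((L : ℝ) ^ 2) := by
        have := Real.add_one_le_exp ((L : ℝ) ^ 2)
        linarith
      have e3 : Real.exp (812 * (L : ℝ) ^ 2) =
          Real.exp ((L : ℝ) ^ 2) * Real.exp (811 * (L : ℝ) ^ 2) := by
        rw [← Real.exp_add]
        congr 1
        ring
      rw [e3, mul_assoc]
      exact hUcard.trans (mul_le_mul e2 hB2A' hB2c.le (Real.exp_pos _).le)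
    calc Real.exp (-(812 * (L : ℝ) ^ 2)) * (U.card : ℝ)
        ≤ Real.exp (-(812 * (L : ℝ) ^ 2)) * (Real.exp (812 * (L : ℝ) ^ 2) * A'.card) :=
          mul_le_mul_of_nonneg_left e1 (Real.exp_pos _).le
      _ = A'.card := by
          rw [← mul_assoc, ← Real.exp_add]
          simp
  set τ : ℝ := 1 / 2 * Real.exp (-(812 * (L : ℝ) ^ 2)) ^ m with hτ
  have hτ0 : 0 < τ := mul_pos (by norm_num) (pow_pos (Real.exp_pos _) _)
  have hTτ : τ * B3.card ≤ T.card := by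
    refine le_trans ?_ hTcard
    refine mul_le_mul_of_nonneg_right ?_ hB3c.le
    exact mul_le_mul_of_nonneg_left (pow_le_pow_left₀ (Real.exp_pos _).le hratio _)
      (by norm_num)
  have hTc : (0 : ℝ) < T.card := lt_of_lt_of_le (mul_pos hτ0 hB3c) hTτ
  have hTne : T.Nonempty := by
    rw [← Finset.card_pos]
    exact_mod_cast hTc
  -- the constant `n`
  set n : ℕ := 10 ^ 17 * L ^ 4 with hn
  have hn1 : 1 ≤ n := by
    have := Nat.one_le_pow 4 L hL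
    omega
  have hn0 : (0 : ℝ) < n := by exact_mod_cast hn1
  have hnr : (n : ℝ) = 10 ^ 17 * (L : ℝ) ^ 4 := by
    rw [hn]
    push_cast
    ring
  have hlog : 8 * Real.log (4 / τ) < n := os_log L hL
  -- the radius `s'`
  obtain ⟨s', hs'l, hs'u, hs'reg⟩ := exists_regular Γ₂ hD hΓ₂
    (ρ := σ₃ / (n * (E * D))) (by positivity)
  have hs'0 : 0 < s' := lt_of_lt_of_le (by positivity) hs'l
  have hns' : n * s' ≤ σ₃ / (E * D) := by
    have := mul_le_mul_of_nonneg_left hs'u hn0.le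
    refine this.trans (le_of_eq ?_)
    field_simp
  have hσ₃1 : σ₃ ≤ 1 := by
    refine hσ₃u.trans ?_
    rw [div_le_one (by positivity)]
    nlinarith
  obtain ⟨Λ, hΛ, hΛspec⟩ := chang_bohr Γ₂ D hD hΓ₂ T B3 σ₃ s' τ n hσ₃0 hσ₃1 hs'0 hn1 hτ0 hB3
    hσ₃reg hns' hs'reg hTne hTB hTτ hlog
  have hΓ' : (Γ₂ ∪ Λ).card ≤ D + n := (Finset.card_union_le _ _).trans (by omega)
  obtain ⟨σ₄, hσ₄l, hσ₄u, hσ₄reg⟩ := exists_regular (Γ₂ ∪ Λ) (D := D + n) (by omega) hΓ'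
    (ρ := s' / (E * D)) (by positivity)
  have hσ₄0 : 0 < σ₄ := lt_of_lt_of_le (by positivity) hσ₄l
  refine ⟨T, Γ₂ ∪ Λ, σ₄, hTne, hΓ', ?_, hσ₄0, ?_, hσ₄reg, hTap, ?_⟩
  · -- lower bound for the radius
    exact os_rad hE hD0 hL0 h0 hnr hσ₃l hs'l hσ₄l
  · have : s' ≤ 1 := by
      refine hs'u.trans ?_
      rw [div_le_one (by positivity)]
      have : (1 : ℝ) ≤ n := by exact_mod_cast hn1
      nlinarith
    refine hσ₄u.trans ?_
    rw [div_le_one hED]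
    linarith
  · intro γ hγ x hx
    exact hΛspec γ hγ x (Bohr_mono hσ₄u hx)

omit [NeZero M] in
private lemma os_hit_mono (A A₀ B : Finset (ZMod M)) (x z : ZMod M)
    (h : ∀ a ∈ A, a + x ∈ A₀) : hit A B z ≤ hit A₀ B (z + x) := by
  unfold hit
  refine Finset.card_le_card_of_injOn (fun a => a + x) ?_ ?_
  · intro a ha
    simp only [Finset.coe_filter, Set.mem_ofPred_eq] at ha ⊢
    refine ⟨h a ha.1, ?_⟩
    have : a + x - (z + x) = a - z := by abel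
    rw [this]
    exact ha.2
  · intro a _ b _ hab
    exact add_right_cancel hab

omit [NeZero M] in
private lemma os_hit_eq (A₀ B : Finset (ZMod M)) (x : ZMod M) :
    hit A₀ B x = (B.filter (fun b => b + x ∈ A₀)).card := by
  unfold hit
  refine Finset.card_bij (fun a _ => a - x) ?_ ?_ ?_
  · intro a ha
    simp only [Finset.mem_filter] at ha ⊢
    refine ⟨ha.2, ?_⟩
    rw [sub_add_cancel]
    exact ha.1
  · intro a _ b _ hab
    exact sub_left_injective hab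
  · intro b hb
    simp only [Finset.mem_filter] at hb
    refine ⟨b + x, ?_, ?_⟩
    · simp only [Finset.mem_filter]
      refine ⟨hb.2, ?_⟩
      rw [add_sub_cancel_right]
      exact hb.1
    · abel

private lemma os_three_pow (L : ℕ) : Real.exp (L : ℝ) ≤ 3 ^ L := by
  have h1 : Real.exp (L : ℝ) = Real.exp 1 ^ L := by
    rw [← Real.exp_nat_mul, mul_one]
  rw [h1]
  exact pow_le_pow_left₀ (Real.exp_pos _).le (Real.exp_one_lt_d9.le.trans (by norm_num)) _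

private lemma os_exp_hundredth : Real.exp (1 / 100 : ℝ) ≤ 100 / 99 := by
  have h := Real.add_one_le_exp (-(1 / 100) : ℝ)
  rw [Real.exp_neg] at h
  have h2 : (0 : ℝ) < Real.exp (1 / 100) := Real.exp_pos _
  rw [le_div_iff₀ (by norm_num)]
  have h3 := mul_le_mul_of_nonneg_right h h2.le
  rw [inv_mul_cancel₀ h2.ne'] at h3
  linarith

/-- the numerical conditions of `core_sift` and the size of `A'` -/
private lemma os_num1 (L : ℕ) (α₁ a b : ℝ)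
    (hα₁ : Real.exp (-((L : ℝ) + 1 / 100)) ≤ α₁) (h : α₁ * b ≤ a) (hb : 0 < b) :
    b ≤ Real.exp ((L : ℝ) + 1 / 100) * a := by
  have h1 : Real.exp (-((L : ℝ) + 1 / 100)) * b ≤ a :=
    (mul_le_mul_of_nonneg_right hα₁ hb.le).trans h
  have h2 := mul_le_mul_of_nonneg_left h1 (Real.exp_pos ((L : ℝ) + 1 / 100)).le
  rw [← mul_assoc, ← Real.exp_add] at h2
  simpa using h2

private lemma os_num2 (L : ℕ) (hL : 1 ≤ L) (a b x y : ℝ)
    (hab : b ≤ Real.exp ((L : ℝ) + 1 / 100) * a) (hb : 0 < b) (hx : 0 ≤ x)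
    (h : (1 / 4) * (a / b) ^ (800 * L) * x ≤ y) :
    Real.exp (-(811 * (L : ℝ) ^ 2)) * x ≤ y := by
  have hLr : (1 : ℝ) ≤ L := by exact_mod_cast hL
  refine le_trans (mul_le_mul_of_nonneg_right ?_ hx) h
  have h1 : Real.exp (-((L : ℝ) + 1 / 100)) ≤ a / b := by
    rw [le_div_iff₀ hb, Real.exp_neg, inv_mul_le_iff₀ (Real.exp_pos _)]
    exact hab
  have h2 : Real.exp (-((L : ℝ) + 1 / 100)) ^ (800 * L) ≤ (a / b) ^ (800 * L) :=
    pow_le_pow_left₀ (Real.exp_pos _).le h1 _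
  have h3 : Real.exp (-2) ≤ 1 / 4 := by
    rw [Real.exp_neg, ← one_div]
    apply one_div_le_one_div_of_le (by norm_num)
    have := Real.exp_one_gt_d9
    have e : Real.exp 2 = Real.exp 1 * Real.exp 1 := by
      rw [← Real.exp_add]
      norm_num
    rw [e]
    nlinarith
  calc Real.exp (-(811 * (L : ℝ) ^ 2))
      ≤ Real.exp (-2 + ((800 * L : ℕ) : ℝ) * (-((L : ℝ) + 1 / 100))) := by
        apply Real.exp_le_exp.mpr
        push_cast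
        nlinarith
    _ = Real.exp (-2) * Real.exp (-((L : ℝ) + 1 / 100)) ^ (800 * L) := by
        rw [Real.exp_add, Real.exp_nat_mul]
    _ ≤ 1 / 4 * (a / b) ^ (800 * L) := mul_le_mul h3 h2 (pow_nonneg (Real.exp_pos _).le _)
        (by norm_num)

private lemma os_num3 (L : ℕ) (a b : ℝ)
    (hab : b ≤ Real.exp ((L : ℝ) + 1 / 100) * a) (hb : 0 < b)
    (hb' : 3 * Real.exp (2 * L) ≤ b) : 2 * b ≤ a ^ 2 := by
  have h1 : (2 * b) * Real.exp ((L : ℝ) + 1 / 100) ^ 2 ≤ b ^ 2 := by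
    have e1 : Real.exp ((L : ℝ) + 1 / 100) ^ 2 =
        Real.exp (2 * L) * (Real.exp (1 / 100) * Real.exp (1 / 100)) := by
      rw [← Real.exp_nat_mul, ← Real.exp_add, ← Real.exp_add]
      congr 1
      push_cast
      ring
    have e2 := os_exp_hundredth
    have e3 : Real.exp (1 / 100) * Real.exp (1 / 100) ≤ 3 / 2 := by
      have : (0 : ℝ) < Real.exp (1 / 100) := Real.exp_pos _
      nlinarith
    have e4 : (0 : ℝ) < Real.exp (2 * L) := Real.exp_pos _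
    have e5 : 2 * Real.exp ((L : ℝ) + 1 / 100) ^ 2 ≤ b := by
      rw [e1]
      nlinarith
    nlinarith
  have h2 : b ^ 2 ≤ Real.exp ((L : ℝ) + 1 / 100) ^ 2 * a ^ 2 := by
    rw [← mul_pow]
    exact pow_le_pow_left₀ hb.le hab 2
  have h3 : (0 : ℝ) < Real.exp ((L : ℝ) + 1 / 100) ^ 2 := pow_pos (Real.exp_pos _) 2
  have h4 : Real.exp ((L : ℝ) + 1 / 100) ^ 2 * (2 * b) ≤
      Real.exp ((L : ℝ) + 1 / 100) ^ 2 * a ^ 2 := by
    linarith
  exact le_of_mul_le_mul_left h4 h3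

private lemma os_num4 (L : ℕ) (a b : ℝ) (ha : 0 ≤ a)
    (hab : b ≤ Real.exp ((L : ℝ) + 1 / 100) * a) : b ≤ 4 ^ (L + 1) * a := by
  refine hab.trans (mul_le_mul_of_nonneg_right ?_ ha)
  rw [Real.exp_add]
  have h1 := os_three_pow L
  have h2 := os_exp_hundredth
  have h3 : (3 : ℝ) ^ L ≤ 4 ^ L := pow_le_pow_left₀ (by norm_num) (by norm_num) _
  rw [pow_succ]
  exact mul_le_mul (h1.trans h3) (h2.trans (by norm_num)) (Real.exp_pos _).le (by positivity)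

private lemma os_num5 (L : ℕ) (hL : 1 ≤ L) (a b : ℝ) (ha : 0 ≤ a)
    (hab : b ≤ Real.exp ((L : ℝ) + 1 / 100) * a) : b ≤ 3 ^ (400 * L) * a := by
  refine hab.trans (mul_le_mul_of_nonneg_right ?_ ha)
  rw [Real.exp_add]
  have h1 := os_three_pow L
  have h2 := os_exp_hundredth
  calc Real.exp (L : ℝ) * Real.exp (1 / 100) ≤ 3 ^ L * 3 :=
        mul_le_mul h1 (h2.trans (by norm_num)) (Real.exp_pos _).le (by positivity)
    _ = 3 ^ (L + 1) := by rw [pow_succ]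
    _ ≤ _ := pow_le_pow_right₀ (by norm_num) (by omega)

/-- the density increment from a pair `A`, `C` without solutions to `a + b = 2c` -/
private lemma core_step (hM : Odd M) (Γ : Finset (ZMod M)) (D L : ℕ) (hD : 1 ≤ D) (hL : 1 ≤ L)
    (hΓ : Γ.card ≤ D) (ρ₁ σ₁ : ℝ) (hρ₁ : 0 < ρ₁) (hρ₁1 : ρ₁ ≤ 1)
    (hσ₁l : ρ₁ / (1600000000 * D) / 4 ≤ σ₁) (hσ₁u : σ₁ ≤ ρ₁ / (1600000000 * D) / 2)
    (A C : Finset (ZMod M)) (α₁ : ℝ) (hα₁ : Real.exp (-((L : ℝ) + 1 / 100)) ≤ α₁)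
    (hA : A ⊆ Bohr Γ ρ₁) (hC : C ⊆ Bohr Γ σ₁)
    (hAd : α₁ * (Bohr Γ (ρ₁ + ρ₁ / (1600000000 * D))).card ≤ A.card)
    (hCd : α₁ * (Bohr Γ (σ₁ + σ₁ / (1600000000 * D))).card ≤ C.card)
    (hno : ∀ a ∈ A, ∀ b ∈ A, ∀ c ∈ C, a + b = c + c → a = b)
    (hbig : 3 * Real.exp (2 * L) ≤ (Bohr Γ (ρ₁ + ρ₁ / (1600000000 * D))).card) :
    ∃ (Γ' : Finset (ZMod M)) (ρ' : ℝ) (z : ZMod M), Γ'.card ≤ D + 10 ^ 17 * L ^ 4 ∧
      ρ₁ / (10 ^ 67 * (D : ℝ) ^ 5 * (L : ℝ) ^ 4) ≤ ρ' ∧ ρ' ≤ 1 ∧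
      Reg Γ' (D + 10 ^ 17 * L ^ 4) ρ' ∧
      (197 / 200) * (33 / 32) * α₁ * (Bohr Γ' ρ').card ≤ hit A (Bohr Γ' ρ') z := by
  have hDr : (1 : ℝ) ≤ D := by exact_mod_cast hD
  have hLr : (1 : ℝ) ≤ L := by exact_mod_cast hL
  have hD0 : (0 : ℝ) < D := by linarith
  have hL0 : (0 : ℝ) < L := by linarith
  set E : ℝ := 1600000000 with hE
  have hE0 : 0 < E := by norm_num [hE]
  have hED : 0 < E * D := mul_pos hE0 hD0
  have hED1 : 1 ≤ E * D := by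
    have : 1 ≤ E := by norm_num [hE]
    nlinarith
  set σ := ρ₁ / (E * D) with hσ
  have hσ0 : 0 < σ := div_pos hρ₁ hED
  have hσ₁0 : 0 < σ₁ := by linarith
  have hα₁0 : 0 < α₁ := lt_of_lt_of_le (Real.exp_pos _) hα₁
  set Bp := Bohr Γ (ρ₁ + σ) with hBp
  set Bs := Bohr Γ σ with hBs
  have hBpc : (0 : ℝ) < Bp.card := os_Bohr_card_pos Γ (by positivity)
  have hAc : (0 : ℝ) < A.card := lt_of_lt_of_le (mul_pos hα₁0 hBpc) hAd
  have hCc : (0 : ℝ) < C.card :=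
    lt_of_lt_of_le (mul_pos hα₁0 (os_Bohr_card_pos Γ (by positivity))) hCd
  have hAne : A.Nonempty := by
    rw [← Finset.card_pos]
    exact_mod_cast hAc
  have hCne : C.Nonempty := by
    rw [← Finset.card_pos]
    exact_mod_cast hCc
  -- the set `B2`
  obtain ⟨σ₂, hσ₂l, hσ₂u, hσ₂reg⟩ := exists_regular (half Γ) hD ((card_half_le Γ).trans hΓ)
    (ρ := σ₁ / (2 * (E * D))) (by positivity)
  have hσ₂0 : 0 < σ₂ := lt_of_lt_of_le (by positivity) hσ₂l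
  set B2 := Bohr (half Γ) σ₂ with hB2
  set Dp := Bohr (half Γ) (σ₁ + 2 * σ₂) with hDp
  have h2σ₂ : 2 * σ₂ ≤ σ₁ / (E * D) := by
    have := mul_le_mul_of_nonneg_left hσ₂u (by norm_num : (0 : ℝ) ≤ 2)
    refine this.trans (le_of_eq ?_)
    field_simp
  have hσ₁ED : σ₁ / (E * D) ≤ σ₁ := div_le_self hσ₁0.le hED1
  have hab := os_num1 L α₁ A.card Bp.card hα₁ hAd hBpc
  have hDpc : (Dp.card : ℝ) ≤ Real.exp ((L : ℝ) + 1 / 100) * C.card := by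
    refine os_num1 L α₁ C.card Dp.card hα₁ ?_ (os_Bohr_card_pos _ (by positivity))
    refine le_trans ?_ hCd
    refine mul_le_mul_of_nonneg_left ?_ hα₁0.le
    rw [hDp, card_Bohr_half hM]
    exact_mod_cast Finset.card_le_card (Bohr_mono (by linarith))
  obtain ⟨θ, A', hθ, hA'B, hA'ne, hA'card, hA'bad, hA'sum⟩ := core_sift A C Bp Bs B2 Dp L hL
    (add_self_injective hM) hAne hCne ⟨0, zero_mem_Bohr hσ₂0.le⟩
    (hA.trans (Bohr_mono (by linarith)))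
    (fun x hx a ha => add_mem_Bohr (hA ha) hx)
    (fun x hx a ha => sub_mem_Bohr (hA ha) hx)
    (by
      intro c hc a ha
      have := sub_mem_Bohr (add_mem_Bohr (hC hc) (hC hc)) (hA ha)
      refine Bohr_mono ?_ this
      linarith)
    (by
      intro b hb b' hb'
      have := sub_mem_Bohr (Bohr_half_subset hM Γ σ₂ hb) (Bohr_half_subset hM Γ σ₂ hb')
      refine Bohr_mono ?_ this
      linarith)
    (by
      intro c hc b hb b' hb'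
      have := sub_mem_Bohr (add_mem_Bohr (add_self_mem_Bohr_half hM (hC hc)) hb') hb
      refine Bohr_mono ?_ this
      linarith)
    hno (os_num3 L _ _ hab hBpc hbig) (os_num4 L _ _ hCc.le hDpc)
    (os_num5 L hL _ _ hAc.le hab)
    (fun x => (Bp.card : ℝ) * (cc A x) / (A.card : ℝ) ^ 2) (fun _ => rfl)
  have hσ₂1 : σ₂ ≤ 1 := by
    have h1 : σ ≤ ρ₁ := div_le_self hρ₁.le hED1
    linarith
  have hA'size := os_num2 L hL _ _ _ _ hab hBpc (Nat.cast_nonneg _) hA'card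
  classical
  set S : Finset (ZMod M) := Finset.univ.filter (fun x =>
    θ ≤ (Bp.card : ℝ) * (cc A x) / (A.card : ℝ) ^ 2) with hS
  obtain ⟨T, Γ', ρ', hTne, hΓ', hρ'l, hρ'0, hρ'1, hρ'reg, hTap, hTspec⟩ := os_spec (half Γ) D L
    hD hL ((card_half_le Γ).trans hΓ) σ₂ hσ₂0 hσ₂1 hσ₂reg A' S hA'ne hA'B hA'size
  have hθ0 : 0 < θ := by linarith
  obtain ⟨z, hz⟩ := fourier_finish A A' T (Bohr Γ' ρ') S 12 (Bp.card : ℝ) θ (1 / 200)
    (1 / 5000000) (9600 * θ) hAne hA'ne hTne ⟨0, zero_mem_Bohr hρ'0.le⟩ hBpc hθ0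
    (by norm_num) (by norm_num) (by positivity)
    (fun x => (Bp.card : ℝ) * (cc A x) / (A.card : ℝ) ^ 2) (fun _ => rfl)
    (fun x => by simp [hS]) hTap hA'bad hA'sum hTspec
    (by norm_num; linarith)
  refine ⟨Γ', ρ', z, hΓ', ?_, hρ'1, hρ'reg, ?_⟩
  · refine le_trans ?_ hρ'l
    have f1 : ρ₁ / (E * D) / 4 / (2 * (E * D)) / 2 ≤ σ₂ := by
      refine le_trans ?_ hσ₂l
      gcongr
    have f2 : ρ₁ / (16 * E ^ 2 * (D : ℝ) ^ 2) ≤ σ₂ := by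
      refine le_trans (le_of_eq ?_) f1
      field_simp
      ring
    have f3 : ρ₁ / (16 * E ^ 2 * (D : ℝ) ^ 2) / (10 ^ 47 * (D : ℝ) ^ 3 * (L : ℝ) ^ 4) ≤
        σ₂ / (10 ^ 47 * (D : ℝ) ^ 3 * (L : ℝ) ^ 4) := by
      gcongr
    refine le_trans ?_ f3
    have f4 : ρ₁ / (16 * E ^ 2 * (D : ℝ) ^ 2) / (10 ^ 47 * (D : ℝ) ^ 3 * (L : ℝ) ^ 4) =
        ρ₁ / ((16 * E ^ 2 * 10 ^ 47) * (D : ℝ) ^ 5 * (L : ℝ) ^ 4) := by
      field_simp
    rw [f4]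
    have f5 : 16 * E ^ 2 * 10 ^ 47 ≤ 10 ^ 67 := by
      rw [hE]
      norm_num
    have f6 : 0 < 16 * E ^ 2 * 10 ^ 47 := by positivity
    gcongr
  · refine le_trans ?_ hz
    refine mul_le_mul_of_nonneg_right ?_ (Nat.cast_nonneg _)
    rw [le_div_iff₀ hBpc]
    calc (197 / 200) * (33 / 32) * α₁ * (Bp.card : ℝ) =
          (197 / 200) * (33 / 32) * (α₁ * (Bp.card : ℝ)) := by ring
      _ ≤ (197 / 200) * (33 / 32) * A.card := by
          refine mul_le_mul_of_nonneg_left hAd (by norm_num)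
      _ ≤ (1 - 3 * (1 / 200)) * θ * (A.card : ℝ) := by
          refine mul_le_mul_of_nonneg_right ?_ hAc.le
          linarith


private lemma os_alpha {L α : ℝ} (hα : Real.exp (-L) ≤ α) :
    Real.exp (-(L + 1 / 100)) ≤
      (1 - 2 * (1 / 100000000) - 1 / 200) * α / (1 + 1 / 100000000) := by
  have h1 : Real.exp (-(L + 1 / 100)) = Real.exp (-L) * Real.exp (-(1 / 100)) := by
    rw [← Real.exp_add]
    congr 1
    ring
  have h2 : Real.exp (-(1 / 100) : ℝ) ≤ 100 / 101 := by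
    rw [Real.exp_neg, inv_le_comm₀ (Real.exp_pos _) (by norm_num)]
    have := Real.add_one_le_exp (1 / 100 : ℝ)
    norm_num at this ⊢
    linarith
  have h3 : 0 < Real.exp (-L) := Real.exp_pos _
  have h4 : 0 < α := h3.trans_le hα
  rw [h1, le_div_iff₀ (by norm_num)]
  have h5 : Real.exp (-L) * Real.exp (-(1 / 100)) ≤ α * (100 / 101) :=
    mul_le_mul hα h2 (Real.exp_pos _).le h4.le
  nlinarith

theorem one_step (hM : Odd M) (A₀ : Finset (ZMod M))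
    (hno : ∀ a ∈ A₀, ∀ b ∈ A₀, ∀ c ∈ A₀, a + b = c + c → a = b)
    (Γ : Finset (ZMod M)) (D L : ℕ) (hD : 1 ≤ D) (hL : 1 ≤ L) (hΓ : Γ.card ≤ D)
    (ρ α : ℝ) (hρ : 0 < ρ) (hρ1 : ρ ≤ 1) (hα : Real.exp (-(L : ℝ)) ≤ α)
    (hreg : Reg Γ D ρ) (x₀ : ZMod M)
    (hx₀ : α * (Bohr Γ ρ).card ≤ hit A₀ (Bohr Γ ρ) x₀)
    (hbig : 3 * Real.exp (2 * L) ≤ (ρ / (6400000000 * D)) ^ D * M) :
    ∃ (Γ' : Finset (ZMod M)) (ρ' : ℝ) (x' : ZMod M), Γ'.card ≤ D + 10 ^ 17 * L ^ 4 ∧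
      ρ / (10 ^ 77 * D ^ 6 * L ^ 4) ≤ ρ' ∧ ρ' ≤ 1 ∧ Reg Γ' (D + 10 ^ 17 * L ^ 4) ρ' ∧
      (1 + 1 / 200) * α * (Bohr Γ' ρ').card ≤ hit A₀ (Bohr Γ' ρ') x' := by
  have hDr : (1 : ℝ) ≤ D := by exact_mod_cast hD
  have hLr : (1 : ℝ) ≤ L := by exact_mod_cast hL
  have hD0 : (0 : ℝ) < D := by linarith
  have hL0 : (0 : ℝ) < L := by linarith
  have hL4 : (1 : ℝ) ≤ (L : ℝ) ^ 4 := one_le_pow₀ hLr
  have hα0 : 0 < α := lt_of_lt_of_le (Real.exp_pos _) hα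
  have hED : (0 : ℝ) < 1600000000 * (D : ℝ) := by positivity
  have hED1 : (1 : ℝ) ≤ 1600000000 * (D : ℝ) := by nlinarith
  obtain ⟨ρ₁, hρ₁l, hρ₁u, hρ₁reg⟩ := exists_regular Γ hD hΓ
    (ρ := ρ / (1600000000 * D)) (by positivity)
  have hρ₁0 : 0 < ρ₁ := lt_of_lt_of_le (by positivity) hρ₁l
  have hρ₁ρ : ρ₁ ≤ ρ := hρ₁u.trans (div_le_self hρ.le hED1)
  obtain ⟨σ₁, hσ₁l, hσ₁u, hσ₁reg⟩ := exists_regular Γ hD hΓ
    (ρ := ρ₁ / (1600000000 * D) / 2) (by positivity)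
  have hσ₁0 : 0 < σ₁ := lt_of_lt_of_le (by positivity) hσ₁l
  have hσ₁ρ₁ : σ₁ ≤ ρ₁ := by
    have := div_le_self hρ₁0.le hED1
    linarith
  have hrad1 : ρ / (10 ^ 77 * (D : ℝ) ^ 6 * (L : ℝ) ^ 4) ≤ ρ₁ := by
    refine le_trans ?_ hρ₁l
    rw [div_div]
    have hD6 : (D : ℝ) ≤ (D : ℝ) ^ 6 := le_self_pow₀ hDr (by norm_num)
    have : 1600000000 * (D : ℝ) * 2 ≤ 10 ^ 77 * (D : ℝ) ^ 6 * (L : ℝ) ^ 4 := by
      calc 1600000000 * (D : ℝ) * 2 ≤ 10 ^ 77 * (D : ℝ) ^ 6 * 1 := by nlinarith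
        _ ≤ _ := by gcongr
    gcongr
  have hrad2 : ρ / (10 ^ 77 * (D : ℝ) ^ 6 * (L : ℝ) ^ 4) ≤ σ₁ := by
    refine le_trans ?_ hσ₁l
    have e1 : ρ / (1600000000 * (D : ℝ)) / 2 / (1600000000 * D) / 2 / 2 ≤
        ρ₁ / (1600000000 * (D : ℝ)) / 2 / 2 := by
      gcongr
    refine le_trans ?_ e1
    have e2 : ρ / (1600000000 * (D : ℝ)) / 2 / (1600000000 * D) / 2 / 2 =
        ρ / (8 * 1600000000 ^ 2 * (D : ℝ) ^ 2) := by
      field_simp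
      norm_num
    rw [e2]
    have hD6 : (D : ℝ) ^ 2 ≤ (D : ℝ) ^ 6 := pow_le_pow_right₀ hDr (by norm_num)
    have : 8 * 1600000000 ^ 2 * (D : ℝ) ^ 2 ≤ 10 ^ 77 * (D : ℝ) ^ 6 * (L : ℝ) ^ 4 := by
      calc 8 * 1600000000 ^ 2 * (D : ℝ) ^ 2 ≤ 10 ^ 77 * (D : ℝ) ^ 6 * 1 := by nlinarith
        _ ≤ _ := by gcongr
    gcongr
  -- case 1
  by_cases hc1 : ∃ x, (1 + 1 / 200) * α * (Bohr Γ ρ₁).card < hit A₀ (Bohr Γ ρ₁) x
  · obtain ⟨x, hx⟩ := hc1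
    exact ⟨Γ, ρ₁, x, by omega, hrad1, hρ₁ρ.trans hρ1,
      os_Reg_mono hD (Nat.le_add_right _ _) hρ₁0.le hρ₁reg, hx.le⟩
  push Not at hc1
  -- case 2
  by_cases hc2 : ∃ x, (1 + 1 / 200) * α * (Bohr Γ σ₁).card < hit A₀ (Bohr Γ σ₁) x
  · obtain ⟨x, hx⟩ := hc2
    exact ⟨Γ, σ₁, x, by omega, hrad2, (hσ₁ρ₁.trans hρ₁ρ).trans hρ1,
      os_Reg_mono hD (Nat.le_add_right _ _) hσ₁0.le hσ₁reg, hx.le⟩
  push Not at hc2
  -- case 3
  obtain ⟨x, hx', hx1⟩ := exists_common A₀ (Bohr Γ ρ) (Bohr Γ (ρ + ρ / (1600000000 * D)))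
    (Bohr Γ ρ₁) (Bohr Γ σ₁) x₀ α (1 / 100000000) (1 / 200) hα0.le (by norm_num) (by norm_num)
    ⟨0, zero_mem_Bohr hρ.le⟩ ⟨0, zero_mem_Bohr hρ₁0.le⟩ ⟨0, zero_mem_Bohr hσ₁0.le⟩
    (by
      intro b hb y hy
      refine Bohr_mono ?_ (sub_mem_Bohr hb hy)
      linarith)
    (by
      intro b hb y hy
      refine Bohr_mono ?_ (sub_mem_Bohr hb hy)
      linarith)
    hreg hx₀ hc1 hc2
  rw [os_hit_eq] at hx' hx1
  set A := (Bohr Γ ρ₁).filter (fun b => b + x ∈ A₀) with hA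
  set C := (Bohr Γ σ₁).filter (fun b => b + x ∈ A₀) with hC
  set α₁ : ℝ := (1 - 2 * (1 / 100000000) - 1 / 200) * α / (1 + 1 / 100000000) with hα₁
  have hα₁' : Real.exp (-((L : ℝ) + 1 / 100)) ≤ α₁ := os_alpha hα
  have hα₁0 : 0 < α₁ := lt_of_lt_of_le (Real.exp_pos _) hα₁'
  have hden : ∀ (u v w : ℝ), u ≤ (1 + 1 / 100000000) * v →
      (1 - 2 * (1 / 100000000) - 1 / 200) * α * v ≤ w → α₁ * u ≤ w := by
    intro u v w h1 h2
    refine le_trans (mul_le_mul_of_nonneg_left h1 hα₁0.le) (le_trans (le_of_eq ?_) h2)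
    rw [hα₁]
    ring
  obtain ⟨Γ', ρ', z, hΓ', hρ'l, hρ'1, hρ'reg, hz⟩ := core_step hM Γ D L hD hL hΓ ρ₁ σ₁ hρ₁0
    (hρ₁ρ.trans hρ1) (by linarith) hσ₁u A C α₁ hα₁' (Finset.filter_subset _ _)
    (Finset.filter_subset _ _) (hden _ _ _ hρ₁reg hx') (hden _ _ _ hσ₁reg hx1)
    (by
      intro a ha b hb c hc habc
      rw [hA, Finset.mem_filter] at ha hb
      rw [hC, Finset.mem_filter] at hc
      have := hno _ ha.2 _ hb.2 _ hc.2 (by linear_combination habc)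
      exact add_right_cancel this)
    (by
      refine hbig.trans ?_
      have e1 := card_Bohr_lower Γ hρ₁0 (hρ₁ρ.trans hρ1)
      have e2 : ((Bohr Γ ρ₁).card : ℝ) ≤ (Bohr Γ (ρ₁ + ρ₁ / (1600000000 * (D : ℝ)))).card := by
        have e6 : ρ₁ ≤ ρ₁ + ρ₁ / (1600000000 * (D : ℝ)) := by
          have : 0 ≤ ρ₁ / (1600000000 * (D : ℝ)) := by positivity
          linarith
        have e7 := Finset.card_le_card (Bohr_mono (Γ := Γ) e6)
        exact_mod_cast e7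
      refine le_trans (le_trans (mul_le_mul_of_nonneg_right ?_ (Nat.cast_nonneg _)) e1) e2
      have e3 : ρ / (6400000000 * D) ≤ ρ₁ / 2 := by
        have : ρ / (6400000000 * (D : ℝ)) = ρ / (1600000000 * D) / 2 / 2 := by
          field_simp
          norm_num
        rw [this]
        linarith
      have e4 : 0 ≤ ρ / (6400000000 * (D : ℝ)) := by positivity
      have e5 : ρ / (6400000000 * (D : ℝ)) ≤ 1 := by
        refine e3.trans ?_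
        linarith
      exact (pow_le_pow_of_le_one e4 e5 hΓ).trans (pow_le_pow_left₀ e4 e3 _))
  refine ⟨Γ', ρ', z + x, hΓ', ?_, hρ'1, hρ'reg, ?_⟩
  · refine le_trans ?_ hρ'l
    have f1 : ρ / (1600000000 * (D : ℝ)) / 2 / (10 ^ 67 * (D : ℝ) ^ 5 * (L : ℝ) ^ 4) ≤
        ρ₁ / (10 ^ 67 * (D : ℝ) ^ 5 * (L : ℝ) ^ 4) := by
      gcongr
    refine le_trans ?_ f1
    have f2 : ρ / (1600000000 * (D : ℝ)) / 2 / (10 ^ 67 * (D : ℝ) ^ 5 * (L : ℝ) ^ 4) =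
        ρ / (1600000000 * 2 * 10 ^ 67 * (D : ℝ) ^ 6 * (L : ℝ) ^ 4) := by
      field_simp
    rw [f2]
    gcongr
    norm_num
  · have g1 : (hit A (Bohr Γ' ρ') z : ℝ) ≤ hit A₀ (Bohr Γ' ρ') (z + x) := by
      exact_mod_cast os_hit_mono A A₀ _ x z (fun a ha => by
        rw [hA, Finset.mem_filter] at ha
        exact ha.2)
    refine le_trans (mul_le_mul_of_nonneg_right ?_ (Nat.cast_nonneg _)) (hz.trans g1)
    rw [hα₁]
    have : (197 / 200 : ℝ) * (33 / 32) *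
        ((1 - 2 * (1 / 100000000) - 1 / 200) * α / (1 + 1 / 100000000)) =
        ((197 / 200 : ℝ) * (33 / 32) *
        ((1 - 2 * (1 / 100000000) - 1 / 200) / (1 + 1 / 100000000))) * α := by
      ring
    rw [this]
    refine mul_le_mul_of_nonneg_right ?_ hα0.le
    norm_num

end Vale.Agent.P057.KM
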