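import Vale.Agent.P057.KM.BohrBasic

namespace Vale.Agent.P057.KM

open Finset

variable {M : ℕ} [NeZero M]

/-- one factor of the Riesz product -/
noncomputable def rfac (c s : ℝ) (ω : ZMod M → ℂ) (γ x : ZMod M) : ℝ :=
  c + s * (ω γ * ZMod.stdAddChar (γ * x)).re

theorem norm_char (x : ZMod M) : ‖(ZMod.stdAddChar x : ℂ)‖ = 1 := by
  rw [ZMod.stdAddChar_apply]
  exact Circle.norm_coe _

theorem conj_char (x : ZMod M) :
    (starRingEnd ℂ) (ZMod.stdAddChar x : ℂ) = ZMod.stdAddChar (-x) := by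
  rw [AddChar.map_neg_eq_inv, ZMod.stdAddChar_apply, ← Circle.coe_inv, Circle.coe_inv_eq_conj]

theorem rfac_eq (c s : ℝ) (ω : ZMod M → ℂ) (γ x : ZMod M) :
    ((rfac c s ω γ x : ℝ) : ℂ) = c + (s / 2) * ω γ * ZMod.stdAddChar (γ * x) +
      (s / 2) * (starRingEnd ℂ) (ω γ) * ZMod.stdAddChar (-γ * x) := by
  have h : (((ω γ * ZMod.stdAddChar (γ * x)).re : ℝ) : ℂ) =
      (ω γ * ZMod.stdAddChar (γ * x) +
        (starRingEnd ℂ) (ω γ) * ZMod.stdAddChar (-γ * x)) / 2 := by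
    rw [Complex.re_eq_add_conj, map_mul (starRingEnd ℂ), conj_char, neg_mul]
  unfold rfac
  push_cast
  rw [h]
  ring

theorem riesz_aux1 {ι : Type*} (Ω : Finset ι) (φ : ι → ZMod M) (ω : ZMod M → ℂ)
    (hω : ∀ γ, ‖ω γ‖ ≤ 1) (c s κ : ℝ) (hc : 0 ≤ c) (hs : 0 ≤ s) (hκ : 0 ≤ κ)
    (Λ : Finset (ZMod M)) : ∀ η₀ : ZMod M,
    (∀ m : ZMod M → ℤ, (∀ γ ∈ Λ, |m γ| ≤ 1) →
      ‖∑ w ∈ Ω, (ZMod.stdAddChar ((η₀ + ∑ γ ∈ Λ, (m γ : ZMod M) * γ) * φ w) : ℂ)‖ ≤ κ) →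
    ‖∑ w ∈ Ω, (ZMod.stdAddChar (η₀ * φ w) : ℂ) * ∏ γ ∈ Λ, ((rfac c s ω γ (φ w) : ℝ) : ℂ)‖ ≤
      κ * (c + s) ^ Λ.card := by
  induction Λ using Finset.induction_on with
  | empty =>
    intro η₀ h
    have := h (fun _ => 0) (by simp)
    simpa using this
  | insert γ₀ Λ hγ₀ ih =>
    intro η₀ h
    have hstep : ∀ (δ : ℤ), |δ| ≤ 1 → ∀ m : ZMod M → ℤ, (∀ γ ∈ Λ, |m γ| ≤ 1) →
        ‖∑ w ∈ Ω, (ZMod.stdAddChar (((η₀ + (δ : ZMod M) * γ₀) +
          ∑ γ ∈ Λ, (m γ : ZMod M) * γ) * φ w) : ℂ)‖ ≤ κ := by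
      intro δ hδ m hm
      have h1 := h (Function.update m γ₀ δ) (by
        intro γ hγ
        rw [Finset.mem_insert] at hγ
        rcases hγ with rfl | hγ
        · rw [Function.update_self]; exact hδ
        · have hne : γ ≠ γ₀ := fun e => hγ₀ (e ▸ hγ)
          rw [Function.update_of_ne hne]; exact hm γ hγ)
      rw [Finset.sum_insert hγ₀, Function.update_self] at h1
      have e : ∑ γ ∈ Λ, ((Function.update m γ₀ δ γ : ℤ) : ZMod M) * γ =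
          ∑ γ ∈ Λ, (m γ : ZMod M) * γ := by
        refine Finset.sum_congr rfl fun γ hγ => ?_
        have hne : γ ≠ γ₀ := fun e => hγ₀ (e ▸ hγ)
        rw [Function.update_of_ne hne]
      rw [e, ← add_assoc] at h1
      exact h1
    have i0 := ih η₀ (by
      intro m hm
      have := hstep 0 (by norm_num) m hm
      simpa using this)
    have i1 := ih (η₀ + γ₀) (by
      intro m hm
      have := hstep 1 (by norm_num) m hm
      simpa using this)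
    have i2 := ih (η₀ - γ₀) (by
      intro m hm
      have := hstep (-1) (by norm_num) m hm
      rw [sub_eq_add_neg]
      simpa using this)
    have hexp : ∑ w ∈ Ω, (ZMod.stdAddChar (η₀ * φ w) : ℂ) *
        ∏ γ ∈ insert γ₀ Λ, ((rfac c s ω γ (φ w) : ℝ) : ℂ) =
        c * (∑ w ∈ Ω, (ZMod.stdAddChar (η₀ * φ w) : ℂ) *
          ∏ γ ∈ Λ, ((rfac c s ω γ (φ w) : ℝ) : ℂ)) +
        (s / 2) * ω γ₀ * (∑ w ∈ Ω, (ZMod.stdAddChar ((η₀ + γ₀) * φ w) : ℂ) *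
          ∏ γ ∈ Λ, ((rfac c s ω γ (φ w) : ℝ) : ℂ)) +
        (s / 2) * (starRingEnd ℂ) (ω γ₀) * (∑ w ∈ Ω,
          (ZMod.stdAddChar ((η₀ - γ₀) * φ w) : ℂ) *
          ∏ γ ∈ Λ, ((rfac c s ω γ (φ w) : ℝ) : ℂ)) := by
      rw [Finset.mul_sum, Finset.mul_sum, Finset.mul_sum, ← Finset.sum_add_distrib,
        ← Finset.sum_add_distrib]
      refine Finset.sum_congr rfl fun w _ => ?_
      rw [Finset.prod_insert hγ₀, rfac_eq]
      have a1 : (ZMod.stdAddChar ((η₀ + γ₀) * φ w) : ℂ) =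
          ZMod.stdAddChar (η₀ * φ w) * ZMod.stdAddChar (γ₀ * φ w) := by
        rw [add_mul, AddChar.map_add_eq_mul]
      have a2 : (ZMod.stdAddChar ((η₀ - γ₀) * φ w) : ℂ) =
          ZMod.stdAddChar (η₀ * φ w) * ZMod.stdAddChar (-γ₀ * φ w) := by
        rw [sub_eq_add_neg, add_mul, AddChar.map_add_eq_mul]
      rw [a1, a2]
      ring
    rw [hexp, Finset.card_insert_of_notMem hγ₀]
    have n1 : ‖((s : ℂ) / 2) * ω γ₀‖ ≤ s / 2 := by
      rw [norm_mul]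
      have : ‖(s : ℂ) / 2‖ = s / 2 := by
        rw [norm_div, Complex.norm_real, Real.norm_of_nonneg hs, Complex.norm_ofNat]
      rw [this]
      exact mul_le_of_le_one_right (by linarith) (hω γ₀)
    have n2 : ‖((s : ℂ) / 2) * (starRingEnd ℂ) (ω γ₀)‖ ≤ s / 2 := by
      rw [norm_mul, RCLike.norm_conj, ← norm_mul]
      exact n1
    have n0 : ‖(c : ℂ)‖ = c := by rw [Complex.norm_real, Real.norm_of_nonneg hc]
    have hK : 0 ≤ κ * (c + s) ^ Λ.card := by positivity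
    refine (norm_add_le _ _).trans ?_
    refine (add_le_add_left (norm_add_le _ _) _).trans ?_
    rw [norm_mul, norm_mul (((s : ℂ) / 2) * ω γ₀), norm_mul (((s : ℂ) / 2) * _), n0]
    calc c * _ + _ * _ + _ * _ ≤ c * (κ * (c + s) ^ Λ.card) + (s / 2) * (κ * (c + s) ^ Λ.card) +
          (s / 2) * (κ * (c + s) ^ Λ.card) := by
            refine add_le_add (add_le_add ?_ ?_) ?_
            · exact mul_le_mul_of_nonneg_left i0 hc
            · exact mul_le_mul n1 i1 (norm_nonneg _) (by linarith)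
            · exact mul_le_mul n2 i2 (norm_nonneg _) (by linarith)
      _ = κ * (c + s) ^ (Λ.card + 1) := by ring

theorem riesz_aux2 {ι : Type*} (Ω : Finset ι) (φ : ι → ZMod M) (ω : ZMod M → ℂ)
    (hω : ∀ γ, ‖ω γ‖ ≤ 1) (c s κ K : ℝ) (hc : 0 ≤ c) (hs : 0 ≤ s) (hκ : 0 ≤ κ)
    (hK : (Ω.card : ℝ) ≤ K) (Λ : Finset (ZMod M)) :
    (∀ m : ZMod M → ℤ, (∀ γ ∈ Λ, |m γ| ≤ 1) → (∃ γ ∈ Λ, m γ ≠ 0) →
      ‖∑ w ∈ Ω, (ZMod.stdAddChar ((∑ γ ∈ Λ, (m γ : ZMod M) * γ) * φ w) : ℂ)‖ ≤ κ) →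
    ‖∑ w ∈ Ω, ∏ γ ∈ Λ, ((rfac c s ω γ (φ w) : ℝ) : ℂ)‖ ≤
      K * c ^ Λ.card + κ * (c + s) ^ Λ.card := by
  induction Λ using Finset.induction_on with
  | empty =>
    intro _
    simp only [Finset.prod_empty, Finset.sum_const, nsmul_eq_mul, mul_one, Finset.card_empty,
      pow_zero]
    rw [Complex.norm_natCast]
    linarith
  | insert γ₀ Λ hγ₀ ih =>
    intro h
    have hupd : ∀ (δ : ℤ) (m : ZMod M → ℤ),
        ∑ γ ∈ insert γ₀ Λ, ((Function.update m γ₀ δ γ : ℤ) : ZMod M) * γ =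
          (δ : ZMod M) * γ₀ + ∑ γ ∈ Λ, (m γ : ZMod M) * γ := by
      intro δ m
      rw [Finset.sum_insert hγ₀, Function.update_self]
      congr 1
      refine Finset.sum_congr rfl fun γ hγ => ?_
      have hne : γ ≠ γ₀ := fun e => hγ₀ (e ▸ hγ)
      rw [Function.update_of_ne hne]
    have hle : ∀ (δ : ℤ) (m : ZMod M → ℤ), |δ| ≤ 1 → (∀ γ ∈ Λ, |m γ| ≤ 1) →
        ∀ γ ∈ insert γ₀ Λ, |Function.update m γ₀ δ γ| ≤ 1 := by
      intro δ m hδ hm γ hγ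
      rw [Finset.mem_insert] at hγ
      rcases hγ with rfl | hγ
      · rw [Function.update_self]; exact hδ
      · have hne : γ ≠ γ₀ := fun e => hγ₀ (e ▸ hγ)
        rw [Function.update_of_ne hne]; exact hm γ hγ
    have i0 := ih (by
      intro m hm hex
      obtain ⟨γ, hγ, hmγ⟩ := hex
      have h1 := h (Function.update m γ₀ 0) (hle 0 m (by norm_num) hm)
        ⟨γ, Finset.mem_insert_of_mem hγ, by
          have hne : γ ≠ γ₀ := fun e => hγ₀ (e ▸ hγ)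
          rw [Function.update_of_ne hne]; exact hmγ⟩
      rw [hupd] at h1
      simpa using h1)
    have hpm : ∀ δ : ℤ, |δ| ≤ 1 → δ ≠ 0 → ‖∑ w ∈ Ω, (ZMod.stdAddChar (((δ : ZMod M) * γ₀) * φ w) : ℂ) *
        ∏ γ ∈ Λ, ((rfac c s ω γ (φ w) : ℝ) : ℂ)‖ ≤ κ * (c + s) ^ Λ.card := by
      intro δ hδ hδ0
      refine riesz_aux1 Ω φ ω hω c s κ hc hs hκ Λ ((δ : ZMod M) * γ₀) ?_
      intro m hm
      have h1 := h (Function.update m γ₀ δ) (hle δ m hδ hm)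
        ⟨γ₀, Finset.mem_insert_self _ _, by rw [Function.update_self]; exact hδ0⟩
      rw [hupd] at h1
      exact h1
    have i1 := hpm 1 (by norm_num) (by norm_num)
    have i2 := hpm (-1) (by norm_num) (by norm_num)
    have e1 : ((1 : ℤ) : ZMod M) * γ₀ = γ₀ := by push_cast; ring
    have e2 : ((-1 : ℤ) : ZMod M) * γ₀ = -γ₀ := by push_cast; ring
    rw [e1] at i1
    rw [e2] at i2
    have hexp : ∑ w ∈ Ω, ∏ γ ∈ insert γ₀ Λ, ((rfac c s ω γ (φ w) : ℝ) : ℂ) =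
        c * (∑ w ∈ Ω, ∏ γ ∈ Λ, ((rfac c s ω γ (φ w) : ℝ) : ℂ)) +
        (s / 2) * ω γ₀ * (∑ w ∈ Ω, (ZMod.stdAddChar (γ₀ * φ w) : ℂ) *
          ∏ γ ∈ Λ, ((rfac c s ω γ (φ w) : ℝ) : ℂ)) +
        (s / 2) * (starRingEnd ℂ) (ω γ₀) * (∑ w ∈ Ω,
          (ZMod.stdAddChar (-γ₀ * φ w) : ℂ) *
          ∏ γ ∈ Λ, ((rfac c s ω γ (φ w) : ℝ) : ℂ)) := by
      rw [Finset.mul_sum, Finset.mul_sum, Finset.mul_sum, ← Finset.sum_add_distrib,
        ← Finset.sum_add_distrib]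
      refine Finset.sum_congr rfl fun w _ => ?_
      rw [Finset.prod_insert hγ₀, rfac_eq]
      ring
    rw [hexp, Finset.card_insert_of_notMem hγ₀]
    have n1 : ‖((s : ℂ) / 2) * ω γ₀‖ ≤ s / 2 := by
      rw [norm_mul]
      have : ‖(s : ℂ) / 2‖ = s / 2 := by
        rw [norm_div, Complex.norm_real, Real.norm_of_nonneg hs, Complex.norm_ofNat]
      rw [this]
      exact mul_le_of_le_one_right (by linarith) (hω γ₀)
    have n2 : ‖((s : ℂ) / 2) * (starRingEnd ℂ) (ω γ₀)‖ ≤ s / 2 := by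
      rw [norm_mul, RCLike.norm_conj, ← norm_mul]
      exact n1
    have n0 : ‖(c : ℂ)‖ = c := by rw [Complex.norm_real, Real.norm_of_nonneg hc]
    refine (norm_add_le _ _).trans ?_
    refine (add_le_add_left (norm_add_le _ _) _).trans ?_
    rw [norm_mul, norm_mul (((s : ℂ) / 2) * ω γ₀), norm_mul (((s : ℂ) / 2) * _), n0]
    calc c * _ + _ * _ + _ * _ ≤ c * (K * c ^ Λ.card + κ * (c + s) ^ Λ.card) +
          (s / 2) * (κ * (c + s) ^ Λ.card) + (s / 2) * (κ * (c + s) ^ Λ.card) := by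
            refine add_le_add (add_le_add ?_ ?_) ?_
            · exact mul_le_mul_of_nonneg_left i0 hc
            · exact mul_le_mul n1 i1 (norm_nonneg _) (by linarith)
            · exact mul_le_mul n2 i2 (norm_nonneg _) (by linarith)
      _ = K * c ^ (Λ.card + 1) + κ * (c + s) ^ (Λ.card + 1) := by ring

end Vale.Agent.P057.KM
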