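import Vale.Agent.P057.KM.Riesz

namespace Vale.Agent.P057.KM

open Finset

variable {M : ℕ} [NeZero M]

theorem norm_ft_le (T : Finset (ZMod M)) (γ : ZMod M) : ‖ft T γ‖ ≤ T.card := by
  unfold ft
  refine (norm_sum_le _ _).trans ?_
  simp_rw [norm_char]
  simp

theorem char_sum {N : ℕ} (y : Fin N → ZMod M) :
    (ZMod.stdAddChar (∑ i, y i) : ℂ) = ∏ i, (ZMod.stdAddChar (y i) : ℂ) := by
  induction N with
  | zero => simp
  | succ N ih =>
    rw [Fin.sum_univ_castSucc, Fin.prod_univ_castSucc, AddChar.map_add_eq_mul, ih]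

theorem sum_char_prod (Bp Bs : Finset (ZMod M)) (N : ℕ) (η : ZMod M) :
    ∑ w ∈ Bp ×ˢ Fintype.piFinset (fun _ : Fin N => Bs),
      (ZMod.stdAddChar (η * (w.1 + ∑ i, w.2 i)) : ℂ) = ft Bp η * (ft Bs η) ^ N := by
  rw [Finset.sum_product]
  have h1 : (ft Bs η) ^ N = ∑ y ∈ Fintype.piFinset (fun _ : Fin N => Bs),
      ∏ i, (ZMod.stdAddChar (η * y i) : ℂ) := by
    unfold ft
    rw [Finset.sum_prod_piFinset Bs (fun (_ : Fin N) j => (ZMod.stdAddChar (η * j) : ℂ)),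
      Finset.prod_const, Finset.card_univ, Fintype.card_fin]
  rw [h1]
  unfold ft
  rw [Finset.sum_mul_sum]
  refine Finset.sum_congr rfl fun z _ => Finset.sum_congr rfl fun y _ => ?_
  simp only
  rw [mul_add, AddChar.map_add_eq_mul, Finset.mul_sum, char_sum]

/-- the phase of the Fourier coefficient -/
noncomputable def phase (T : Finset (ZMod M)) (γ : ZMod M) : ℂ :=
  (starRingEnd ℂ) (ft T γ) / ‖ft T γ‖

theorem norm_phase_le (T : Finset (ZMod M)) (γ : ZMod M) : ‖phase T γ‖ ≤ 1 := by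
  unfold phase
  rw [norm_div, RCLike.norm_conj, Complex.norm_real, norm_norm]
  exact div_self_le_one _

theorem sum_phase (T : Finset (ZMod M)) (γ : ZMod M) :
    ∑ x ∈ T, (phase T γ * ZMod.stdAddChar (γ * x)).re = ‖ft T γ‖ := by
  rw [← Complex.re_sum, ← Finset.mul_sum]
  change (phase T γ * ft T γ).re = _
  unfold phase
  rw [div_mul_eq_mul_div, mul_comm ((starRingEnd ℂ) _), Complex.mul_conj, Complex.normSq_eq_norm_sq]
  rcases eq_or_ne (‖ft T γ‖) 0 with h | h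
  · rw [h]; simp
  · rw [← Complex.ofReal_div, Complex.ofReal_re]
    field_simp

theorem rfac_ge_exp (ω : ZMod M → ℂ) (hω : ∀ γ, ‖ω γ‖ ≤ 1) (γ x : ZMod M) (t : ℝ) :
    Real.exp ((ω γ * ZMod.stdAddChar (γ * x)).re * t) ≤
      rfac (Real.cosh t) (Real.sinh t) ω γ x := by
  have h1 : |(ω γ * ZMod.stdAddChar (γ * x)).re| ≤ 1 := by
    refine (Complex.abs_re_le_norm _).trans ?_
    rw [norm_mul, norm_char, mul_one]
    exact hω γ
  have := Real.exp_mul_le_cosh_add_mul_sinh h1 t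
  unfold rfac
  linarith

theorem riesz_bound (T B Bp Bs Λ : Finset (ZMod M)) (τ : ℝ) (hτ : 0 < τ)
    (hTne : T.Nonempty) (hBs : Bs.Nonempty) (hTB : T ⊆ B) (hT : τ * B.card ≤ T.card)
    (hBp : (Bp.card : ℝ) ≤ 2 * B.card)
    (hadd : ∀ x ∈ B, ∀ y : Fin Λ.card → ZMod M, (∀ i, y i ∈ Bs) → x - ∑ i, y i ∈ Bp)
    (hspec : ∀ γ ∈ Λ, (T.card : ℝ) / 2 ≤ ‖ft T γ‖)
    (hdis : ∀ m : ZMod M → ℤ, (∀ γ ∈ Λ, |m γ| ≤ 1) → (∃ γ ∈ Λ, m γ ≠ 0) →
      ‖ft Bs (∑ γ ∈ Λ, (m γ : ZMod M) * γ)‖ ≤ (Bs.card : ℝ) / 2) :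
    (Λ.card : ℝ) ≤ 8 * Real.log (4 / τ) := by
  have hTc : (0 : ℝ) < T.card := by exact_mod_cast hTne.card_pos
  have hBc : (0 : ℝ) < B.card := by exact_mod_cast (hTne.mono hTB).card_pos
  have hBsc : (0 : ℝ) < Bs.card := by exact_mod_cast hBs.card_pos
  set N := Λ.card with hN
  set ω : ZMod M → ℂ := phase T with hω
  have hω1 : ∀ γ, ‖ω γ‖ ≤ 1 := norm_phase_le T
  set c : ℝ := Real.cosh (1 / 2) with hc
  set s : ℝ := Real.sinh (1 / 2) with hs
  have hc0 : 0 ≤ c := (Real.cosh_pos _).le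
  have hs0 : 0 ≤ s := Real.sinh_nonneg_iff.mpr (by norm_num)
  set R : ZMod M → ℝ := fun x => ∏ γ ∈ Λ, rfac c s ω γ x with hR
  set P : ZMod M → ℝ := fun x => ∑ γ ∈ Λ, (ω γ * ZMod.stdAddChar (γ * x)).re with hP
  have hfac0 : ∀ γ x, 0 ≤ rfac c s ω γ x := fun γ x =>
    (Real.exp_pos _).le.trans (rfac_ge_exp ω hω1 γ x (1 / 2))
  have hR0 : ∀ x, 0 ≤ R x := fun x => Finset.prod_nonneg fun γ _ => hfac0 γ x
  have hexpR : ∀ x, Real.exp (P x / 2) ≤ R x := by
    intro x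
    have : P x / 2 = ∑ γ ∈ Λ, (ω γ * ZMod.stdAddChar (γ * x)).re * (1 / 2) := by
      rw [← Finset.sum_mul]; ring
    rw [this, Real.exp_sum]
    exact Finset.prod_le_prod (fun _ _ => (Real.exp_pos _).le)
      fun γ _ => rfac_ge_exp ω hω1 γ x (1 / 2)
  -- lower bound
  have hPsum : (N : ℝ) * (T.card / 2) ≤ ∑ x ∈ T, P x := by
    rw [Finset.sum_comm, hN, ← nsmul_eq_mul, ← Finset.sum_const]
    refine Finset.sum_le_sum fun γ hγ => ?_
    rw [sum_phase]
    exact hspec γ hγ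
  have hlow : (T.card : ℝ) * Real.exp (N / 4) ≤ ∑ x ∈ T, R x := by
    have h1 : ∀ x ∈ T, Real.exp (N / 4) * (1 + (P x / 2 - N / 4)) ≤ R x := by
      intro x _
      refine le_trans ?_ (hexpR x)
      have h2 : Real.exp (P x / 2) = Real.exp (N / 4) * Real.exp (P x / 2 - N / 4) := by
        rw [← Real.exp_add]; congr 1; ring
      rw [h2]
      refine mul_le_mul_of_nonneg_left ?_ (Real.exp_pos _).le
      linarith [Real.add_one_le_exp (P x / 2 - N / 4)]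
    have h3 := Finset.sum_le_sum h1
    rw [← Finset.mul_sum, Finset.sum_add_distrib, Finset.sum_sub_distrib, Finset.sum_const,
      Finset.sum_const, nsmul_eq_mul, nsmul_eq_mul, ← Finset.sum_div] at h3
    refine le_trans ?_ h3
    rw [mul_comm]
    refine mul_le_mul_of_nonneg_left ?_ (Real.exp_pos _).le
    linarith
  have hlow2 : (T.card : ℝ) * Real.exp (N / 4) ≤ ∑ x ∈ B, R x :=
    hlow.trans (Finset.sum_le_sum_of_subset_of_nonneg hTB fun x _ _ => hR0 x)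
  -- compare with the smoothed measure
  set V := Fintype.piFinset (fun _ : Fin N => Bs) with hV
  have hVc : (V.card : ℝ) = (Bs.card : ℝ) ^ N := by
    rw [hV, Fintype.card_piFinset]; simp
  set Ω := Bp ×ˢ V with hΩ
  set φ : ZMod M × (Fin N → ZMod M) → ZMod M := fun w => w.1 + ∑ i, w.2 i with hφ
  have hmid : (Bs.card : ℝ) ^ N * ∑ x ∈ B, R x ≤ ∑ w ∈ Ω, R (φ w) := by
    rw [hΩ, Finset.sum_product_right, ← hVc, ← nsmul_eq_mul, ← Finset.sum_const]
    refine Finset.sum_le_sum fun y hy => ?_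
    rw [hV, Fintype.mem_piFinset] at hy
    have h1 : ∑ x ∈ B, R x = ∑ z ∈ B.image (fun x => x - ∑ i, y i), R (z + ∑ i, y i) := by
      rw [Finset.sum_image (fun a _ b _ hab => sub_left_injective hab)]
      refine Finset.sum_congr rfl fun x _ => ?_
      rw [sub_add_cancel]
    rw [h1]
    refine Finset.sum_le_sum_of_subset_of_nonneg ?_ fun z _ _ => hR0 _
    intro z hz
    rw [Finset.mem_image] at hz
    obtain ⟨x, hx, rfl⟩ := hz
    exact hadd x hx y hy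
  -- upper bound
  set K : ℝ := (Bp.card : ℝ) * (Bs.card : ℝ) ^ N with hK
  have hΩc : (Ω.card : ℝ) ≤ K := by
    rw [hΩ, Finset.card_product, Nat.cast_mul, hVc]
  have hup := riesz_aux2 Ω φ ω hω1 c s (K * (1 / 2) ^ N) K hc0 hs0 (by positivity) hΩc Λ (by
    intro m hm hex
    have h1 := sum_char_prod Bp Bs N (∑ γ ∈ Λ, (m γ : ZMod M) * γ)
    rw [← hV, ← hΩ] at h1
    simp only [hφ]
    rw [h1, norm_mul, norm_pow]
    have h2 := hdis m hm hex
    have h3 := norm_ft_le Bp (∑ γ ∈ Λ, (m γ : ZMod M) * γ)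
    calc ‖ft Bp (∑ γ ∈ Λ, (m γ : ZMod M) * γ)‖ * ‖ft Bs (∑ γ ∈ Λ, (m γ : ZMod M) * γ)‖ ^ N
        ≤ (Bp.card : ℝ) * ((Bs.card : ℝ) / 2) ^ N :=
          mul_le_mul h3 (pow_le_pow_left₀ (norm_nonneg _) h2 _) (by positivity) (by positivity)
      _ = K * (1 / 2) ^ N := by
          rw [hK, div_eq_mul_one_div, mul_pow]; ring)
  have hup2 : ∑ w ∈ Ω, R (φ w) ≤ K * c ^ N + K * (1 / 2) ^ N * (c + s) ^ N := by
    refine le_trans ?_ hup
    have : ((∑ w ∈ Ω, R (φ w) : ℝ) : ℂ) =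
        ∑ w ∈ Ω, ∏ γ ∈ Λ, ((rfac c s ω γ (φ w) : ℝ) : ℂ) := by
      simp only [hR]
      push_cast
      rfl
    rw [← this, Complex.norm_real, Real.norm_eq_abs]
    exact le_abs_self _
  have hcs : c + s = Real.exp (1 / 2) := Real.cosh_add_sinh _
  have hc8 : c ≤ Real.exp (1 / 8) := by
    have := Real.cosh_le_exp_half_sq (1 / 2)
    rw [hc]
    refine this.trans (le_of_eq ?_)
    norm_num
  have hcN : c ^ N ≤ Real.exp (N / 8) := by
    calc c ^ N ≤ (Real.exp (1 / 8)) ^ N := pow_le_pow_left₀ hc0 hc8 _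
      _ = Real.exp (N / 8) := by rw [← Real.exp_nat_mul]; congr 1; ring
  have hsN : (1 / 2 : ℝ) ^ N * (c + s) ^ N ≤ Real.exp (N / 8) := by
    rw [← mul_pow, hcs]
    have h1 : 1 / 2 * Real.exp (1 / 2) ≤ 1 := by
      have h2 : Real.exp (1 / 2) ^ 2 = Real.exp 1 := by rw [← Real.exp_nat_mul]; norm_num
      have h3 := Real.exp_one_lt_d9
      nlinarith [Real.exp_pos (1 / 2)]
    have h4 : (1 / 2 * Real.exp (1 / 2)) ^ N ≤ 1 := pow_le_one₀ (by positivity) h1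
    have h5 : 1 ≤ Real.exp ((N : ℝ) / 8) := Real.one_le_exp (by positivity)
    linarith
  have hK0 : 0 ≤ K := by positivity
  have hup3 : ∑ w ∈ Ω, R (φ w) ≤ 2 * K * Real.exp (N / 8) := by
    have h1 : K * (1 / 2) ^ N * (c + s) ^ N = K * ((1 / 2) ^ N * (c + s) ^ N) := by ring
    rw [h1] at hup2
    have h2 := mul_le_mul_of_nonneg_left hcN hK0
    have h3 := mul_le_mul_of_nonneg_left hsN hK0
    linarith
  -- combine
  have hBsN : (0 : ℝ) < (Bs.card : ℝ) ^ N := by positivity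
  have hcomb : (Bs.card : ℝ) ^ N * ((T.card : ℝ) * Real.exp (N / 4)) ≤
      (Bs.card : ℝ) ^ N * (2 * Bp.card * Real.exp (N / 8)) := by
    calc (Bs.card : ℝ) ^ N * ((T.card : ℝ) * Real.exp (N / 4))
        ≤ (Bs.card : ℝ) ^ N * ∑ x ∈ B, R x := mul_le_mul_of_nonneg_left hlow2 hBsN.le
      _ ≤ _ := hmid
      _ ≤ _ := hup3
      _ = _ := by rw [hK]; ring
  have hcomb2 := le_of_mul_le_mul_left hcomb hBsN
  have hsplit : Real.exp ((N : ℝ) / 4) = Real.exp (N / 8) * Real.exp (N / 8) := by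
    rw [← Real.exp_add]; congr 1; ring
  rw [hsplit] at hcomb2
  have he8 : 0 < Real.exp ((N : ℝ) / 8) := Real.exp_pos _
  have h6 : (T.card : ℝ) * Real.exp (N / 8) ≤ 2 * Bp.card := by
    have : ((T.card : ℝ) * Real.exp (N / 8)) * Real.exp (N / 8) ≤
        (2 * Bp.card) * Real.exp (N / 8) := by linarith
    exact le_of_mul_le_mul_right this he8
  have h7 : (τ * Real.exp (N / 8)) * B.card ≤ 4 * B.card := by
    calc (τ * Real.exp (N / 8)) * B.card = (τ * B.card) * Real.exp (N / 8) := by ring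
      _ ≤ T.card * Real.exp (N / 8) := mul_le_mul_of_nonneg_right hT he8.le
      _ ≤ 2 * Bp.card := h6
      _ ≤ 4 * B.card := by linarith
  have h8 : τ * Real.exp (N / 8) ≤ 4 := le_of_mul_le_mul_right h7 hBc
  have h9 : Real.exp ((N : ℝ) / 8) ≤ 4 / τ := by
    rw [le_div_iff₀ hτ]; linarith
  have h10 := Real.log_le_log he8 h9
  rw [Real.log_exp] at h10
  linarith

end Vale.Agent.P057.KM
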